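import Mathlib

set_option autoImplicit false

open Set Filter Metric Topology MeasureTheory
open scoped ComplexConjugate

namespace Crest.Agent.H0179

/-- The unit circle. -/
abbrev S1 : Set ℂ := sphere (0 : ℂ) 1

theorem mem_S1 {u : ℂ} : u ∈ S1 ↔ ‖u‖ = 1 := by simp [S1]

theorem S1_ne {u : ℂ} (hu : u ∈ S1) : u ≠ 0 := by rintro rfl; simp at hu

theorem S1_conj {u : ℂ} (hu : u ∈ S1) : conj u = u⁻¹ := by
  rw [Complex.inv_def, Complex.normSq_eq_norm_sq, mem_S1.1 hu]; simp

theorem S1_sub_ball {R : ℝ} (hR : 1 < R) : S1 ⊆ ball (0 : ℂ) R := fun u hu => by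
  simpa [mem_S1.1 hu] using hR

section
variable {E : Type*} [NormedAddCommGroup E] [NormedSpace ℝ E]

/-- Average over the unit circle. -/
noncomputable def av (f : ℂ → E) : E := Real.circleAverage f 0 1

omit [NormedSpace ℝ E] in
theorem ci {f : ℂ → E} (hf : ContinuousOn f S1) : CircleIntegrable f 0 1 :=
  hf.circleIntegrable zero_le_one

theorem av_congr {f g : ℂ → E} (h : ∀ u ∈ S1, f u = g u) : av f = av g :=
  Real.circleAverage_congr_sphere (fun u hu => h u (by simpa using hu))

omit [NormedAddCommGroup E] [NormedSpace ℝ E] in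
theorem off_aux {f g : ℂ → E} (v : ℂ) (h : ∀ u ∈ S1, u ≠ v → f u = g u) :
    f =ᶠ[codiscreteWithin (sphere (0 : ℂ) |1|)] g := by
  filter_upwards [Filter.self_mem_codiscreteWithin _,
    compl_singleton_mem_codiscreteWithin (s := sphere (0 : ℂ) |1|) v] with u hu huv
  exact h u (by simpa using hu) huv

theorem av_congr_off {f g : ℂ → E} (v : ℂ) (h : ∀ u ∈ S1, u ≠ v → f u = g u) : av f = av g :=
  Real.circleAverage_congr_codiscreteWithin (off_aux v h) one_ne_zero

omit [NormedSpace ℝ E] in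
theorem ci_congr_off {f g : ℂ → E} (v : ℂ) (h : ∀ u ∈ S1, u ≠ v → f u = g u)
    (hf : CircleIntegrable f 0 1) : CircleIntegrable g 0 1 :=
  hf.congr_codiscreteWithin (off_aux v h)

theorem av_add {f g : ℂ → E} (hf : ContinuousOn f S1) (hg : ContinuousOn g S1) :
    av (fun u => f u + g u) = av f + av g :=
  Real.circleAverage_fun_add (ci hf) (ci hg)

theorem av_sub {f g : ℂ → E} (hf : ContinuousOn f S1) (hg : ContinuousOn g S1) :
    av (fun u => f u - g u) = av f - av g :=
  Real.circleAverage_fun_sub (ci hf) (ci hg)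

theorem av_sum {ι : Type*} (s : Finset ι) {f : ι → ℂ → E} (hf : ∀ i ∈ s, ContinuousOn (f i) S1) :
    av (fun u => ∑ i ∈ s, f i u) = ∑ i ∈ s, av (f i) :=
  Real.circleAverage_fun_sum fun i hi => ci (hf i hi)

theorem av_const [CompleteSpace E] (a : E) : av (fun _ => a) = a :=
  Real.circleAverage_const a 0 1

theorem av_clmR [CompleteSpace E] {F : Type*} [NormedAddCommGroup F] [NormedSpace ℝ F]
    [CompleteSpace F] (L : E →L[ℝ] F) {f : ℂ → E} (hf : ContinuousOn f S1) :
    av (fun u => L (f u)) = L (av f) :=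
  L.circleAverage_comp_comm (ci hf)

end

theorem av_clm {E F : Type*} [NormedAddCommGroup E] [NormedSpace ℂ E] [CompleteSpace E]
    [NormedAddCommGroup F] [NormedSpace ℂ F] [CompleteSpace F] (L : E →L[ℂ] F) {f : ℂ → E}
    (hf : ContinuousOn f S1) : av (fun u => L (f u)) = L (av f) :=
  av_clmR (L.restrictScalars ℝ) hf

theorem av_smul {E : Type*} [NormedAddCommGroup E] [NormedSpace ℂ E] (c : ℂ) (f : ℂ → E) :
    av (fun u => c • f u) = c • av f :=
  Real.circleAverage_fun_smul

theorem av_mul (c : ℂ) (f : ℂ → ℂ) : av (fun u => c * f u) = c * av f := av_smul c f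

theorem av_rmul (c : ℝ) (f : ℂ → ℝ) : av (fun u => c * f u) = c * av f :=
  Real.circleAverage_fun_smul (a := c)

theorem av_re {f : ℂ → ℂ} (hf : ContinuousOn f S1) : av (fun u => (f u).re) = (av f).re :=
  av_clmR Complex.reCLM hf

theorem av_conj {f : ℂ → ℂ} (hf : ContinuousOn f S1) : av (fun u => conj (f u)) = conj (av f) :=
  av_clmR (Complex.conjCLE : ℂ →L[ℝ] ℂ) hf

theorem av_mono {f g : ℂ → ℝ} (hf : ContinuousOn f S1) (hg : ContinuousOn g S1)
    (h : ∀ u ∈ S1, f u ≤ g u) : av f ≤ av g :=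
  Real.circleAverage_mono (ci hf) (ci hg) (by simpa using h)

theorem av_nonneg {f : ℂ → ℝ} (h : ∀ u ∈ S1, 0 ≤ f u) : 0 ≤ av f :=
  Real.circleAverage_nonneg_of_nonneg (by simpa using h)

theorem av_holo {E : Type*} [NormedAddCommGroup E] [NormedSpace ℂ E] [CompleteSpace E]
    {R : ℝ} (hR : 1 < R) {f : ℂ → E} (hf : DifferentiableOn ℂ f (ball 0 R)) : av f = f 0 := by
  apply DiffContOnCl.circleAverage
  apply DifferentiableOn.diffContOnCl
  rw [abs_one, closure_ball _ one_ne_zero]
  exact hf.mono (closedBall_subset_ball hR)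

theorem av_deriv {Φ φ : ℂ → ℂ} (hΦ : ∀ u ∈ S1, HasDerivAt Φ (φ u) u) (hφ : ContinuousOn φ S1) :
    av (fun u => u * φ u) = 0 := by
  have hm : ∀ θ, circleMap 0 1 θ ∈ S1 := fun θ => circleMap_mem_sphere 0 zero_le_one θ
  have h1 : ∀ θ : ℝ, HasDerivAt (fun θ => Φ (circleMap 0 1 θ))
      (Complex.I * (circleMap 0 1 θ * φ (circleMap 0 1 θ))) θ := by
    intro θ
    have := (hΦ _ (hm θ)).scomp θ (hasDerivAt_circleMap 0 1 θ)
    refine this.congr_deriv ?_
    simp only [smul_eq_mul]; ring
  have hc : Continuous fun θ => Complex.I * (circleMap 0 1 θ * φ (circleMap 0 1 θ)) :=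
    continuous_const.mul ((continuous_circleMap 0 1).mul
      (hφ.comp_continuous (continuous_circleMap 0 1) hm))
  have h2 := intervalIntegral.integral_eq_sub_of_hasDerivAt (a := 0) (b := 2 * Real.pi)
    (fun θ _ => h1 θ) (hc.intervalIntegrable _ _)
  have h3 : circleMap 0 1 (2 * Real.pi) = circleMap 0 1 0 := by
    simpa using periodic_circleMap 0 1 0
  rw [h3, sub_self, intervalIntegral.integral_const_mul] at h2
  have h4 := (mul_eq_zero.1 h2).resolve_left Complex.I_ne_zero
  simp only [av, Real.circleAverage, h4, smul_zero]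

theorem av_swap {F : ℂ → ℂ → ℝ}
    (hmeas : Measurable (fun p : ℝ × ℝ => F (circleMap 0 1 p.1) (circleMap 0 1 p.2)))
    (hpos : ∀ u ∈ S1, ∀ v ∈ S1, 0 ≤ F u v) (h1 : ∀ u ∈ S1, CircleIntegrable (F u) 0 1)
    (h2 : CircleIntegrable (fun u => av (F u)) 0 1) :
    av (fun v => av (fun u => F u v)) = av (fun u => av (F u)) ∧
      CircleIntegrable (fun v => av (fun u => F u v)) 0 1 := by
  have hm : ∀ θ, circleMap 0 1 θ ∈ S1 := fun θ => circleMap_mem_sphere 0 zero_le_one θ
  have hpi : (0 : ℝ) ≤ 2 * Real.pi := by positivity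
  have hint : Integrable (Function.uncurry fun θ φ => F (circleMap 0 1 θ) (circleMap 0 1 φ))
      ((volume.restrict (Ioc 0 (2 * Real.pi))).prod (volume.restrict (Ioc 0 (2 * Real.pi)))) := by
    refine (integrable_prod_iff hmeas.aestronglyMeasurable).2
      ⟨Eventually.of_forall fun θ => (h1 _ (hm θ)).1, ?_⟩
    have h3 := (h2.1).const_mul (2 * Real.pi)
    refine h3.congr (Eventually.of_forall fun θ => ?_)
    simp only [av, Real.circleAverage, smul_eq_mul, intervalIntegral.integral_of_le hpi]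
    rw [← mul_assoc, mul_inv_cancel₀ (by positivity), one_mul]
    congr 1
    ext φ
    exact (Real.norm_of_nonneg (hpos _ (hm θ) _ (hm φ))).symm
  constructor
  · have := integral_integral_swap hint
    simp only [av, Real.circleAverage, smul_eq_mul, intervalIntegral.integral_of_le hpi,
      integral_const_mul]
    rw [this]
  · unfold CircleIntegrable
    rw [intervalIntegrable_iff_integrableOn_Ioc_of_le hpi]
    simp only [av, Real.circleAverage, smul_eq_mul, intervalIntegral.integral_of_le hpi]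
    exact hint.integral_prod_right.const_mul _

/-- Pythagoras for `a + conj b` with `a`, `b` holomorphic. -/
theorem av_pyth {R : ℝ} (hR : 1 < R) {a b : ℂ → ℂ} (ha : DifferentiableOn ℂ a (ball 0 R))
    (hb : DifferentiableOn ℂ b (ball 0 R)) :
    av (fun u => ‖a u + conj (b u)‖ ^ 2) =
      av (fun u => ‖a u‖ ^ 2) + av (fun u => ‖b u‖ ^ 2) + 2 * (a 0 * b 0).re := by
  have hac := ha.continuousOn.mono (S1_sub_ball hR)
  have hbc := hb.continuousOn.mono (S1_sub_ball hR)
  rw [← av_holo hR (ha.fun_mul hb), ← av_re (by fun_prop), ← av_rmul,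
    ← av_add (by fun_prop) (by fun_prop), ← av_add (by fun_prop) (by fun_prop)]
  apply av_congr
  intro u _
  simp only [← Complex.normSq_eq_norm_sq, Complex.normSq_apply]
  simp
  ring

end Crest.Agent.H0179
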