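import Crest.Agent.H0179.RMT
import Crest.Agent.H0179.Avg

set_option autoImplicit false

open Set Filter Metric Topology
open scoped ComplexConjugate

namespace Crest.Agent.H0179

theorem deriv_ne_zero_of_injOn {U : Set ℂ} (hU : IsOpen U) {f : ℂ → ℂ}
    (hf : DifferentiableOn ℂ f U) (hinj : InjOn f U) {a : ℂ} (ha : a ∈ U) : deriv f a ≠ 0 := by
  intro hd
  have hfa : AnalyticAt ℂ f a := hf.analyticAt (hU.mem_nhds ha)
  have hea : AnalyticAt ℂ (fun z => f z - f a) a := hfa.fun_sub analyticAt_const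
  have hne : ∀ᶠ z in 𝓝[≠] a, f z - f a ≠ 0 := by
    filter_upwards [self_mem_nhdsWithin, mem_nhdsWithin_of_mem_nhds (hU.mem_nhds ha)]
      with z hz hzU h using hz (hinj hzU ha (sub_eq_zero.1 h))
  have hnt : analyticOrderAt (fun z => f z - f a) a ≠ ⊤ := by
    rw [Ne, analyticOrderAt_eq_top]
    intro h
    obtain ⟨z, h1, h2⟩ := (hne.and (h.filter_mono nhdsWithin_le_nhds)).exists
    exact h1 h2
  obtain ⟨k, hk⟩ := ENat.ne_top_iff_exists.1 hnt
  have hk2 : 2 ≤ k := by
    have : ((2 : ℕ) : ℕ∞) ≤ analyticOrderAt (fun z => f z - f a) a := by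
      rw [natCast_le_analyticOrderAt_iff_iteratedDeriv_eq_zero hea]
      intro i hi
      interval_cases i
      · simp
      · simpa using hd
    rw [← hk] at this
    exact_mod_cast this
  obtain ⟨g, hg, hga, hge⟩ := hea.analyticOrderAt_eq_natCast.1 hk.symm
  obtain ⟨c, hc⟩ := IsAlgClosed.exists_pow_nat_eq (g a) (show 0 < k by omega)
  have hk0 : (k : ℂ) ≠ 0 := by exact_mod_cast (show k ≠ 0 by omega)
  set φ : ℂ → ℂ := fun z => (z - a) * (Complex.exp (Complex.log (g z / g a) / k) * c) with hφ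
  have hφa : AnalyticAt ℂ φ a := by
    have h1 : AnalyticAt ℂ (fun z => Complex.log (g z / g a)) a :=
      (hg.fun_div analyticAt_const hga).clog (by simp [div_self hga])
    exact (analyticAt_id.sub analyticAt_const).mul
      (((h1.fun_div analyticAt_const hk0).cexp).mul analyticAt_const)
  have hφk : ∀ᶠ z in 𝓝 a, φ z ^ k = f z - f a ∧ z ∈ U := by
    filter_upwards [hge, hg.continuousAt.eventually_ne hga, hU.mem_nhds ha] with z h1 h2 h3
    refine ⟨?_, h3⟩
    rw [h1, hφ]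
    simp only [mul_pow, ← Complex.exp_nat_mul, mul_div_cancel₀ _ hk0, hc,
      Complex.exp_log (div_ne_zero h2 hga), smul_eq_mul]
    field_simp
  have hφ0 : φ a = 0 := by simp [hφ]
  rcases hφa.eventually_constant_or_nhds_le_map_nhds with h | h
  · obtain ⟨z, h1, h2, h3⟩ := (hne.and ((h.and hφk).filter_mono nhdsWithin_le_nhds)).exists
    rw [← h3.1, h2, hφ0, zero_pow (by omega)] at h1
    exact h1 rfl
  · have h1 : φ '' {z | φ z ^ k = f z - f a ∧ z ∈ U} ∈ 𝓝 (0 : ℂ) := by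
      rw [← hφ0]; exact h (image_mem_map hφk)
    obtain ⟨ε, hε, hb⟩ := Metric.nhds_basis_closedBall.mem_iff.1 h1
    have hω := Complex.isPrimitiveRoot_exp k (by omega)
    set ω := Complex.exp (2 * Real.pi * Complex.I / k) with hωd
    have hω1 : ‖ω‖ = 1 := hω.norm'_eq_one (by omega)
    obtain ⟨z₁, ⟨e1, m1⟩, f1⟩ := hb (show (ε : ℂ) ∈ closedBall 0 ε by simp [abs_of_pos hε])
    obtain ⟨z₂, ⟨e2, m2⟩, f2⟩ := hb (show (ε : ℂ) * ω ∈ closedBall 0 ε by
      simp [abs_of_pos hε, hω1])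
    have h3 : f z₁ = f z₂ := by
      rw [f1] at e1
      rw [f2, mul_pow, hω.pow_eq_one, mul_one] at e2
      linear_combination e2 - e1
    have h4 := hinj m1 m2 h3
    rw [h4, f2] at f1
    have hε' : (ε : ℂ) ≠ 0 := by exact_mod_cast hε.ne'
    exact hω.ne_one (by omega) (mul_left_cancel₀ hε' (f1.trans (mul_one _).symm))

/-- Change of variables along an injective holomorphic self-map of the circle. -/
theorem change_var {ψ : ℂ → ℂ} {W : Set ℂ} (hW : IsOpen W) (hS : S1 ⊆ W)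
    (hψ : DifferentiableOn ℂ ψ W) (h1 : ∀ t ∈ S1, ‖ψ t‖ = 1) (hinj : InjOn ψ S1)
    (hout : ∀ t ∈ W, 1 < ‖t‖ → 1 ≤ ‖ψ t‖) :
    ∃ j : ℝ → ℝ, Continuous j ∧ Function.Periodic j (2 * Real.pi) ∧ (∀ θ, 0 ≤ j θ) ∧
      ∀ Φ : ℂ → ℂ, ContinuousOn Φ S1 →
        (2 * Real.pi : ℂ)⁻¹ * ∫ θ in (0 : ℝ)..2 * Real.pi, j θ * Φ (ψ (circleMap 0 1 θ)) = av Φ := by
  have hm : ∀ θ, circleMap 0 1 θ ∈ S1 := fun θ => circleMap_mem_sphere 0 zero_le_one θ
  have hcc := continuous_circleMap 0 1
  have hd : ∀ t ∈ S1, HasDerivAt ψ (deriv ψ t) t := fun t ht =>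
    (hψ.differentiableAt (hW.mem_nhds (hS ht))).hasDerivAt
  have hψc : Continuous fun θ => ψ (circleMap 0 1 θ) :=
    (hψ.continuousOn.mono hS).comp_continuous hcc hm
  have hψ'c : Continuous fun θ => deriv ψ (circleMap 0 1 θ) :=
    ((hψ.deriv hW).continuousOn.mono hS).comp_continuous hcc hm
  have hψS : ∀ t ∈ S1, ψ t ∈ S1 := fun t ht => mem_S1.2 (h1 t ht)
  set q : ℝ → ℂ := fun θ => conj (ψ (circleMap 0 1 θ)) *
    (circleMap 0 1 θ * deriv ψ (circleMap 0 1 θ)) with hq
  have hqc : Continuous q := (Complex.continuous_conj.comp hψc).mul (hcc.mul hψ'c)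
  have hdθ : ∀ θ, HasDerivAt (fun θ => ψ (circleMap 0 1 θ))
      (Complex.I * (circleMap 0 1 θ * deriv ψ (circleMap 0 1 θ))) θ := by
    intro θ
    refine ((hd _ (hm θ)).scomp θ (hasDerivAt_circleMap 0 1 θ)).congr_deriv ?_
    simp only [smul_eq_mul]; ring
  have him : ∀ θ, (q θ).im = 0 := by
    intro θ
    have h2 := (hdθ θ).norm_sq
    have h3 : (fun θ => ‖ψ (circleMap 0 1 θ)‖ ^ 2) = fun _ => 1 := by
      ext θ; rw [h1 _ (hm θ)]; simp
    rw [h3] at h2
    have h4 := h2.unique (hasDerivAt_const θ (1 : ℝ))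
    rw [Complex.inner] at h4
    simp only [hq]
    simp at h4 ⊢
    linarith
  have hre : ∀ θ, 0 ≤ (q θ).re := by
    intro θ
    set t := circleMap 0 1 θ with ht
    have ht1 : ‖t‖ = 1 := mem_S1.1 (hm θ)
    have h2 : HasDerivAt (fun s : ℝ => ψ ((1 + s) * t)) (deriv ψ t * t) 0 := by
      have h3 : HasDerivAt (fun s : ℂ => ψ ((1 + s) * t)) (deriv ψ t * (1 * t)) 0 := by
        apply HasDerivAt.comp (0 : ℂ) (h₂ := ψ) _ (((hasDerivAt_id (0 : ℂ)).const_add 1).mul_const t)
        simpa using hd t (hm θ)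
      simpa using h3.comp_ofReal (z := 0)
    have h4 := h2.norm_sq
    have h5 : ∀ᶠ s : ℝ in 𝓝 0, (1 + s) * t ∈ W := by
      have hc : ContinuousAt (fun s : ℝ => (1 + s) * t) 0 := by fun_prop
      exact hc.eventually_mem (hW.mem_nhds (by simpa using hS (hm θ)))
    have h6 := ge_of_tendsto h4.tendsto_slope_zero_right (b := 0) (by
      filter_upwards [self_mem_nhdsWithin, h5.filter_mono nhdsWithin_le_nhds] with s hs hsW
      have hs0 : 0 < s := hs
      have h7 : 1 ≤ ‖ψ ((1 + s) * t)‖ := by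
        apply hout _ hsW
        rw [norm_mul, ht1, mul_one]
        have : (1 + s : ℂ) = ((1 + s : ℝ) : ℂ) := by push_cast; rfl
        rw [this, Complex.norm_real, Real.norm_of_nonneg (by linarith)]
        linarith
      simp only [zero_add, Complex.ofReal_zero, add_zero, one_mul, h1 t (hm θ), smul_eq_mul]
      exact mul_nonneg (inv_nonneg.2 hs0.le) (by nlinarith))
    rw [Complex.inner] at h6
    simp only [hq, ← ht]
    simp at h6 ⊢
    linarith
  set j : ℝ → ℝ := fun θ => (q θ).re with hj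
  have hjc : Continuous j := Complex.continuous_re.comp hqc
  have hqj : ∀ θ, circleMap 0 1 θ * deriv ψ (circleMap 0 1 θ) = j θ * ψ (circleMap 0 1 θ) := by
    intro θ
    have h2 : q θ = j θ := Complex.ext (by simp [hj]) (by simp [him θ])
    rw [← h2, hq]
    have := S1_ne (hψS _ (hm θ))
    simp only [S1_conj (hψS _ (hm θ))]
    field_simp
  obtain ⟨α, hα⟩ : ∃ α : ℝ, circleMap 0 1 α = ψ (circleMap 0 1 0) := by
    have : ψ (circleMap 0 1 0) ∈ range (circleMap 0 1) := by
      rw [range_circleMap, abs_one]; exact hψS _ (hm 0)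
    exact this
  set φ : ℝ → ℝ := fun θ => α + ∫ x in (0 : ℝ)..θ, j x with hφ
  have hφd : ∀ θ, HasDerivAt φ (j θ) θ := fun θ =>
    ((hjc.integral_hasStrictDerivAt 0 θ).hasDerivAt).const_add α
  have hφ0 : φ 0 = α := by simp [hφ]
  have hlift : ∀ θ, ψ (circleMap 0 1 θ) = circleMap 0 1 (φ θ) := by
    have hE : ∀ θ, HasDerivAt (fun θ => ψ (circleMap 0 1 θ) * circleMap 0 1 (-φ θ)) 0 θ := by
      intro θ
      have h2 := (hasDerivAt_circleMap 0 1 (-φ θ)).scomp θ (hφd θ).neg
      refine ((hdθ θ).mul h2).congr_deriv ?_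
      rw [hqj]
      simp only [Function.comp, Complex.real_smul, Pi.neg_apply]
      push_cast
      ring
    intro θ
    have h3 := is_const_of_deriv_eq_zero (fun θ => (hE θ).differentiableAt)
      (fun θ => (hE θ).deriv) θ 0
    have hinv : ∀ x : ℝ, circleMap 0 1 (-x) = (circleMap 0 1 x)⁻¹ := fun x => by
      simp [circleMap_zero_inv]
    rw [hφ0, ← hα, hinv, hinv] at h3
    have h4 := S1_ne (hm α)
    have h5 := S1_ne (hm (φ θ))
    field_simp at h3
    exact h3
  have hmono : Monotone φ := monotone_of_deriv_nonneg (fun θ => (hφd θ).differentiableAt)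
    (fun θ => by rw [(hφd θ).deriv]; exact hre θ)
  have hφc : Continuous φ := continuous_iff_continuousAt.2 fun θ => (hφd θ).continuousAt
  have hpi : 0 < 2 * Real.pi := by positivity
  have hno : ∀ θ ∈ Ioo 0 (2 * Real.pi), circleMap 0 1 (φ θ) ≠ circleMap 0 1 α := by
    intro θ hθ h
    rw [← hlift, hα] at h
    have h2 := hinj (hm θ) (hm 0) h
    exact hθ.1.ne' (injOn_circleMap_of_abs_sub_le' (a := 0) (b := 2 * Real.pi) one_ne_zero
      (by simp) ⟨hθ.1.le, hθ.2⟩ ⟨le_rfl, hpi⟩ h2)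
  have hend : φ (2 * Real.pi) = α + 2 * Real.pi := by
    rcases lt_trichotomy (φ (2 * Real.pi)) (α + 2 * Real.pi) with h | h | h
    · exfalso
      have h2 : circleMap 0 1 (φ (2 * Real.pi)) = circleMap 0 1 α := by
        rw [← hlift, hα]
        simpa using congrArg ψ (periodic_circleMap 0 1 0)
      have h3 : α ≤ φ (2 * Real.pi) := hφ0 ▸ hmono hpi.le
      have h4 := injOn_circleMap_of_abs_sub_le' (a := α) (b := α + 2 * Real.pi) one_ne_zero
        (by simp) ⟨h3, h⟩ ⟨le_rfl, by linarith⟩ h2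
      have h5 : φ Real.pi = α := le_antisymm (h4 ▸ hmono (by linarith [Real.pi_pos]))
        (hφ0 ▸ hmono Real.pi_pos.le)
      exact hno Real.pi ⟨Real.pi_pos, by linarith [Real.pi_pos]⟩ (by rw [h5])
    · exact h
    · exfalso
      obtain ⟨θ, hθ, hθe⟩ := intermediate_value_Ioo hpi.le hφc.continuousOn
        (show α + 2 * Real.pi ∈ Ioo (φ 0) (φ (2 * Real.pi)) from ⟨by rw [hφ0]; linarith, h⟩)
      exact hno θ hθ (by rw [hθe]; exact periodic_circleMap 0 1 α)
  refine ⟨j, hjc, fun θ => by simp only [hj, hq, periodic_circleMap 0 1 θ], hre, fun Φ hΦ => ?_⟩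
  have hsub := intervalIntegral.integral_deriv_smul_comp (a := 0) (b := 2 * Real.pi)
    (fun θ _ => hφd θ) hjc.continuousOn (hΦ.comp_continuous hcc hm)
  rw [hφ0, hend] at hsub
  have hper : Function.Periodic (fun θ => Φ (circleMap 0 1 θ)) (2 * Real.pi) :=
    fun θ => by simp only [periodic_circleMap 0 1 θ]
  have h2 := hper.intervalIntegral_add_eq α 0
  simp only [Function.comp, Complex.real_smul, ← hlift] at hsub
  rw [hsub, h2, av, Real.circleAverage, zero_add, Complex.real_smul]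
  push_cast
  rfl

end Crest.Agent.H0179
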