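import Crest.Agent.H0179.Main

set_option autoImplicit false

open Set Filter Metric Topology
open scoped ComplexConjugate InnerProductSpace

namespace Crest.Agent.H0179

variable {V : Type*} [NormedAddCommGroup V] [InnerProductSpace ℂ V] [FiniteDimensional ℂ V]
variable {C : Set ℂ} {R : ℝ} {k : ℂ → ℂ} {A : V →L[ℂ] V}
variable {ι : Type*} [Fintype ι]

theorem av_sum₂ {E : Type*} [NormedAddCommGroup E] [NormedSpace ℝ E] {f : ι → ι → ℂ → E}
    (hf : ∀ i j, ContinuousOn (f i j) S1) :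
    av (fun u => ∑ i, ∑ j, f i j u) = ∑ i, ∑ j, av (f i j) := by
  rw [av_sum _ (f := fun i u => ∑ j, f i j u)
    (fun i _ => continuousOn_finsetSum _ fun j _ => hf i j)]
  exact Finset.sum_congr rfl fun i _ => av_sum _ fun j _ => hf i j

theorem Ext.beta_le (E : Ext C R k) (hA : ∀ x : V, ‖x‖ = 1 → ⟪x, A x⟫_ℂ ∈ C) (x y : ι → V) :
    ∑ i, ∑ j, av (fun u => ‖⟪y i, Kop k A u (x j)⟫_ℂ‖ ^ 2) ≤
      2 * (∑ i, ∑ j, qq (fun u => ⟪x i, Kop k A u (x j)⟫_ℂ) +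
        ∑ i, ∑ j, qq (fun u => ⟪y i, Kop k A u (y j)⟫_ℂ)) := by
  have hR := E.one_lt
  have hpy : ∀ a b : V, av (fun u => ‖⟪a, Kop k A u b⟫_ℂ + conj ⟪b, Kop k A u a⟫_ℂ‖ ^ 2) =
      av (fun u => ‖⟪a, Kop k A u b⟫_ℂ‖ ^ 2) + av (fun u => ‖⟪b, Kop k A u a⟫_ℂ‖ ^ 2) +
        2 * ‖⟪a, b⟫_ℂ‖ ^ 2 := by
    intro a b
    rw [av_pyth hR (E.diffB hA a b) (E.diffB hA b a), E.K_zero hA]
    simp only [one_apply_eq_self]
    rw [← inner_conj_symm b a, Complex.mul_conj']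
    norm_cast
  have hc : ∀ a b : V, ContinuousOn
      (fun u => ‖⟪a, Kop k A u b⟫_ℂ + conj ⟪b, Kop k A u a⟫_ℂ‖ ^ 2) S1 := fun a b =>
    ((((E.diffB hA a b).continuousOn.mono E.sub).add (Complex.continuous_conj.comp_continuousOn
      ((E.diffB hA b a).continuousOn.mono E.sub))).norm).pow 2
  have hq : ∀ z : ι → V,
      ∑ i, ∑ j, av (fun u => ‖⟪z i, Kop k A u (z j)⟫_ℂ + conj ⟪z j, Kop k A u (z i)⟫_ℂ‖ ^ 2) =
        4 * ∑ i, ∑ j, qq (fun u => ⟪z i, Kop k A u (z j)⟫_ℂ) := by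
    intro z
    simp only [hpy, qq, E.K_zero hA, one_apply_eq_self, Finset.sum_add_distrib, add_div,
      ← Finset.sum_div, ← Finset.mul_sum]
    rw [Finset.sum_comm (f := fun i j => av (fun u => ‖⟪z j, Kop k A u (z i)⟫_ℂ‖ ^ 2))]
    ring
  have h1 := av_mono (f := fun u => 2 * ∑ i, ∑ j,
      ‖⟪y i, Kop k A u (x j)⟫_ℂ + conj ⟪x j, Kop k A u (y i)⟫_ℂ‖ ^ 2)
    (g := fun u => ∑ i, ∑ j, ‖⟪x i, Kop k A u (x j)⟫_ℂ + conj ⟪x j, Kop k A u (x i)⟫_ℂ‖ ^ 2 +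
      ∑ i, ∑ j, ‖⟪y i, Kop k A u (y j)⟫_ℂ + conj ⟪y j, Kop k A u (y i)⟫_ℂ‖ ^ 2)
    (continuousOn_const.mul (continuousOn_finsetSum _ fun i _ =>
      continuousOn_finsetSum _ fun j _ => hc _ _))
    ((continuousOn_finsetSum _ fun i _ => continuousOn_finsetSum _ fun j _ => hc _ _).add
      (continuousOn_finsetSum _ fun i _ => continuousOn_finsetSum _ fun j _ => hc _ _))
    (fun u hu => gram_ineq _ (E.posK hA hu) x y)
  rw [av_rmul, av_add
    (continuousOn_finsetSum _ fun i _ => continuousOn_finsetSum _ fun j _ => hc _ _)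
    (continuousOn_finsetSum _ fun i _ => continuousOn_finsetSum _ fun j _ => hc _ _),
    av_sum₂ (fun i j => hc _ _), av_sum₂ (fun i j => hc _ _), av_sum₂ (fun i j => hc _ _),
    hq, hq] at h1
  have h2 : ∑ i, ∑ j, av (fun u => ‖⟪y i, Kop k A u (x j)⟫_ℂ‖ ^ 2) ≤ ∑ i, ∑ j,
      av (fun u => ‖⟪y i, Kop k A u (x j)⟫_ℂ + conj ⟪x j, Kop k A u (y i)⟫_ℂ‖ ^ 2) := by
    refine Finset.sum_le_sum fun i _ => Finset.sum_le_sum fun j _ => ?_
    rw [hpy]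
    have : 0 ≤ av (fun u => ‖⟪x j, Kop k A u (y i)⟫_ℂ‖ ^ 2) := av_nonneg fun _ _ => by positivity
    have : 0 ≤ ‖⟪y i, x j⟫_ℂ‖ ^ 2 := by positivity
    linarith
  linarith

variable [DecidableEq ι]

theorem Ext.estX (E : Ext C R k) (hA : ∀ x : V, ‖x‖ = 1 → ⟪x, A x⟫_ℂ ∈ C)
    {φ : ι → ι → ℂ → ℂ} (hφ : ∀ i j, Adm k (φ i j)) {M : ℝ}
    (hM : ∀ u ∈ S1, ‖Matrix.toEuclideanCLM (n := ι) (𝕜 := ℂ) (Matrix.of fun i j => φ i j u)‖ ≤ M)
    {κ : ℝ} {x y : ι → V}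
    (hxy : ∀ ξ : ι → V, ∑ i, ⟪y i, ∑ j, JJ k A (φ i j) (ξ j)⟫_ℂ = κ * ∑ i, ⟪x i, ξ i⟫_ℂ)
    (h : ι → ι → Polynomial ℂ) :
    κ * ∑ i, ∑ j, (av (fun u => (h i j).eval (gg k u) * ⟪x i, Kop k A u (x j)⟫_ℂ)).re ≤
      M * ((1 / 4) * ∑ i, ∑ j, av (fun u => ‖⟪y i, Kop k A u (x j)⟫_ℂ‖ ^ 2) +
        ∑ i, ∑ j, av (fun u => ‖(h i j).eval (gg k u)‖ ^ 2)) := by
  have hB : ∀ a b : V, ContinuousOn (fun u => ⟪a, Kop k A u b⟫_ℂ) S1 := fun a b =>
    (E.diffB hA a b).continuousOn.mono E.sub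
  have hh : ∀ i j, ContinuousOn (fun u => (h i j).eval (gg k u)) S1 := fun i j =>
    (h i j).continuous.comp_continuousOn E.contg
  have hφc : ∀ i j, ContinuousOn (φ i j) S1 := fun i j => (hφ i j).1
  have h1 := hxy (fun i => ∑ j, Polynomial.aeval A (h i j) (x j))
  have h2 : ∑ i, ⟪x i, ∑ j, Polynomial.aeval A (h i j) (x j)⟫_ℂ =
      ∑ i, ∑ j, av (fun u => (h i j).eval (gg k u) * ⟪x i, Kop k A u (x j)⟫_ℂ) := by
    simp only [inner_sum, ← E.inner_J hA (hh _ _), E.J_poly hA]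
  have h3 : ∑ i, ⟪y i, ∑ l, JJ k A (φ i l) (∑ j, Polynomial.aeval A (h l j) (x j))⟫_ℂ =
      av (fun u => ∑ j, ∑ i, ∑ l, ⟪y i, Kop k A u (x j)⟫_ℂ * φ i l u * (h l j).eval (gg k u)) := by
    rw [av_sum _ (fun j _ => by fun_prop)]
    simp only [map_sum, inner_sum]
    symm
    calc _ = ∑ j, ∑ i, ∑ l, ⟪y i, JJ k A (φ i l) (Polynomial.aeval A (h l j) (x j))⟫_ℂ := by
          refine Finset.sum_congr rfl fun j _ => ?_
          rw [av_sum₂ (fun i l => by fun_prop)]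
          refine Finset.sum_congr rfl fun i _ => Finset.sum_congr rfl fun l _ => ?_
          rw [← mul_apply_eq_comp, ← E.J_mul_poly hA _ (hφ i l),
            E.inner_J hA ((hh l j).fun_mul (hφc i l))]
          exact av_congr fun u _ => by ring
      _ = _ := by
          rw [Finset.sum_comm]
          exact Finset.sum_congr rfl fun i _ => Finset.sum_comm
  rw [h2, h3] at h1
  have h4 := congrArg Complex.re h1
  rw [Complex.re_ofReal_mul, Complex.re_sum] at h4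
  simp only [Complex.re_sum] at h4
  rw [← h4, ← av_re (by fun_prop), ← av_sum₂ (fun i j => by fun_prop),
    ← av_sum₂ (fun i j => by fun_prop), ← av_rmul, ← av_add (by fun_prop) (by fun_prop), ← av_rmul]
  apply av_mono (by fun_prop) (by fun_prop)
  intro u hu
  rw [Complex.re_sum, Finset.sum_comm (f := fun i j => ‖⟪y i, Kop k A u (x j)⟫_ℂ‖ ^ 2),
    Finset.sum_comm (f := fun i j => ‖(h i j).eval (gg k u)‖ ^ 2), Finset.mul_sum,
    ← Finset.sum_add_distrib, Finset.mul_sum]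
  refine Finset.sum_le_sum fun j _ => ?_
  have := bilin_bound _ (hM u hu) (fun i => ⟪y i, Kop k A u (x j)⟫_ℂ)
    (fun l => (h l j).eval (gg k u)) (s := 1 / 4) (t := 1) (by norm_num) (by norm_num)
  simpa only [Matrix.of_apply, one_mul] using this

theorem Ext.estY (E : Ext C R k) (hA : ∀ x : V, ‖x‖ = 1 → ⟪x, A x⟫_ℂ ∈ C)
    {φ : ι → ι → ℂ → ℂ} (hφ : ∀ i j, Adm k (φ i j)) {M : ℝ}
    (hM : ∀ u ∈ S1, ‖Matrix.toEuclideanCLM (n := ι) (𝕜 := ℂ) (Matrix.of fun i j => φ i j u)‖ ≤ M)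
    {κ : ℝ} {x y : ι → V}
    (hxy : ∀ i, ∑ j, JJ k A (φ i j) (x j) = (κ : ℂ) • y i)
    (h : ι → ι → Polynomial ℂ) :
    κ * ∑ i, ∑ j, (av (fun u => (h i j).eval (gg k u) * ⟪y i, Kop k A u (y j)⟫_ℂ)).re ≤
      M * ((1 / 4) * ∑ i, ∑ j, av (fun u => ‖⟪y i, Kop k A u (x j)⟫_ℂ‖ ^ 2) +
        ∑ i, ∑ j, av (fun u => ‖(h i j).eval (gg k u)‖ ^ 2)) := by
  have hB : ∀ a b : V, ContinuousOn (fun u => ⟪a, Kop k A u b⟫_ℂ) S1 := fun a b =>
    (E.diffB hA a b).continuousOn.mono E.sub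
  have hh : ∀ i j, ContinuousOn (fun u => (h i j).eval (gg k u)) S1 := fun i j =>
    (h i j).continuous.comp_continuousOn E.contg
  have hφc : ∀ i j, ContinuousOn (φ i j) S1 := fun i j => (hφ i j).1
  have h1 : (κ : ℂ) * ∑ i, ∑ l, av (fun u => (h i l).eval (gg k u) * ⟪y i, Kop k A u (y l)⟫_ℂ) =
      av (fun u => ∑ i, ∑ l, ∑ j, (h i l).eval (gg k u) * φ l j u * ⟪y i, Kop k A u (x j)⟫_ℂ) := by
    rw [av_sum₂ (fun i l => by fun_prop)]
    simp only [Finset.mul_sum]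
    refine Finset.sum_congr rfl fun i _ => Finset.sum_congr rfl fun l _ => ?_
    rw [← E.inner_J hA (hh _ _), E.J_poly hA, ← inner_smul_right, ← map_smul, ← hxy, map_sum,
      inner_sum, av_sum _ (fun j _ => by fun_prop)]
    refine Finset.sum_congr rfl fun j _ => ?_
    rw [← mul_apply_eq_comp, ← E.J_poly_mul hA _ (hφ l j),
      E.inner_J hA ((hh i l).fun_mul (hφc l j))]
  have h4 := congrArg Complex.re h1
  rw [Complex.re_ofReal_mul, Complex.re_sum] at h4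
  simp only [Complex.re_sum] at h4
  rw [h4, ← av_re (by fun_prop), ← av_sum₂ (fun i j => by fun_prop),
    ← av_sum₂ (fun i j => by fun_prop), ← av_rmul, ← av_add (by fun_prop) (by fun_prop), ← av_rmul]
  apply av_mono (by fun_prop) (by fun_prop)
  intro u hu
  rw [Complex.re_sum, Finset.mul_sum, ← Finset.sum_add_distrib, Finset.mul_sum]
  refine Finset.sum_le_sum fun i _ => ?_
  have := bilin_bound _ (hM u hu) (fun l => (h i l).eval (gg k u))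
    (fun j => ⟪y i, Kop k A u (x j)⟫_ℂ) (s := 1) (t := 1 / 4) (by norm_num) (by norm_num)
  simpa only [Matrix.of_apply, one_mul, add_comm] using this

theorem Ext.kappa_le (E : Ext C R k) (hA : ∀ x : V, ‖x‖ = 1 → ⟪x, A x⟫_ℂ ∈ C)
    {φ : ι → ι → ℂ → ℂ} (hφ : ∀ i j, Adm k (φ i j)) {M : ℝ}
    (hM : ∀ u ∈ S1, ‖Matrix.toEuclideanCLM (n := ι) (𝕜 := ℂ) (Matrix.of fun i j => φ i j u)‖ ≤ M)
    {κ : ℝ} (hκ : 0 ≤ κ) {x y : ι → V} (hx : x ≠ 0)
    (hxy : ∀ i, ∑ j, JJ k A (φ i j) (x j) = (κ : ℂ) • y i)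
    (hyx : ∀ ξ : ι → V, ∑ i, ⟪y i, ∑ j, JJ k A (φ i j) (ξ j)⟫_ℂ = κ * ∑ i, ⟪x i, ξ i⟫_ℂ) :
    κ ≤ 2 * M := by
  have hM0 : 0 ≤ M := (norm_nonneg _).trans (hM 1 (by simp))
  set qx := ∑ i, ∑ j, qq (fun u => ⟪x i, Kop k A u (x j)⟫_ℂ) with hqx
  set qy := ∑ i, ∑ j, qq (fun u => ⟪y i, Kop k A u (y j)⟫_ℂ) with hqy
  have hβ := E.beta_le hA x y
  rw [← hqx, ← hqy] at hβ
  have hq0 : ∀ a : ℂ → ℂ, 0 ≤ qq a := fun a => by
    have : 0 ≤ av (fun u => ‖a u‖ ^ 2) := av_nonneg fun _ _ => by positivity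
    unfold qq; positivity
  have hqy0 : 0 ≤ qy := Finset.sum_nonneg fun i _ => Finset.sum_nonneg fun j _ => hq0 _
  have hqx0 : 0 < qx := by
    obtain ⟨i, hi⟩ := Function.ne_iff.1 hx
    refine Finset.sum_pos' (fun i _ => Finset.sum_nonneg fun j _ => hq0 _)
      ⟨i, Finset.mem_univ _, Finset.sum_pos' (fun j _ => hq0 _) ⟨i, Finset.mem_univ _, ?_⟩⟩
    have h1 : 0 ≤ av (fun u => ‖⟪x i, Kop k A u (x i)⟫_ℂ‖ ^ 2) :=
      av_nonneg fun _ _ => by positivity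
    have h2 : 0 < ‖⟪x i, Kop k A 0 (x i)⟫_ℂ‖ ^ 2 := by
      rw [E.K_zero hA, one_apply_eq_self]
      exact pow_pos (norm_pos_iff.2 (inner_self_ne_zero.2 hi)) 2
    unfold qq; positivity
  set N : ℝ := Fintype.card ι * Fintype.card ι with hN
  have key : ∀ ε : ℝ, 0 < ε → (κ - 2 * M) * (qx + qy) ≤ 2 * (κ + M) * N * ε := by
    intro ε hε
    choose hX hX1 hX2 using fun i j => E.exists_test (E.diffB hA (x i) (x j)) hε
    choose hY hY1 hY2 using fun i j => E.exists_test (E.diffB hA (y i) (y j)) hε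
    have e1 := E.estX hA hφ hM hyx hX
    have e2 := E.estY hA hφ hM hxy hY
    have s1 := Finset.sum_le_sum fun i (_ : i ∈ Finset.univ) =>
      Finset.sum_le_sum fun j (_ : j ∈ Finset.univ) => hX1 i j
    have s2 := Finset.sum_le_sum fun i (_ : i ∈ Finset.univ) =>
      Finset.sum_le_sum fun j (_ : j ∈ Finset.univ) => hX2 i j
    have s3 := Finset.sum_le_sum fun i (_ : i ∈ Finset.univ) =>
      Finset.sum_le_sum fun j (_ : j ∈ Finset.univ) => hY1 i j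
    have s4 := Finset.sum_le_sum fun i (_ : i ∈ Finset.univ) =>
      Finset.sum_le_sum fun j (_ : j ∈ Finset.univ) => hY2 i j
    simp only [Finset.sum_sub_distrib, Finset.sum_add_distrib, Finset.sum_const, Finset.card_univ,
      nsmul_eq_mul, ← mul_assoc, ← hqx, ← hqy, ← hN] at s1 s2 s3 s4
    have t1 := mul_le_mul_of_nonneg_left s1 hκ
    have t2 := mul_le_mul_of_nonneg_left s2 hM0
    have t3 := mul_le_mul_of_nonneg_left s3 hκ
    have t4 := mul_le_mul_of_nonneg_left s4 hM0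
    have t5 := mul_le_mul_of_nonneg_left hβ hM0
    nlinarith
  by_contra hcon
  push Not at hcon
  have hpos : 0 < (κ - 2 * M) * (qx + qy) := mul_pos (by linarith) (by linarith)
  have hN0 : 0 ≤ 2 * (κ + M) * N := by positivity
  have := key ((κ - 2 * M) * (qx + qy) / (2 * (κ + M) * N + 1)) (by positivity)
  rw [← mul_div_assoc, le_div_iff₀ (by positivity)] at this
  nlinarith

/-- The complete Crouzeix inequality for admissible boundary functions. -/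
theorem Ext.crouzeix (E : Ext C R k) (hA : ∀ x : V, ‖x‖ = 1 → ⟪x, A x⟫_ℂ ∈ C)
    {φ : ι → ι → ℂ → ℂ} (hφ : ∀ i j, Adm k (φ i j)) {M : ℝ}
    (hM : ∀ u ∈ S1, ‖Matrix.toEuclideanCLM (n := ι) (𝕜 := ℂ) (Matrix.of fun i j => φ i j u)‖ ≤ M)
    (v : PiLp 2 (fun _ : ι => V)) :
    ‖(WithLp.toLp 2 (fun i => ∑ j, JJ k A (φ i j) (v j)) : PiLp 2 (fun _ : ι => V))‖ ≤
      2 * M * ‖v‖ := by
  have hM0 : 0 ≤ M := (norm_nonneg _).trans (hM 1 (by simp))
  let T₀ : PiLp 2 (fun _ : ι => V) →ₗ[ℂ] PiLp 2 (fun _ : ι => V) :=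
    { toFun := fun v => WithLp.toLp 2 (fun i => ∑ j, JJ k A (φ i j) (v j))
      map_add' := fun a b => by ext i; simp [Finset.sum_add_distrib]
      map_smul' := fun c a => by ext i; simp [Finset.smul_sum] }
  let T := LinearMap.toContinuousLinearMap T₀
  have hT : ∀ v, T v = WithLp.toLp 2 (fun i => ∑ j, JJ k A (φ i j) (v j)) := fun v => rfl
  rw [← hT]
  refine (T.le_opNorm v).trans (mul_le_mul_of_nonneg_right ?_ (norm_nonneg _))
  rcases (norm_nonneg T).eq_or_lt with h0 | hpos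
  · rw [← h0]; positivity
  obtain ⟨x, y, hx, hxy, hyx⟩ := exists_top_singular T hpos
  refine E.kappa_le hA hφ hM hpos.le (x := fun i => x i) (y := fun i => y i) ?_ ?_ ?_
  · intro h
    have : x = 0 := by ext i; exact congrFun h i
    simp [this] at hx
  · intro i
    have := congrArg (fun z : PiLp 2 (fun _ : ι => V) => z i) hxy
    simpa [hT] using this
  · intro ξ
    have := hyx (WithLp.toLp 2 ξ)
    simpa only [hT, PiLp.inner_apply] using this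

end Crest.Agent.H0179
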