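import Crest.Agent.H0179.Poisson

set_option autoImplicit false

open Set hiding diagonal
open Filter Metric Topology Matrix
open scoped ComplexOrder MatrixOrder Matrix.Norms.L2Operator ComplexConjugate InnerProductSpace
open Crest.AnalysisR.NumRange

namespace Crest.Agent.H0179

variable {n : ℕ}

theorem exists_radius {O : Set ℂ} (hO : IsOpen O) (h : closedBall (0 : ℂ) 1 ⊆ O) :
    ∃ R, 1 < R ∧ ball (0 : ℂ) R ⊆ O := by
  obtain ⟨δ, hδ, hsub⟩ := (isCompact_closedBall (0 : ℂ) 1).exists_thickening_subset_open hO h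
  rw [thickening_closedBall hδ zero_le_one] at hsub
  exact ⟨δ + 1, by linarith, hsub⟩

theorem prod_sub_factor {U : Set ℂ} (hU : IsOpen U) {f : ℂ → ℂ} (hf : DifferentiableOn ℂ f U)
    (s : Multiset ℂ) (hs : ∀ a ∈ s, a ∈ U) : ∃ D : ℂ → ℂ, DifferentiableOn ℂ D U ∧
      ∀ z, ((s.map f).map (f z - ·)).prod = (s.map (z - ·)).prod * D z := by
  induction s using Multiset.induction_on with
  | empty => exact ⟨fun _ => 1, by fun_prop, by simp⟩
  | cons a s ih =>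
    obtain ⟨D, hD, hDe⟩ := ih fun b hb => hs b (Multiset.mem_cons_of_mem hb)
    obtain ⟨d, hd, hde⟩ := exists_dsl hU hf (hs a (Multiset.mem_cons_self _ _))
    refine ⟨fun z => d z * D z, hd.mul hD, fun z => ?_⟩
    simp only [Multiset.map_cons, Multiset.prod_cons, hDe]
    rw [hde z]; ring

/-- The annihilating polynomial of `f(A)`. -/
noncomputable def nu (A : Matrix (Fin n) (Fin n) ℂ) (f : ℂ → ℂ) : Polynomial ℂ :=
  ((A.charpoly.roots.map f).map (fun b => Polynomial.X - Polynomial.C b)).prod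

theorem nu_eval (A : Matrix (Fin n) (Fin n) ℂ) (f : ℂ → ℂ) (w : ℂ) :
    (nu A f).eval w = ((A.charpoly.roots.map f).map (w - ·)).prod := by
  simp [nu, Polynomial.eval_multiset_prod]

theorem dvd_nu_comp {A : Matrix (Fin n) (Fin n) ℂ} {f : ℂ → ℂ} {p : Polynomial ℂ}
    (hp : AgreesOnSpectrum A f p) (hn : 1 ≤ n) : A.charpoly ∣ (nu A f).comp p := by
  conv_lhs => rw [charpoly_eq_prod A]
  rw [nu, Polynomial.multiset_prod_comp, Multiset.map_map, Multiset.map_map]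
  refine Multiset.prod_dvd_prod_of_dvd _ _ fun a ha => ?_
  rw [Polynomial.dvd_iff_isRoot]
  simp [agrees_eval hp hn (root_mem_spectrum ha)]

theorem aeval_eq_zero_of_dvd {A B : Matrix (Fin n) (Fin n) ℂ}
    (hB : Polynomial.aeval B A.charpoly = 0) {r : Polynomial ℂ} (h : A.charpoly ∣ r) :
    Polynomial.aeval B r = 0 := by
  obtain ⟨c, rfl⟩ := h
  rw [map_mul, hB, zero_mul]

theorem unit_closedBall (hn : 1 ≤ n) {A T : Matrix (Fin n) (Fin n) ℂ} {f : ℂ → ℂ}
    (hf : ∀ a ∈ A.charpoly.roots, ‖f a‖ < 1) (hT : Polynomial.aeval T (nu A f) = 0) {u : ℂ}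
    (hu : ‖u‖ ≤ 1) : IsUnit (1 - u • T) := by
  have : Nonempty (Fin n) := ⟨⟨0, hn⟩⟩
  by_cases hu0 : u = 0
  · simp [hu0]
  have h1 : u⁻¹ ∉ spectrum ℂ T := by
    intro h
    have h2 := spectrum.subset_polynomial_aeval T (nu A f) ⟨_, h, rfl⟩
    beta_reduce at h2
    rw [hT, spectrum.zero_eq, mem_singleton_iff, nu_eval, Multiset.prod_eq_zero_iff] at h2
    simp only [Multiset.mem_map] at h2
    obtain ⟨_, ⟨a, ha, rfl⟩, h3⟩ := h2
    have h4 := hf a ha
    rw [← sub_eq_zero.1 h3, norm_inv, inv_lt_one₀ (norm_pos_iff.2 hu0)] at h4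
    linarith
  rw [spectrum.notMem_iff, Algebra.algebraMap_eq_smul_one] at h1
  have h5 := h1.smul (Units.mk0 u hu0)
  rwa [Units.smul_def, Units.val_mk0, smul_sub, smul_smul, mul_inv_cancel₀ hu0, one_smul] at h5

theorem JD_phi_mul (hn : 1 ≤ n) {A B : Matrix (Fin n) (Fin n) ℂ} {Ω : Set ℂ} (hΩ : IsOpen Ω)
    (hA : spectrum ℂ A ⊆ Ω) {f φ : ℂ → ℂ} (hf : DifferentiableOn ℂ f Ω)
    (hf1 : ∀ z ∈ Ω, ‖f z‖ < 1) (hφf : ∀ z ∈ Ω, φ (f z) = z) {p : Polynomial ℂ}
    (hp : AgreesOnSpectrum A f p) (hB : Polynomial.aeval B A.charpoly = 0) {R : ℝ} (hR : 1 < R)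
    (hT : ∀ u ∈ ball (0 : ℂ) R, IsUnit (1 - u • Polynomial.aeval B p))
    (hφ : DifferentiableOn ℂ φ (ball 0 R)) (H : ℂ → ℂ) (hH : DifferentiableOn ℂ H (ball 0 R)) :
    JD (Polynomial.aeval B p) (fun w => φ w * H w) = B * JD (Polynomial.aeval B p) H := by
  have hroot : ∀ a ∈ A.charpoly.roots, a ∈ Ω := fun a ha => hA (root_mem_spectrum ha)
  have hfb : ∀ z ∈ Ω, f z ∈ ball (0 : ℂ) R := fun z hz => by
    simpa using (hf1 z hz).trans hR
  obtain ⟨s, κ, hκ, hs⟩ := interp isOpen_ball (A.charpoly.roots.map f) φ hφ (by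
    intro b hb
    obtain ⟨a, ha, rfl⟩ := Multiset.mem_map.1 hb
    exact hfb a (hroot a ha))
  simp only [← nu_eval] at hs
  have hid := fun H hH => JD_id_mul hR hT (H := H) hH
  have e1 : (fun w => φ w * H w) = fun w => s.eval w * H w + (nu A f).eval w * (κ w * H w) := by
    ext w; rw [hs w]; ring
  have hν : Polynomial.aeval (Polynomial.aeval B p) (nu A f) = 0 := by
    rw [← Polynomial.aeval_comp]; exact aeval_eq_zero_of_dvd hB (dvd_nu_comp hp hn)
  rw [e1, JD_add hR hT (s.differentiableOn.fun_mul hH)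
      ((nu A f).differentiableOn.fun_mul (hκ.fun_mul hH)),
    JD_poly hR hT (φ := fun w => w) differentiableOn_id hid s hH,
    JD_poly hR hT (φ := fun w => w) differentiableOn_id hid _ (hκ.fun_mul hH), hν, zero_mul,
    add_zero, ← Polynomial.aeval_comp]
  congr 1
  obtain ⟨h, hh, hhe⟩ := fc_rep hΩ hA hf hp
  obtain ⟨D, hD, hDe⟩ := prod_sub_factor hΩ hf A.charpoly.roots hroot
  obtain ⟨c, hc, hce⟩ := poly_sub_poly hf p.differentiableOn s
  have hdvd := dvd_of_eq_mul hΩ (h := fun z => D z * κ (f z) + h z * c z)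
    ((hD.mul (hκ.comp hf hfb)).add (hh.mul hc)).continuousOn A.charpoly.roots
    (Polynomial.X - s.comp p) hroot (by
      intro z hz
      have h1 := hs (f z)
      rw [hφf z hz, nu_eval, hDe] at h1
      have h2 := hce z
      have h3 := hhe z
      rw [charpoly_eval] at h3
      simp only [Polynomial.eval_sub, Polynomial.eval_X, Polynomial.eval_comp]
      linear_combination h1 + h2 + c z * h3)
  rw [← charpoly_eq_prod] at hdvd
  have := aeval_eq_zero_of_dvd hB hdvd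
  rw [map_sub, Polynomial.aeval_X, sub_eq_zero] at this
  exact this.symm

theorem quad_le {S H : Matrix (Fin n) (Fin n) ℂ} (hS : S.IsHermitian) (hSH : S * S = H)
    (x : Fin n → ℂ) : star (S *ᵥ x) ⬝ᵥ (S *ᵥ x) = star x ⬝ᵥ H *ᵥ x := by
  rw [star_mulVec, hS.eq, ← dotProduct_mulVec, mulVec_mulVec, hSH]

theorem re_self (x : Fin n → ℂ) : (star x ⬝ᵥ x).re = ∑ a, ‖x a‖ ^ 2 := by
  rw [dotProduct, Complex.re_sum]
  refine Finset.sum_congr rfl fun a _ => ?_
  rw [Pi.star_apply, RCLike.star_def, Complex.conj_mul']; norm_cast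

theorem norm_block_le {m : ℕ} {T S H : Matrix (Fin n) (Fin n) ℂ} {R : ℝ} (hR : 1 < R)
    (hT : ∀ u ∈ ball (0 : ℂ) R, IsUnit (1 - u • T)) (hc : (1 - Tᴴ * T).PosSemidef)
    (hS : S.IsHermitian) (hSu : IsUnit S) (hSH : S * S = H) {κsq : ℝ} (hκ : 1 ≤ κsq)
    (h1 : (H - 1).PosSemidef) (h2 : ((κsq : ℂ) • (1 : Matrix (Fin n) (Fin n) ℂ) - H).PosSemidef)
    (v : ℂ → Matrix (Fin m) (Fin m) ℂ) (hv : ∀ c d, ContinuousOn (fun w => v w c d) S1)
    (Q : Fin m → Fin m → Matrix (Fin n) (Fin n) ℂ)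
    (hQ : ∀ c d, JD T (fun w => v w c d) = S * Q c d * S⁻¹) {M : ℝ}
    (hM : ∀ w ∈ S1, ‖Matrix.toEuclideanCLM (n := Fin m) (𝕜 := ℂ) (v w)‖ ≤ M) :
    ‖Matrix.toEuclideanCLM (n := Fin n × Fin m) (𝕜 := ℂ)
      (Matrix.of fun (i : Fin n × Fin m) (j : Fin n × Fin m) => Q i.2 j.2 i.1 j.1)‖ ≤
      Real.sqrt κsq * M := by
  have hM0 : 0 ≤ M := (norm_nonneg _).trans (hM 1 (by simp))
  set κ := Real.sqrt κsq with hκd
  have hκ0 : 0 < κ := Real.sqrt_pos.2 (by linarith)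
  have hκ2 : κ ^ 2 = κsq := Real.sq_sqrt (by linarith)
  have hd := (isUnit_iff_isUnit_det S).1 hSu
  have hP := cont_Pk hR hT
  have hL : ∀ (x y : Fin n → ℂ) (φ : ℂ → ℂ), ContinuousOn φ S1 →
      ContinuousOn (fun w => φ w * (star x ⬝ᵥ Pk T w *ᵥ y)) S1 ∧
      av (fun w => φ w * (star x ⬝ᵥ Pk T w *ᵥ y)) = star x ⬝ᵥ JD T φ *ᵥ y := by
    intro x y φ hφ
    let L : Matrix (Fin n) (Fin n) ℂ →ₗ[ℂ] ℂ :=
      { toFun := fun N => star x ⬝ᵥ N *ᵥ y
        map_add' := fun a b => by simp [add_mulVec]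
        map_smul' := fun a b => by simp [smul_mulVec] }
    refine ⟨hφ.mul (L.continuous_of_finiteDimensional.comp_continuousOn hP), ?_⟩
    have := av_clm (LinearMap.toContinuousLinearMap L) (hφ.fun_smul hP)
    simpa [L, smul_mulVec, JD] using this
  refine opNorm_le_of_re_inner _ (by positivity) fun ξ η => ?_
  set x : Fin m → Fin n → ℂ := fun d => S *ᵥ (fun b => ξ (b, d)) with hx
  set y : Fin m → Fin n → ℂ := fun c => S⁻¹ *ᵥ (fun a => η (a, c)) with hy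
  have e1 : ⟪η, Matrix.toEuclideanCLM (n := Fin n × Fin m) (𝕜 := ℂ)
      (Matrix.of fun (i : Fin n × Fin m) (j : Fin n × Fin m) => Q i.2 j.2 i.1 j.1) ξ⟫_ℂ =
      av (fun w => ∑ c, ∑ d, v w c d * (star (y c) ⬝ᵥ Pk T w *ᵥ x d)) := by
    rw [av_sum₂ (fun c d => (hL _ _ _ (hv c d)).1)]
    have e2 : ∀ c d, av (fun w => v w c d * (star (y c) ⬝ᵥ Pk T w *ᵥ x d)) =
        star (fun a => η (a, c)) ⬝ᵥ Q c d *ᵥ (fun b => ξ (b, d)) := by
      intro c d
      rw [(hL _ _ _ (hv c d)).2, hQ, hx, hy, star_mulVec, hS.inv.eq, ← dotProduct_mulVec,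
        mulVec_mulVec, mulVec_mulVec, ← mul_assoc, ← mul_assoc, nonsing_inv_mul _ hd, one_mul,
        mul_assoc, nonsing_inv_mul _ hd, mul_one]
    simp only [e2]
    simp only [PiLp.inner_apply, ofLp_toEuclideanCLM, mulVec, dotProduct, of_apply,
      Fintype.sum_prod_type, RCLike.inner_apply, Pi.star_apply, RCLike.star_def, Finset.sum_mul,
      Finset.mul_sum]
    rw [Finset.sum_comm]
    refine Finset.sum_congr rfl fun c _ => ?_
    symm
    rw [Finset.sum_comm]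
    refine Finset.sum_congr rfl fun a _ => ?_
    rw [Finset.sum_comm]
    exact Finset.sum_congr rfl fun b _ => Finset.sum_congr rfl fun d _ => mul_comm _ _
  have hc1 : ∀ z : Fin n → ℂ, ContinuousOn (fun w => (star z ⬝ᵥ Pk T w *ᵥ z).re) S1 := fun z => by
    simpa using Complex.continuous_re.comp_continuousOn' (hL z z (fun _ => 1) continuousOn_const).1
  have ha1 : ∀ z : Fin n → ℂ, av (fun w => (star z ⬝ᵥ Pk T w *ᵥ z).re) = (star z ⬝ᵥ z).re := by
    intro z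
    have := hL z z (fun _ => 1) continuousOn_const
    simp only [one_mul, JD_one hR hT, one_mulVec] at this
    rw [av_re this.1, this.2]
  have hcs : ContinuousOn (fun w => ∑ c, ∑ d, v w c d * (star (y c) ⬝ᵥ Pk T w *ᵥ x d)) S1 :=
    continuousOn_finsetSum _ fun c _ => continuousOn_finsetSum _ fun d _ => (hL _ _ _ (hv c d)).1
  have e3 := av_mono (Complex.continuous_re.comp_continuousOn hcs)
    (g := fun w => M * (κ / 2 * ∑ c, (star (y c) ⬝ᵥ Pk T w *ᵥ y c).re +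
      1 / (2 * κ) * ∑ d, (star (x d) ⬝ᵥ Pk T w *ᵥ x d).re))
    (continuousOn_const.mul ((continuousOn_const.mul (continuousOn_finsetSum _ fun c _ => hc1 _)).add
      (continuousOn_const.mul (continuousOn_finsetSum _ fun c _ => hc1 _))))
    (fun w hw => psd_bilin (psd_Pk hR hT hc hw) (v w) (hM w hw) y x (by positivity)
      (by field_simp; norm_num))
  rw [av_rmul, av_add (continuousOn_const.fun_mul (continuousOn_finsetSum _ fun c _ => hc1 _))
    (continuousOn_const.fun_mul (continuousOn_finsetSum _ fun c _ => hc1 _)), av_rmul, av_rmul,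
    av_sum _ (fun c _ => hc1 _), av_sum _ (fun c _ => hc1 _)] at e3
  simp only [ha1] at e3
  rw [e1, ← av_re hcs]
  refine le_trans e3 ?_
  have b1 : ∑ c, (star (y c) ⬝ᵥ y c).re ≤ ‖η‖ ^ 2 := by
    rw [EuclideanSpace.norm_sq_eq, Fintype.sum_prod_type_right]
    refine Finset.sum_le_sum fun c _ => ?_
    have h3 := quad_le hS hSH (y c)
    have h4 : S *ᵥ y c = fun a => η (a, c) := by
      rw [hy, mulVec_mulVec, mul_nonsing_inv _ hd, one_mulVec]
    have h5 := (Complex.le_def.1 (h1.dotProduct_mulVec_nonneg (y c))).1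
    rw [sub_mulVec, one_mulVec, dotProduct_sub, ← h3, h4, Complex.sub_re, re_self] at h5
    simpa using h5
  have b2 : ∑ d, (star (x d) ⬝ᵥ x d).re ≤ κsq * ‖ξ‖ ^ 2 := by
    rw [EuclideanSpace.norm_sq_eq, Fintype.sum_prod_type_right, Finset.mul_sum]
    refine Finset.sum_le_sum fun d _ => ?_
    have h3 := quad_le hS hSH (fun b => ξ (b, d))
    have h5 := (Complex.le_def.1 (h2.dotProduct_mulVec_nonneg (fun b => ξ (b, d)))).1
    rw [sub_mulVec, smul_mulVec, one_mulVec, dotProduct_sub, ← h3, Complex.sub_re, dotProduct_smul,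
      smul_eq_mul, Complex.re_ofReal_mul, re_self] at h5
    simpa using h5
  calc _ ≤ M * (κ / 2 * ‖η‖ ^ 2 + 1 / (2 * κ) * (κsq * ‖ξ‖ ^ 2)) := by gcongr
    _ = _ := by rw [← hκ2]; field_simp

theorem s0181
    (n : ℕ) (hn : 1 ≤ n) (A : Matrix (Fin n) (Fin n) ℂ)
    (Ω U : Set ℂ) (hΩ₁ : IsOpen Ω) (hΩ₂ : Bornology.IsBounded Ω)
    (hU : IsOpen U) (hΩU : closure Ω ⊆ U)
    (f : ℂ → ℂ) (hf₁ : DifferentiableOn ℂ f U) (hf₂ : Set.InjOn f U)
    (hf₃ : f '' Ω = Metric.ball 0 1)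
    (G : ℂ → ℂ) (r : ℝ) (hr₂ : r < 1)
    (hG₁ : DifferentiableOn ℂ G {t : ℂ | r < ‖t‖}) (hG₂ : Set.InjOn G {t : ℂ | r < ‖t‖})
    (hG₃ : G '' {t : ℂ | 1 < ‖t‖} = (closure Ω)ᶜ)
    (hA : numRange A ⊆ Ω) (p : Polynomial ℂ) (hp : AgreesOnSpectrum A f p)
    (H : Matrix (Fin n) (Fin n) ℂ) (κsq : ℝ) (hH : IsOptimalMetric (Polynomial.aeval A p) H κsq)
    (S : Matrix (Fin n) (Fin n) ℂ) (hS₁ : S.PosSemidef) (hS₂ : S * S = H) :
    ∃ Λ : ℝ → Matrix (Fin n) (Fin n) ℂ, Continuous Λ ∧ Function.Periodic Λ (2 * Real.pi) ∧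
      (∀ θ, (Λ θ).PosSemidef) ∧
      (∀ a b, (2 * Real.pi : ℂ)⁻¹ * (∫ θ in (0 : ℝ)..2 * Real.pi, Λ θ a b)
        = (1 : Matrix (Fin n) (Fin n) ℂ) a b) ∧
      ∀ (m : ℕ), 1 ≤ m → ∀ (V : Set ℂ), IsOpen V → closure Ω ⊆ V →
        ∀ v : ℂ → Matrix (Fin m) (Fin m) ℂ, (∀ c d, DifferentiableOn ℂ (fun z => v z c d) V) →
        ∀ q : Fin m → Fin m → Polynomial ℂ,
          (∀ c d, AgreesOnSpectrum A (fun z => v z c d) (q c d)) →
          (∀ a b c d, Polynomial.aeval (S * A * S⁻¹) (q c d) a b =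
              (2 * Real.pi : ℂ)⁻¹ * (∫ θ in (0 : ℝ)..2 * Real.pi,
                Λ θ a b * v (G (Complex.exp ((θ : ℂ) * Complex.I))) c d)) ∧
          ∀ M : ℝ, (∀ z ∈ closure Ω, ‖Matrix.toEuclideanCLM (n := Fin m) (𝕜 := ℂ) (v z)‖ ≤ M) →
            ‖Matrix.toEuclideanCLM (n := Fin n × Fin m) (𝕜 := ℂ)
                (Matrix.of fun (i : Fin n × Fin m) (j : Fin n × Fin m) =>
                  Polynomial.aeval A (q i.2 j.2) i.1 j.1)‖ ≤ Real.sqrt κsq * M := by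
  have hΩU' : Ω ⊆ U := subset_closure.trans hΩU
  have hspec : spectrum ℂ A ⊆ Ω := (spectrum_subset_numRange A).trans hA
  have hf1 : ∀ z ∈ Ω, ‖f z‖ < 1 := fun z hz => by
    simpa using (hf₃ ▸ mem_image_of_mem f hz : f z ∈ Metric.ball 0 1)
  have hfd : ∀ z ∈ U, deriv f z ≠ 0 := fun z hz => deriv_ne_zero_of_injOn hU hf₁ hf₂ hz
  obtain ⟨φ, -, hφ, hφf⟩ := exists_inverse hU hf₁ hf₂ hfd
  have hcb : closedBall (0 : ℂ) 1 ⊆ f '' closure Ω := by
    rw [← closure_ball _ one_ne_zero, ← hf₃]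
    exact closure_minimal (image_mono subset_closure)
      (hΩ₂.isCompact_closure.image_of_continuousOn (hf₁.continuousOn.mono hΩU)).isClosed
  -- the similarity
  have hHpd : H.PosDef := by simpa using PosDef.posSemidef_add hH.1.1 PosDef.one
  have hSu : IsUnit S := isUnit_of_mul_isUnit_left (hS₂ ▸ hHpd.isUnit)
  have hd := (isUnit_iff_isUnit_det S).1 hSu
  set B := S * A * S⁻¹ with hB
  have hBc : Polynomial.aeval B A.charpoly = 0 := by
    rw [hB, aeval_conj hSu, aeval_self_charpoly]; simp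
  set T := Polynomial.aeval B p with hT
  have hTc : (1 - Tᴴ * T).PosSemidef := by
    have h1 := hH.1.2.2.conjTranspose_mul_mul_same S⁻¹
    convert h1 using 1
    rw [hT, hB, aeval_conj hSu, ← hS₂, conjTranspose_mul, conjTranspose_mul,
      hS₁.isHermitian.inv.eq, hS₁.isHermitian.eq, Matrix.mul_sub, Matrix.sub_mul, ← mul_assoc S⁻¹ S,
      nonsing_inv_mul _ hd, one_mul, mul_nonsing_inv _ hd]
    simp only [mul_assoc]
  have hTν : Polynomial.aeval T (nu A f) = 0 := by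
    rw [hT, ← Polynomial.aeval_comp]; exact aeval_eq_zero_of_dvd hBc (dvd_nu_comp hp hn)
  have hOT : IsOpen {u : ℂ | IsUnit (1 - u • T)} :=
    Units.isOpen.preimage (f := fun u : ℂ => 1 - u • T) (by fun_prop)
  have hOT' : closedBall (0 : ℂ) 1 ⊆ {u : ℂ | IsUnit (1 - u • T)} := fun u hu =>
    unit_closedBall hn (fun a ha => hf1 a (hspec (root_mem_spectrum ha))) hTν (by simpa using hu)
  -- the boundary correspondence
  have hS1r : ∀ t ∈ S1, t ∈ {t : ℂ | r < ‖t‖} := fun t ht => by simpa [mem_S1.1 ht] using hr₂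
  have hro : IsOpen {t : ℂ | r < ‖t‖} := isOpen_lt continuous_const continuous_norm
  have hGcl : ∀ t ∈ S1, G t ∈ closure Ω := by
    intro t ht
    by_contra hcon
    obtain ⟨t', ht', he⟩ : G t ∈ G '' {t : ℂ | 1 < ‖t‖} := hG₃ ▸ hcon
    have := hG₂ (show r < ‖t'‖ from hr₂.trans ht') (hS1r t ht) he
    rw [this, mem_ofPred_eq, mem_S1.1 ht] at ht'
    exact lt_irrefl _ ht'
  have hGno : ∀ t ∈ S1, G t ∉ Ω := by
    intro t ht hcon
    have h1 : ∀ᶠ s in 𝓝 t, G s ∈ Ω :=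
      (hG₁.continuousOn.continuousAt (hro.mem_nhds (hS1r t ht))).eventually_mem
        (hΩ₁.mem_nhds hcon)
    have h2 : t ∈ closure {s : ℂ | 1 < ‖s‖} := by
      have : {s : ℂ | 1 < ‖s‖} = (closedBall (0 : ℂ) 1)ᶜ := by ext s; simp
      rw [this, closure_compl, interior_closedBall _ one_ne_zero]
      simp [mem_S1.1 ht]
    obtain ⟨s, hs1, hs2⟩ := mem_closure_iff_nhds.1 h2 _ h1
    have h3 : G s ∈ (closure Ω)ᶜ := hG₃ ▸ mem_image_of_mem G hs2
    exact h3 (subset_closure hs1)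
  have hge : ∀ z ∈ U, z ∉ Ω → 1 ≤ ‖f z‖ := by
    intro z hz hzΩ
    by_contra hcon
    obtain ⟨z', hz', he⟩ : f z ∈ f '' Ω := by rw [hf₃]; simpa using hcon
    exact hzΩ (hf₂ (hΩU' hz') hz he ▸ hz')
  have hle : ∀ z ∈ closure Ω, ‖f z‖ ≤ 1 := by
    intro z hz
    have := ((hf₁.continuousOn z (hΩU hz)).mono hΩU').mem_closure_image hz
    rw [hf₃, closure_ball _ one_ne_zero] at this
    simpa using this
  obtain ⟨j, hjc, hjp, hj0, hj⟩ := change_var (ψ := fun t => f (G t))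
    (W := {t : ℂ | r < ‖t‖} ∩ G ⁻¹' U) (hG₁.continuousOn.isOpen_inter_preimage hro hU)
    (fun t ht => ⟨hS1r t ht, hΩU (hGcl t ht)⟩)
    (hf₁.comp (hG₁.mono inter_subset_left) fun t ht => ht.2)
    (fun t ht => le_antisymm (hle _ (hGcl t ht)) (hge _ (hΩU (hGcl t ht)) (hGno t ht)))
    (fun t ht t' ht' he => hG₂ (hS1r t ht) (hS1r t' ht')
      (hf₂ (hΩU (hGcl t ht)) (hΩU (hGcl t' ht')) he))
    (fun t ht h1 => hge _ ht.2 fun h => by
      have h3 : G t ∈ (closure Ω)ᶜ := hG₃ ▸ mem_image_of_mem G h1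
      exact h3 (subset_closure h))
  have hm : ∀ θ, circleMap 0 1 θ ∈ S1 := fun θ => circleMap_mem_sphere 0 zero_le_one θ
  have hψS : ∀ θ, f (G (circleMap 0 1 θ)) ∈ S1 := fun θ => mem_S1.2
    (le_antisymm (hle _ (hGcl _ (hm θ))) (hge _ (hΩU (hGcl _ (hm θ))) (hGno _ (hm θ))))
  have hψc : Continuous fun θ => f (G (circleMap 0 1 θ)) :=
    hf₁.continuousOn.comp_continuous
      (hG₁.continuousOn.comp_continuous (continuous_circleMap 0 1) fun θ => hS1r _ (hm θ))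
      fun θ => hΩU (hGcl _ (hm θ))
  obtain ⟨R₀, hR₀, hR₀T⟩ := exists_radius hOT hOT'
  have hP := cont_Pk hR₀ hR₀T
  have hentry : ∀ (K : ℂ → ℂ), ContinuousOn K S1 → ∀ a b,
      (2 * Real.pi : ℂ)⁻¹ * (∫ θ in (0 : ℝ)..2 * Real.pi,
        ((j θ : ℂ) • Pk T (f (G (circleMap 0 1 θ)))) a b * K (f (G (circleMap 0 1 θ)))) =
      JD T K a b := by
    intro K hK a b
    have h1 := av_clm (LinearMap.toContinuousLinearMap (entryLinearMap ℂ ℂ a b)) (hK.fun_smul hP)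
    have h2 := hj (fun w => (K w • Pk T w) a b)
      ((LinearMap.toContinuousLinearMap (entryLinearMap ℂ ℂ a b)).continuous.comp_continuousOn
        (hK.fun_smul hP))
    refine Eq.trans ?_ (h2.trans h1)
    congr 2
    ext θ
    simp only [Matrix.smul_apply, smul_eq_mul]; ring
  refine ⟨fun θ => (j θ : ℂ) • Pk T (f (G (circleMap 0 1 θ))), ?_, ?_, ?_, ?_, ?_⟩
  · exact (Complex.continuous_ofReal.comp hjc).smul (hP.comp_continuous hψc hψS)
  · intro θ
    simp only [hjp θ, periodic_circleMap 0 1 θ]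
  · exact fun θ => (psd_Pk hR₀ hR₀T hTc (hψS θ)).smul (by exact_mod_cast hj0 θ)
  · intro a b
    simpa [JD_one hR₀ hR₀T] using hentry (fun _ => 1) continuousOn_const a b
  intro m _ V hV hΩV v hv q hq
  obtain ⟨-, hO, -⟩ := exists_inverse (hU.inter hV) (hf₁.mono inter_subset_left)
    (hf₂.mono inter_subset_left) (fun z hz => hfd z hz.1)
  obtain ⟨R, hR, hRs⟩ := exists_radius (hO.inter hOT)
    (subset_inter (hcb.trans (image_mono (subset_inter hΩU hΩV))) hOT')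
  have hRT : ∀ u ∈ ball (0 : ℂ) R, IsUnit (1 - u • T) := fun u hu => (hRs hu).2
  have hφR : DifferentiableOn ℂ φ (ball 0 R) :=
    hφ.mono fun u hu => image_mono inter_subset_left (hRs hu).1
  have hφV : ∀ u ∈ ball (0 : ℂ) R, φ u ∈ V := by
    intro u hu
    obtain ⟨z, hz, rfl⟩ := (hRs hu).1
    rw [hφf z hz.1]; exact hz.2
  have hmul := JD_phi_mul hn hΩ₁ hspec (hf₁.mono hΩU') hf1 (fun z hz => hφf z (hΩU' hz)) hp hBc
    hR hRT hφR
  have hvφ : ∀ c d, DifferentiableOn ℂ (fun w => v (φ w) c d) (ball 0 R) := fun c d =>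
    (hv c d).comp hφR hφV
  have hJ : ∀ c d, JD T (fun w => v (φ w) c d) = Polynomial.aeval B (q c d) := by
    intro c d
    obtain ⟨h, hh, hhe⟩ := fc_rep hV (hspec.trans (subset_closure.trans hΩV)) (hv c d) (hq c d)
    have hhφ : DifferentiableOn ℂ (fun w => h (φ w)) (ball 0 R) := hh.comp hφR hφV
    have e1 : (fun w => v (φ w) c d) = fun w => (q c d).eval (φ w) * 1 +
        A.charpoly.eval (φ w) * h (φ w) := by
      ext w; rw [mul_one]; exact hhe (φ w)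
    rw [e1, JD_add hR hRT (H := fun w => (q c d).eval (φ w) * 1)
        (K := fun w => A.charpoly.eval (φ w) * h (φ w)) ((((q c d).differentiable.comp_differentiableOn hφR)).mul_const 1)
        ((A.charpoly.differentiable.comp_differentiableOn hφR).mul hhφ),
      JD_poly hR hRT hφR hmul _ (H := fun _ => 1) (by fun_prop), JD_poly hR hRT hφR hmul _ hhφ,
      hBc, JD_one hR hRT, zero_mul, add_zero, mul_one]
  refine ⟨fun a b c d => ?_, fun M hM => ?_⟩
  · rw [← hJ, ← hentry _ ((hvφ c d).continuousOn.mono (S1_sub_ball hR))]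
    congr 2
    ext θ
    rw [hφf _ (hΩU (hGcl _ (hm θ)))]
    simp [circleMap]
  · refine norm_block_le hR hRT hTc hS₁.isHermitian hSu hS₂ (one_le_of_feasible hn hH.1)
      hH.1.1 hH.1.2.1 (fun w => v (φ w))
      (fun c d => (hvφ c d).continuousOn.mono (S1_sub_ball hR))
      (fun c d => Polynomial.aeval A (q c d)) (fun c d => by rw [hJ, hB, aeval_conj hSu]) ?_
    intro w hw
    obtain ⟨z, hz, rfl⟩ := hcb (sphere_subset_closedBall hw)
    rw [hφf z (hΩU hz)]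
    exact hM z hz

end Crest.Agent.H0179
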