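import Mathlib
import Crest.Prelude.Def_NumRangeMetric

set_option autoImplicit false

open Set hiding diagonal
open Filter Metric Topology Matrix
open scoped ComplexOrder MatrixOrder Matrix.Norms.L2Operator ComplexConjugate InnerProductSpace
open Crest.AnalysisR.NumRange

namespace Crest.Agent.H0179

variable {n : ℕ}

theorem isClosed_psd : IsClosed {M : Matrix (Fin n) (Fin n) ℂ | M.PosSemidef} := by
  simpa only [nonneg_iff_posSemidef] using
    CStarAlgebra.isClosed_nonneg (A := Matrix (Fin n) (Fin n) ℂ)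

theorem norm_le_of_psd {H : Matrix (Fin n) (Fin n) ℂ} {τ : ℝ} (hτ : 0 ≤ τ) (h0 : H.PosSemidef)
    (h1 : ((τ : ℂ) • (1 : Matrix (Fin n) (Fin n) ℂ) - H).PosSemidef) : ‖H‖ ≤ τ := by
  have h := CStarAlgebra.norm_le_norm_of_nonneg_of_le h0.nonneg (le_iff.2 h1)
  refine h.trans ?_
  rw [norm_smul, Complex.norm_real, Real.norm_of_nonneg hτ]
  have : ‖(1 : Matrix (Fin n) (Fin n) ℂ)‖ ≤ 1 := by
    rcases subsingleton_or_nontrivial (Matrix (Fin n) (Fin n) ℂ) with h | h
    · rw [Subsingleton.elim (1 : Matrix (Fin n) (Fin n) ℂ) 0]; simp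
    · simp
  nlinarith

theorem psd_of_one_le {H : Matrix (Fin n) (Fin n) ℂ} (h : (H - 1).PosSemidef) : H.PosSemidef := by
  simpa using h.add PosSemidef.one

theorem isCompact_box (τ : ℝ) (hτ : 0 ≤ τ) : IsCompact {H : Matrix (Fin n) (Fin n) ℂ |
    (H - 1).PosSemidef ∧ ((τ : ℂ) • (1 : Matrix (Fin n) (Fin n) ℂ) - H).PosSemidef} := by
  apply Metric.isCompact_of_isClosed_isBounded
  · exact (isClosed_psd.preimage (by fun_prop)).inter (isClosed_psd.preimage (by fun_prop))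
  · refine (isBounded_closedBall (x := 0) (r := τ)).subset fun H hH => ?_
    simpa using norm_le_of_psd hτ (psd_of_one_le hH.1) hH.2

theorem one_le_of_feasible (hn : 1 ≤ n) {T H : Matrix (Fin n) (Fin n) ℂ} {τ : ℝ}
    (h : MetricFeasible T H τ) : 1 ≤ τ := by
  have h1 := (h.1.add h.2.1).diag_nonneg (i := ⟨0, hn⟩)
  simp only [Matrix.add_apply, Matrix.sub_apply, Matrix.smul_apply, one_apply_eq, smul_eq_mul,
    mul_one] at h1
  have h2 : (0 : ℂ) ≤ ((τ - 1 : ℝ) : ℂ) := by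
    convert h1 using 1; push_cast; ring
  have : 0 ≤ τ - 1 := by exact_mod_cast h2
  linarith

theorem exists_optimal (hn : 1 ≤ n) {T H₀ : Matrix (Fin n) (Fin n) ℂ} {τ₀ : ℝ}
    (h : MetricFeasible T H₀ τ₀) : ∃ H κ, IsOptimalMetric T H κ := by
  have hτ₀ := one_le_of_feasible hn h
  set K : Set (Matrix (Fin n) (Fin n) ℂ × ℝ) :=
    {p | MetricFeasible T p.1 p.2 ∧ p.2 ≤ τ₀} with hK
  have hcl : IsClosed K := by
    refine IsClosed.inter (IsClosed.inter ?_ (IsClosed.inter ?_ ?_))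
      (isClosed_le continuous_snd (continuous_const (y := τ₀)))
    · exact isClosed_psd.preimage (by fun_prop)
    · exact isClosed_psd.preimage (f := fun p : Matrix (Fin n) (Fin n) ℂ × ℝ =>
        ((p.2 : ℂ) • (1 : Matrix (Fin n) (Fin n) ℂ) - p.1)) (by fun_prop)
    · exact isClosed_psd.preimage (f := fun p : Matrix (Fin n) (Fin n) ℂ × ℝ =>
        (p.1 - Tᴴ * p.1 * T)) (by fun_prop)
  have hc : IsCompact K := by
    refine ((isCompact_closedBall (0 : Matrix (Fin n) (Fin n) ℂ) τ₀).prod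
      (isCompact_Icc (a := 1) (b := τ₀))).of_isClosed_subset hcl ?_
    rintro ⟨H, τ⟩ ⟨h1, h2⟩
    have h3 := one_le_of_feasible hn h1
    refine ⟨?_, h3, h2⟩
    simpa using (norm_le_of_psd (by linarith) (psd_of_one_le h1.1) h1.2.1).trans h2
  obtain ⟨⟨H, κ⟩, hp, hmin⟩ := hc.exists_isMinOn ⟨(H₀, τ₀), h, le_rfl⟩
    (continuous_snd.continuousOn)
  refine ⟨H, κ, hp.1, fun H' τ' h' => ?_⟩
  by_cases hτ : τ' ≤ τ₀
  · exact hmin (a := (H', τ')) ⟨h', hτ⟩
  · exact hp.2.trans (le_of_not_ge hτ)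

theorem posDef_of_norm_lt {H : Matrix (Fin n) (Fin n) ℂ} (hH : H.IsHermitian) {τ : ℝ}
    (h : ‖H‖ < τ) : ((τ : ℂ) • (1 : Matrix (Fin n) (Fin n) ℂ) - H).PosDef := by
  have h1 : H ≤ algebraMap ℝ (Matrix (Fin n) (Fin n) ℂ) ‖H‖ :=
    IsSelfAdjoint.le_algebraMap_norm_self hH
  have h2 : ((((τ - ‖H‖ : ℝ) : ℂ)) • (1 : Matrix (Fin n) (Fin n) ℂ)).PosDef :=
    PosDef.one.smul (by exact_mod_cast sub_pos.2 h)
  have h3 := h2.add_posSemidef (le_iff.1 h1)
  convert h3 using 1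
  rw [Algebra.algebraMap_eq_smul_one, ← Complex.coe_smul]
  push_cast
  module

theorem strictly_feasible {T : Matrix (Fin n) (Fin n) ℂ} {N : ℕ} (hN : ‖T ^ (N + 1)‖ < 1) :
    ∃ H τ, MetricStrictlyFeasible T H τ := by
  set S : ℕ → Matrix (Fin n) (Fin n) ℂ := fun m => ∑ k ∈ Finset.range m, (T ^ k)ᴴ * T ^ k with hS
  have hrec : ∀ m, S (m + 1) = Tᴴ * S m * T + 1 := by
    intro m
    simp only [hS, Finset.sum_range_succ', pow_zero, conjTranspose_one, mul_one, Finset.mul_sum,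
      Finset.sum_mul, pow_succ, conjTranspose_mul, mul_assoc]
  have hpsd : ∀ m, (S m).PosSemidef := fun m =>
    posSemidef_sum _ fun k _ => posSemidef_conjTranspose_mul_self _
  have h2 : ((2 : ℂ) • S (N + 1)).PosSemidef := (hpsd _).smul (by norm_num)
  refine ⟨(2 : ℂ) • S (N + 1), ‖(2 : ℂ) • S (N + 1)‖ + 1, ?_,
    posDef_of_norm_lt h2.isHermitian (by linarith), ?_⟩
  · have := PosDef.one.add_posSemidef
      (((hpsd N).conjTranspose_mul_mul_same T).smul (show (0 : ℂ) ≤ 2 by norm_num))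
    convert this using 1
    rw [hrec]; module
  · have h3 : ‖(T ^ (N + 1))ᴴ * T ^ (N + 1)‖ < 1 := by
      rw [l2_opNorm_conjTranspose_mul_self]
      nlinarith [norm_nonneg (T ^ (N + 1))]
    have h4 := (posDef_of_norm_lt (posSemidef_conjTranspose_mul_self _).isHermitian h3).smul
      (show (0 : ℂ) < 2 by norm_num)
    convert h4 using 1
    have h5 : Tᴴ * S (N + 1) * T + 1 = S (N + 1) + (T ^ (N + 1))ᴴ * T ^ (N + 1) := by
      rw [← hrec]; simp only [hS, Finset.sum_range_succ _ (N + 1)]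
    have h6 : Tᴴ * S (N + 1) * T = S (N + 1) + (T ^ (N + 1))ᴴ * T ^ (N + 1) - 1 :=
      eq_sub_of_add_eq h5
    rw [Matrix.mul_smul, Matrix.smul_mul, h6]
    simp only [Complex.ofReal_one]
    module

theorem exists_Z (f : Matrix (Fin n) (Fin n) ℂ →L[ℂ] ℂ)
    (hf : ∀ P : Matrix (Fin n) (Fin n) ℂ, P.PosSemidef → 0 ≤ (f P).re) :
    ∃ Z : Matrix (Fin n) (Fin n) ℂ, Z.PosSemidef ∧
      ∀ M : Matrix (Fin n) (Fin n) ℂ, M.IsHermitian → (Z * M).trace = (f M).re := by
  set Z₀ : Matrix (Fin n) (Fin n) ℂ := Matrix.of fun b a => f (single a b 1) with hZ₀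
  have h0 : ∀ M, (Z₀ * M).trace = f M := by
    intro M
    conv_rhs => rw [matrix_eq_sum_single M]
    simp only [trace, diag_apply, mul_apply, hZ₀, of_apply, map_sum]
    rw [Finset.sum_comm]
    refine Finset.sum_congr rfl fun a _ => Finset.sum_congr rfl fun b _ => ?_
    rw [mul_comm, ← smul_eq_mul, ← map_smul, smul_single, smul_eq_mul, mul_one]
  have h1 : ∀ M : Matrix (Fin n) (Fin n) ℂ, M.IsHermitian →
      (((1 / 2 : ℂ) • (Z₀ + Z₀ᴴ)) * M).trace = (f M).re := by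
    intro M hM
    have : (Z₀ᴴ * M).trace = conj (f M) := by
      rw [← h0, ← RCLike.star_def, ← trace_conjTranspose, conjTranspose_mul, hM.eq, trace_mul_comm]
    rw [Matrix.smul_mul, Matrix.add_mul, trace_smul, trace_add, h0, this, Complex.add_conj]
    simp
  refine ⟨(1 / 2 : ℂ) • (Z₀ + Z₀ᴴ), ?_, h1⟩
  apply PosSemidef.of_dotProduct_mulVec_nonneg
  · simp [IsHermitian, add_comm]
  · intro x
    have hP := posSemidef_vecMulVec_self_star x
    have := h1 _ hP.isHermitian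
    rw [mul_vecMulVec, trace_vecMulVec, dotProduct_comm] at this
    rw [this]
    exact_mod_cast hf _ hP

theorem dual_cert (T : Matrix (Fin n) (Fin n) ℂ) {τ : ℝ} (hτ : 1 ≤ τ)
    (h : ¬ ∃ H, MetricFeasible T H τ) :
    ∃ X Y Z : Matrix (Fin n) (Fin n) ℂ, X * Xᴴ + Z * Zᴴ = Y * Yᴴ + (T * Z) * (T * Z)ᴴ ∧
      τ * (Y * Yᴴ).trace.re < (X * Xᴴ).trace.re := by
  set B := {H : Matrix (Fin n) (Fin n) ℂ |
    (H - 1).PosSemidef ∧ ((τ : ℂ) • (1 : Matrix (Fin n) (Fin n) ℂ) - H).PosSemidef} with hB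
  have hpc : Convex ℝ {M : Matrix (Fin n) (Fin n) ℂ | M.PosSemidef} :=
    fun a ha b hb s t hs ht _ => (PosSemidef.smul ha hs).add (PosSemidef.smul hb ht)
  have hBc : Convex ℝ B := by
    intro a ha b hb s t hs ht hst
    constructor
    · convert hpc ha.1 hb.1 hs ht hst using 1
      rw [show s = 1 - t by linarith]; simp only [mem_ofPred_eq]; congr! 1; module
    · convert hpc ha.2 hb.2 hs ht hst using 1
      rw [show s = 1 - t by linarith]; simp only [mem_ofPred_eq]; congr! 1; module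
  let L : Matrix (Fin n) (Fin n) ℂ →ₗ[ℝ] Matrix (Fin n) (Fin n) ℂ :=
    { toFun := fun H => H - Tᴴ * H * T
      map_add' := fun a b => by simp only [Matrix.mul_add, Matrix.add_mul]; abel
      map_smul' := fun c a => by simp [smul_sub] }
  have hL : ∀ H, L H = H - Tᴴ * H * T := fun _ => rfl
  obtain ⟨f, u, v, hu, huv, hv⟩ := RCLike.geometric_hahn_banach_compact_closed (𝕜 := ℂ)
    (hBc.linear_image L)
    ((isCompact_box τ (by linarith)).image L.continuous_of_finiteDimensional) hpc isClosed_psd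
    (by
      rw [Set.disjoint_left]
      rintro _ ⟨H, hH, rfl⟩ hP
      exact h ⟨H, hH.1, hH.2, hP⟩)
  have hv0 : v < 0 := by simpa using hv 0 PosSemidef.zero
  have hf : ∀ P : Matrix (Fin n) (Fin n) ℂ, P.PosSemidef → 0 ≤ (f P).re := by
    intro P hP
    by_contra hcon
    push Not at hcon
    have ht : 0 ≤ v / (f P).re := div_nonneg_of_nonpos hv0.le hcon.le
    have := hv _ (hP.smul (show (0 : ℂ) ≤ ((v / (f P).re : ℝ) : ℂ) by exact_mod_cast ht))
    rw [map_smul, smul_eq_mul] at this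
    change v < (((v / (f P).re : ℝ) : ℂ) * f P).re at this
    rw [Complex.re_ofReal_mul, div_mul_cancel₀ _ hcon.ne] at this
    exact lt_irrefl _ this
  obtain ⟨Z, hZ, hZf⟩ := exists_Z f hf
  obtain ⟨Zm, hZm⟩ := CStarAlgebra.nonneg_iff_eq_mul_star_self.1 hZ.nonneg
  rw [star_eq_conjTranspose] at hZm
  have hW : (Z - T * Z * Tᴴ).IsHermitian :=
    hZ.isHermitian.sub (hZ.mul_mul_conjTranspose_same T).isHermitian
  have hspec := hW.spectral_theorem
  set U : Matrix (Fin n) (Fin n) ℂ := hW.eigenvectorUnitary.1 with hU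
  set d := hW.eigenvalues with hd
  have hU1 : Uᴴ * U = 1 := Unitary.coe_star_mul_self hW.eigenvectorUnitary
  have hU2 : U * Uᴴ = 1 := Unitary.coe_mul_star_self hW.eigenvectorUnitary
  have hWe : Z - T * Z * Tᴴ = U * diagonal (fun i => (d i : ℂ)) * Uᴴ := by
    rw [hspec]; rfl
  have hsq : ∀ e : Fin n → ℝ, (∀ i, 0 ≤ e i) →
      (U * diagonal (fun i => (√(e i) : ℂ))) * (U * diagonal (fun i => (√(e i) : ℂ)))ᴴ =
        U * diagonal (fun i => (e i : ℂ)) * Uᴴ := by
    intro e he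
    rw [conjTranspose_mul, diagonal_conjTranspose, mul_assoc, ← mul_assoc (Matrix.diagonal _),
      diagonal_mul_diagonal, ← mul_assoc]
    congr 3
    ext i
    simp only [Pi.star_apply, RCLike.star_def, Complex.conj_ofReal]
    exact_mod_cast Real.mul_self_sqrt (he i)
  have htr : ∀ e : Fin n → ℝ, (U * diagonal (fun i => (e i : ℂ)) * Uᴴ).trace = (∑ i, e i : ℝ) := by
    intro e
    rw [trace_mul_cycle, hU1, one_mul, trace_diagonal]; push_cast; rfl
  have hps : ∀ e : Fin n → ℝ, (∀ i, 0 ≤ e i) →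
      (U * diagonal (fun i => (e i : ℂ)) * Uᴴ).PosSemidef := fun e he =>
    (PosSemidef.diagonal (fun i => by simpa using he i)).mul_mul_conjTranspose_same U
  have hsub : ∀ e e' : Fin n → ℝ, U * diagonal (fun i => (e i : ℂ)) * Uᴴ -
      U * diagonal (fun i => (e' i : ℂ)) * Uᴴ =
      U * diagonal (fun i => ((e i - e' i : ℝ) : ℂ)) * Uᴴ := by
    intro e e'
    rw [← Matrix.sub_mul, ← Matrix.mul_sub, diagonal_sub]
    push_cast; rfl
  have hconst : ∀ c : ℝ, (c : ℂ) • (1 : Matrix (Fin n) (Fin n) ℂ) =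
      U * diagonal (fun _ => (c : ℂ)) * Uᴴ := by
    intro c
    rw [← smul_one_eq_diagonal, Matrix.mul_smul, Matrix.smul_mul, mul_one, hU2]
  set g : Fin n → ℝ := fun i => if 0 < d i then τ else 1 with hg
  have hH₀ : U * diagonal (fun i => (g i : ℂ)) * Uᴴ ∈ B := by
    constructor
    · have := hconst 1
      rw [Complex.ofReal_one, one_smul] at this
      rw [this, ← Complex.ofReal_one, hsub]
      exact hps _ fun i => by simp only [hg]; split_ifs <;> linarith
    · rw [hconst, hsub]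
      exact hps _ fun i => by simp only [hg]; split_ifs <;> linarith
  have hH₀h : (U * diagonal (fun i => (g i : ℂ)) * Uᴴ).IsHermitian :=
    (psd_of_one_le hH₀.1).isHermitian
  have hlt := hu _ ⟨_, hH₀, rfl⟩
  rw [hL] at hlt
  have hval := hZf _ (hH₀h.sub (isHermitian_conjTranspose_mul_mul T hH₀h))
  have hval2 : (Z * (U * diagonal (fun i => (g i : ℂ)) * Uᴴ -
      Tᴴ * (U * diagonal (fun i => (g i : ℂ)) * Uᴴ) * T)).trace = (∑ i, d i * g i : ℝ) := by
    rw [← htr, Matrix.mul_sub, trace_sub, ← mul_assoc Z (Tᴴ * _) T, trace_mul_comm _ T,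
      ← mul_assoc Z Tᴴ, ← mul_assoc T, ← mul_assoc T, ← trace_sub, ← Matrix.sub_mul, hWe]
    congr 1
    rw [mul_assoc, mul_assoc U _ Uᴴ, ← mul_assoc Uᴴ, hU1, one_mul, ← mul_assoc, mul_assoc U,
      diagonal_mul_diagonal]
    push_cast; rfl
  rw [hval2] at hval
  have hneg : ∑ i, d i * g i < 0 := by
    have : ∑ i, d i * g i = (f (U * diagonal (fun i => (g i : ℂ)) * Uᴴ -
      Tᴴ * (U * diagonal (fun i => (g i : ℂ)) * Uᴴ) * T)).re := by exact_mod_cast hval
    rw [this]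
    exact hlt.trans (huv.trans hv0)
  refine ⟨U * diagonal (fun i => (√(max (-d i) 0) : ℂ)),
    U * diagonal (fun i => (√(max (d i) 0) : ℂ)), Zm, ?_, ?_⟩
  · rw [hsq _ (fun i => le_max_right _ _), hsq _ (fun i => le_max_right _ _), conjTranspose_mul,
      mul_assoc T, ← mul_assoc Zm, ← hZm, ← mul_assoc T, ← sub_eq_zero]
    have := hsub (fun i => max (d i) 0) (fun i => max (-d i) 0)
    simp only [max_zero_sub_max_neg_zero_eq_self, ← hWe] at this
    rw [← sub_eq_zero] at this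
    rw [← neg_eq_zero, ← this]
    abel
  · rw [hsq _ (fun i => le_max_right _ _), hsq _ (fun i => le_max_right _ _), htr, htr,
      Complex.ofReal_re, Complex.ofReal_re, Finset.mul_sum, ← sub_neg, ← Finset.sum_sub_distrib]
    convert hneg using 2 with i
    simp only [hg]
    split_ifs with hi
    · rw [max_eq_left hi.le, max_eq_right (by linarith)]; ring
    · rw [max_eq_right (by linarith), max_eq_left (by linarith)]; ring

theorem exists_isometry {ι κ : Type*} [Fintype ι] [Fintype κ] (r₁ r₂ : κ → EuclideanSpace ℂ ι)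
    (h : ∀ a b, ⟪r₁ a, r₁ b⟫_ℂ = ⟪r₂ a, r₂ b⟫_ℂ) :
    ∃ V : EuclideanSpace ℂ ι →ₗᵢ[ℂ] EuclideanSpace ℂ ι, ∀ a, V (r₂ a) = r₁ a := by
  classical
  set a₁ := Fintype.linearCombination ℂ r₁ with ha₁
  set a₂ := Fintype.linearCombination ℂ r₂ with ha₂
  have hn : ∀ ξ, ‖a₁ ξ‖ = ‖a₂ ξ‖ := by
    intro ξ
    rw [@norm_eq_sqrt_re_inner ℂ, @norm_eq_sqrt_re_inner ℂ]
    simp only [ha₁, ha₂, Fintype.linearCombination_apply, sum_inner, inner_sum, inner_smul_left,
      inner_smul_right, h]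
  have hk : LinearMap.ker a₂ ≤ LinearMap.ker a₁ := by
    intro ξ hξ
    rw [LinearMap.mem_ker] at hξ ⊢
    rw [← norm_eq_zero, hn, hξ, norm_zero]
  set Φ := ((LinearMap.ker a₂).liftQ a₁ hk).comp a₂.quotKerEquivRange.symm.toLinearMap with hΦ
  have hΦa : ∀ ξ (hξ : a₂ ξ ∈ LinearMap.range a₂), Φ ⟨a₂ ξ, hξ⟩ = a₁ ξ := by
    intro ξ hξ
    simp [hΦ, LinearMap.quotKerEquivRange_symm_apply_image]
  let Ψ : LinearMap.range a₂ →ₗᵢ[ℂ] EuclideanSpace ℂ ι :=
    { toLinearMap := Φ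
      norm_map' := by
        rintro ⟨_, ξ, rfl⟩
        rw [hΦa, hn]; rfl }
  refine ⟨Ψ.extend, fun a => ?_⟩
  have e1 : r₁ a = a₁ (Pi.single a 1) := by simp [ha₁]
  have e2 : r₂ a = a₂ (Pi.single a 1) := by simp [ha₂]
  rw [e1, e2, ← hΦa _ (LinearMap.mem_range_self _ _)]
  exact Ψ.extend_apply ⟨_, LinearMap.mem_range_self _ _⟩

end Crest.Agent.H0179
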