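import Crest.Agent.H0179.RMT

set_option autoImplicit false

open Set Filter Metric Topology
open scoped ComplexConjugate

namespace Crest.Agent.H0179

theorem re_deriv_nonpos {h : ℝ → ℂ} {h' : ℂ} (hd : HasDerivAt h h' 0)
    (hle : ∀ t ∈ Ioo (0 : ℝ) 1, ‖h t‖ ≤ ‖h 0‖) : (conj (h 0) * h').re ≤ 0 := by
  have h1 : HasDerivAt (fun t => (conj (h 0) * h t).re) (conj (h 0) * h').re 0 :=
    Complex.reCLM.hasFDerivAt.comp_hasDerivAt (0 : ℝ) (hd.const_mul (conj (h 0)))
  refine le_of_tendsto h1.tendsto_slope_zero_right ?_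
  filter_upwards [Ioo_mem_nhdsGT (zero_lt_one' ℝ)] with t ht
  have h2 : (conj (h 0) * h t).re ≤ (conj (h 0) * h 0).re := by
    have e : (conj (h 0) * h 0).re = ‖h 0‖ ^ 2 := by
      rw [Complex.conj_mul']; norm_cast
    rw [e]
    calc (conj (h 0) * h t).re ≤ ‖conj (h 0) * h t‖ := Complex.re_le_norm _
      _ = ‖h 0‖ * ‖h t‖ := by rw [norm_mul, Complex.norm_conj]
      _ ≤ ‖h 0‖ * ‖h 0‖ := by gcongr; exact hle t ht
      _ = _ := by ring
  simp only [zero_add, smul_eq_mul]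
  exact mul_nonpos_of_nonneg_of_nonpos (inv_nonneg.2 ht.1.le) (by linarith)

theorem re_nonneg_of_sphere {f : ℂ → ℂ} {r : ℝ} (hr : 0 < r)
    (hf : DifferentiableOn ℂ f (closedBall 0 r)) (hs : ∀ u, ‖u‖ = r → 0 ≤ (f u).re)
    {u : ℂ} (hu : ‖u‖ ≤ r) : 0 ≤ (f u).re := by
  have hd : DiffContOnCl ℂ (fun u => Complex.exp (-f u)) (ball 0 r) := by
    apply DifferentiableOn.diffContOnCl
    rw [closure_ball _ hr.ne']
    exact hf.neg.cexp
  have := Complex.norm_le_of_forall_mem_frontier_norm_le isBounded_ball hd (C := 1) (z := u)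
    (by
      intro z hz
      rw [frontier_ball _ hr.ne'] at hz
      rw [Complex.norm_exp, Real.exp_le_one_iff]
      simpa using hs z (by simpa using hz))
    (by rw [closure_ball _ hr.ne']; simpa using hu)
  rw [Complex.norm_exp, Real.exp_le_one_iff] at this
  simpa using this

/-- The exterior conformal map of a compact convex set with interior, `g u = k u / u`. -/
theorem exists_ext_aux {C : Set ℂ} (hC : IsCompact C) (hcv : Convex ℝ C) {z₀ : ℂ} {δ : ℝ}
    (hδ : 0 < δ) (hz₀ : closedBall z₀ δ ⊆ C) :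
    ∃ k : ℂ → ℂ, DifferentiableOn ℂ k (ball 0 1) ∧ k 0 ≠ 0 ∧
      (∀ u ∈ ball (0 : ℂ) 1, ∀ z ∈ C, k u - u * z ≠ 0) ∧
      (∀ u ∈ ball (0 : ℂ) 1, ∀ v ∈ ball (0 : ℂ) 1, k u * v = k v * u → u = v) ∧
      (∀ u ∈ ball (0 : ℂ) 1, k u - u * deriv k u ≠ 0) ∧
      (∀ u ∈ ball (0 : ℂ) 1, ∀ z ∈ C, 0 ≤ ((k u - u * z) / (k u - u * deriv k u)).re) ∧
      (∀ O, IsOpen O → C ⊆ O → ∃ ρ < 1, ∀ u : ℂ, ρ < ‖u‖ → ‖u‖ < 1 → k u / u ∈ O) := by
  have hz₀C : z₀ ∈ C := hz₀ (mem_closedBall_self hδ.le)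
  set D : Set ℂ := {ξ | ∀ z ∈ C, ξ * (z - z₀) ≠ 1} with hD
  have hDo : IsOpen D := by
    rw [isOpen_iff_mem_nhds]
    intro ξ hξ
    apply hC.eventually_forall_of_forall_eventually
    intro z hz
    have hc : ContinuousAt (fun p : ℂ × ℂ => p.1 * (p.2 - z₀)) (ξ, z) := by fun_prop
    exact hc.eventually_ne (hξ z hz)
  have h0D : (0 : ℂ) ∈ D := fun z _ => by simp
  have hcomb : ∀ ξ ∈ D, ∀ z ∈ C, ∀ z' ∈ C, ∀ t : ℝ, 0 ≤ t → t ≤ 1 →
      ξ * ((1 - t) * (z' - z₀) + t * (z - z₀)) ≠ 1 := by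
    intro ξ hξ z hz z' hz' t ht0 ht1
    have hm := hcv hz' hz (sub_nonneg.2 ht1) ht0 (by ring)
    have := hξ _ hm
    convert this using 2
    simp only [Complex.real_smul]
    push_cast
    ring
  have hstar : StarConvex ℝ (0 : ℂ) D := by
    intro ξ hξ a b ha hb hab z hz
    have := hcomb ξ hξ z hz z₀ hz₀C b hb (by linarith)
    convert this using 1
    simp only [Complex.real_smul]
    ring
  have hDc : IsSimplyConnected D := by
    have := hstar.contractibleSpace ⟨0, h0D⟩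
    exact SimplyConnectedSpace.ofContractible D
  have hDR : D ⊆ ball 0 δ⁻¹ := by
    intro ξ hξ
    by_contra hcon
    rw [mem_ball_zero_iff, not_lt] at hcon
    have hξ0 : ξ ≠ 0 := by
      rintro rfl
      simp at hcon
      linarith
    apply hξ (z₀ + ξ⁻¹)
    · apply hz₀
      rw [mem_closedBall, dist_eq_norm, add_sub_cancel_left, norm_inv]
      exact inv_le_of_inv_le₀ hδ hcon
    · rw [add_sub_cancel_left, mul_inv_cancel₀ hξ0]
  obtain ⟨φ, ψ, hφ, hφm, hφ0, hψ, hψm, hφψ, hψφ⟩ := rmt hDo hDc h0D hDR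
  have hψ0 : ψ 0 = 0 := by simpa [hφ0] using hψφ 0 h0D
  have hb0 : ball (0 : ℂ) 1 ∈ 𝓝 (0 : ℂ) := ball_mem_nhds _ one_pos
  have hψd : ∀ u ∈ ball (0 : ℂ) 1, HasDerivAt ψ (deriv ψ u) u := fun u hu =>
    (hψ.differentiableAt (isOpen_ball.mem_nhds hu)).hasDerivAt
  have hφd : ∀ z ∈ D, HasDerivAt φ (deriv φ z) z := fun u hu =>
    (hφ.differentiableAt (hDo.mem_nhds hu)).hasDerivAt
  have hchain : ∀ u ∈ ball (0 : ℂ) 1, deriv φ (ψ u) * deriv ψ u = 1 := by
    intro u hu
    have h1 := (hφd _ (hψm hu)).comp u (hψd u hu)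
    have h2 : HasDerivAt (φ ∘ ψ) 1 u := by
      apply (hasDerivAt_id u).congr_of_eventuallyEq
      filter_upwards [isOpen_ball.mem_nhds hu] with y hy using hφψ y hy
    exact h1.unique h2
  have hψ' : ∀ u ∈ ball (0 : ℂ) 1, deriv ψ u ≠ 0 := fun u hu h => by
    simpa [h] using hchain u hu
  set e := dslope ψ 0 with he
  have hed : DifferentiableOn ℂ e (ball 0 1) := (Complex.differentiableOn_dslope hb0).2 hψ
  have hψe : ∀ u, ψ u = u * e u := fun u => by
    have := sub_smul_dslope ψ 0 u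
    simp only [sub_zero, hψ0, smul_eq_mul] at this
    exact this.symm
  have hene : ∀ u ∈ ball (0 : ℂ) 1, e u ≠ 0 := by
    intro u hu h
    by_cases hu0 : u = 0
    · subst hu0
      rw [he, dslope_same] at h
      exact hψ' 0 hu h
    · have := hφψ u hu
      rw [hψe, h, mul_zero, hφ0] at this
      exact hu0 this.symm
  have hedd : ∀ u ∈ ball (0 : ℂ) 1, HasDerivAt e (deriv e u) u := fun u hu =>
    (hed.differentiableAt (isOpen_ball.mem_nhds hu)).hasDerivAt
  have hψ'e : ∀ u ∈ ball (0 : ℂ) 1, deriv ψ u = e u + u * deriv e u := by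
    intro u hu
    have h1 : HasDerivAt (fun u => u * e u) (1 * e u + u * deriv e u) u :=
      (hasDerivAt_id u).mul (hedd u hu)
    rw [← funext hψe] at h1
    rw [h1.deriv, one_mul]
  have hkd : ∀ u ∈ ball (0 : ℂ) 1, HasDerivAt (fun u => z₀ * u + (e u)⁻¹)
      (z₀ * 1 + -deriv e u / e u ^ 2) u := fun u hu =>
    ((hasDerivAt_id u).const_mul z₀).add ((hedd u hu).inv (hene u hu))
  have hW : ∀ u ∈ ball (0 : ℂ) 1, (z₀ * u + (e u)⁻¹) -
      u * deriv (fun u => z₀ * u + (e u)⁻¹) u = deriv ψ u / e u ^ 2 := by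
    intro u hu
    rw [(hkd u hu).deriv, hψ'e u hu]
    have := hene u hu
    field_simp
    ring
  refine ⟨fun u => z₀ * u + (e u)⁻¹, fun u hu => (hkd u hu).differentiableAt.differentiableWithinAt,
    by simpa using hene 0 (mem_ball_self one_pos), ?_, ?_, ?_, ?_, ?_⟩
  · intro u hu z hz h
    apply hψm hu z hz
    have := hene u hu
    rw [hψe]
    field_simp at h
    linear_combination -h
  · intro u hu v hv h
    have h1 := hene u hu
    have h2 := hene v hv
    have : ψ u = ψ v := by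
      rw [hψe, hψe]
      field_simp at h
      linear_combination -h
    rw [← hφψ u hu, this, hφψ v hv]
  · intro u hu
    rw [hW u hu]
    exact div_ne_zero (hψ' u hu) (pow_ne_zero _ (hene u hu))
  · intro u hu z hz
    rw [hW u hu]
    by_cases hu0 : u = 0
    · subst hu0
      have h1 := hene 0 hu
      rw [hψ'e 0 hu]
      have : (z₀ * 0 + (e 0)⁻¹ - 0 * z) / ((e 0 + 0 * deriv e 0) / e 0 ^ 2) = 1 := by
        simp only [mul_zero, zero_mul, zero_add, add_zero, sub_zero]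
        field_simp
      rw [this]; simp
    set a := z - z₀ with ha
    have hden : ∀ t : ℝ, 0 ≤ t → t ≤ 1 → ∀ ξ ∈ D, 1 - t * a * ξ ≠ 0 := by
      intro t ht0 ht1 ξ hξ h
      apply hcomb ξ hξ z hz z₀ hz₀C t ht0 ht1
      linear_combination -h
    have hmem : ∀ t : ℝ, 0 ≤ t → t ≤ 1 → ∀ ξ ∈ D, (1 - t) * ξ / (1 - t * a * ξ) ∈ D := by
      intro t ht0 ht1 ξ hξ z' hz' h
      apply hcomb ξ hξ z hz z' hz' t ht0 ht1
      have := hden t ht0 ht1 ξ hξ
      rw [div_mul_eq_mul_div, div_eq_iff this] at h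
      linear_combination h
    have hsch : ∀ t ∈ Ioo (0 : ℝ) 1,
        ‖φ ((1 - t) * ψ u / (1 - t * a * ψ u))‖ ≤ ‖u‖ := by
      intro t ht
      apply Complex.norm_le_norm_of_mapsTo_ball (R := 1)
        (f := fun u => φ ((1 - t) * ψ u / (1 - t * a * ψ u)))
      · apply hφ.comp
        · apply (hψ.const_mul _).div ((hψ.const_mul _).const_sub _)
          exact fun y hy => hden t ht.1.le ht.2.le _ (hψm hy)
        · exact fun y hy => hmem t ht.1.le ht.2.le _ (hψm hy)
      · exact fun y hy => ball_subset_closedBall (hφm (hmem t ht.1.le ht.2.le _ (hψm hy)))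
      · simp [hψ0, hφ0]
      · simpa using hu
    have hΞ : HasDerivAt (fun t : ℂ => (1 - t) * ψ u / (1 - t * a * ψ u))
        (-(ψ u) * (1 - a * ψ u)) 0 := by
      have h1 : HasDerivAt (fun t : ℂ => (1 - t) * ψ u) (-1 * ψ u) 0 :=
        ((hasDerivAt_id (0 : ℂ)).const_sub 1).mul_const _
      have h2 : HasDerivAt (fun t : ℂ => 1 - t * a * ψ u) (-(1 * a * ψ u)) 0 :=
        (((hasDerivAt_id (0 : ℂ)).mul_const a).mul_const _).const_sub 1
      have h3 := h1.div h2 (by simp)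
      refine h3.congr_deriv ?_
      simp; ring
    have hφΞ : HasDerivAt (fun t : ℂ => φ ((1 - t) * ψ u / (1 - t * a * ψ u)))
        (deriv φ (ψ u) * (-(ψ u) * (1 - a * ψ u))) 0 := by
      apply HasDerivAt.comp (0 : ℂ) (h₂ := φ) _ hΞ
      simpa using hφd _ (hψm hu)
    have hreal := hφΞ.comp_ofReal (z := 0)
    have hkey := re_deriv_nonpos hreal (by
      intro t ht
      simpa [hφψ u hu] using hsch t ht)
    simp only [Complex.ofReal_zero, sub_zero, one_mul, zero_mul, div_one, hφψ u hu] at hkey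
    have h1 := hene u hu
    have h2 := hψ' u hu
    have h3 : deriv φ (ψ u) = (deriv ψ u)⁻¹ := eq_inv_of_mul_eq_one_left (hchain u hu)
    have h4 : conj u * (deriv φ (ψ u) * (-(ψ u) * (1 - a * ψ u))) =
        -((‖u‖ ^ 2 : ℝ) * ((z₀ * u + (e u)⁻¹ - u * z) / (deriv ψ u / e u ^ 2))) := by
      rw [h3, hψe, ha]
      push_cast
      rw [← Complex.conj_mul']
      field_simp
      ring
    rw [h4, Complex.neg_re, Complex.re_ofReal_mul] at hkey
    have h5 : 0 < ‖u‖ ^ 2 := by positivity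
    by_contra hneg
    push Not at hneg
    nlinarith
  · intro O hO hCO
    set L : Set ℂ := {ξ | ∀ z ∈ O, ξ * (z - z₀) ≠ 1} with hL
    have hLD : L ⊆ D := fun ξ hξ z hz => hξ z (hCO hz)
    have hLc : IsClosed L := by
      rw [← isOpen_compl_iff, isOpen_iff_mem_nhds]
      intro ξ hξ
      simp only [hL, mem_compl_iff, mem_ofPred_eq, not_forall, not_not] at hξ
      obtain ⟨z, hz, hξ⟩ := hξ
      have hξ0 : ξ ≠ 0 := by rintro rfl; simp at hξ
      have hc : ContinuousAt (fun ξ : ℂ => z₀ + ξ⁻¹) ξ :=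
        continuousAt_const.add (continuousAt_inv₀ hξ0)
      have hz' : z₀ + ξ⁻¹ = z := by
        rw [← eq_inv_of_mul_eq_one_right hξ]; ring
      have := hc.eventually_mem (hO.mem_nhds (by rw [hz']; exact hz))
      filter_upwards [this, isOpen_ne.mem_nhds hξ0] with y hy hy0 hyL
      apply hyL _ hy
      rw [add_sub_cancel_left, mul_inv_cancel₀ hy0]
    have hLk : IsCompact L :=
      isCompact_of_isClosed_isBounded hLc (isBounded_ball.subset (hLD.trans hDR))
    obtain ⟨ξ, hξ, hmax⟩ := hLk.exists_isMaxOn ⟨0, fun z _ => by simp⟩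
      (hφ.continuousOn.mono hLD).norm
    refine ⟨‖φ ξ‖, by simpa using hφm (hLD hξ), fun u hu1 hu2 => ?_⟩
    have hu : u ∈ ball (0 : ℂ) 1 := by simpa using hu2
    have hnot : ψ u ∉ L := fun h => by
      have : ‖φ (ψ u)‖ ≤ ‖φ ξ‖ := hmax h
      rw [hφψ u hu] at this
      linarith
    simp only [hL, mem_ofPred_eq, not_forall, not_not] at hnot
    obtain ⟨z, hz, hz'⟩ := hnot
    have hu0 : u ≠ 0 := by
      rintro rfl
      simp [hψ0] at hz'
    have h1 := hene u hu
    convert hz using 1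
    rw [hψe] at hz'
    field_simp
    linear_combination -hz'

theorem ext_pos2 {C : Set ℂ} {z₀ : ℂ} {δ : ℝ}
    (hδ : 0 < δ) (hz₀ : closedBall z₀ δ ⊆ C) {k : ℂ → ℂ} (hk : DifferentiableOn ℂ k (ball 0 1))
    (hW : ∀ u ∈ ball (0 : ℂ) 1, k u - u * deriv k u ≠ 0)
    (hp : ∀ u ∈ ball (0 : ℂ) 1, ∀ z ∈ C, 0 ≤ ((k u - u * z) / (k u - u * deriv k u)).re)
    (hn : ∀ O, IsOpen O → C ⊆ O → ∃ ρ < 1, ∀ u : ℂ, ρ < ‖u‖ → ‖u‖ < 1 → k u / u ∈ O)
    {σ : ℂ} (hσ : ‖σ‖ = 1) {u : ℂ} (hu : ‖u‖ < 1) :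
    0 ≤ ((k u - k (u * σ) / σ) / (k u - u * deriv k u)).re := by
  have hσ0 : σ ≠ 0 := by rintro rfl; simp at hσ
  have hWd : DifferentiableOn ℂ (fun u => k u - u * deriv k u) (ball 0 1) :=
    hk.sub (differentiableOn_id.mul (hk.deriv isOpen_ball))
  have hkσ : DifferentiableOn ℂ (fun u => k (u * σ)) (ball 0 1) := by
    apply hk.comp (differentiableOn_id.mul_const σ)
    intro y hy
    simpa [hσ] using hy
  have key : ∀ ε : ℝ, 0 < ε → 0 ≤ ((k u - k (u * σ) / σ) / (k u - u * deriv k u) +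
      ε * ((k u - u * z₀) / (k u - u * deriv k u))).re := by
    intro ε hε
    obtain ⟨ρ, hρ1, hρ⟩ := hn (thickening (ε * δ) C) isOpen_thickening
      (self_subset_thickening (by positivity) C)
    obtain ⟨r, hr1, hr2⟩ := exists_between (show max (max ρ ‖u‖) 0 < 1 by simp [hρ1, hu])
    have hrρ : ρ < r := lt_of_le_of_lt ((le_max_left _ _).trans (le_max_left _ _)) hr1
    have hru : ‖u‖ < r := lt_of_le_of_lt ((le_max_right _ _).trans (le_max_left _ _)) hr1
    have hr0 : 0 < r := lt_of_le_of_lt (le_max_right _ _) hr1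
    have hsub : closedBall (0 : ℂ) r ⊆ ball 0 1 := closedBall_subset_ball hr2
    apply re_nonneg_of_sphere hr0 (f := fun u => (k u - k (u * σ) / σ) / (k u - u * deriv k u) +
      ε * ((k u - u * z₀) / (k u - u * deriv k u))) _ _ hru.le
    · apply DifferentiableOn.mono _ hsub
      exact ((hk.sub (hkσ.div_const σ)).div hWd hW).add
        (((hk.sub (differentiableOn_id.mul_const z₀)).div hWd hW).const_mul _)
    · intro y hy
      have hy1 : y ∈ ball (0 : ℂ) 1 := by simpa [hy] using hr2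
      have hy0 : y ≠ 0 := by rintro rfl; simp at hy; linarith
      have hmem := hρ (y * σ) (by simpa [hσ, hy] using hrρ) (by simpa [hσ, hy] using hr2)
      obtain ⟨z, hz, hdist⟩ := mem_thickening_iff.1 hmem
      set e := k (y * σ) / (y * σ) - z with he
      have hz' : z₀ + e / ε ∈ C := by
        apply hz₀
        rw [mem_closedBall, dist_eq_norm, add_sub_cancel_left, norm_div, Complex.norm_real,
          Real.norm_of_nonneg hε.le, div_le_iff₀ hε]
        rw [dist_eq_norm] at hdist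
        linarith
      have h1 := hp y hy1 z hz
      have h2 := hp y hy1 _ hz'
      have hε' : (ε : ℂ) ≠ 0 := by exact_mod_cast hε.ne'
      have h3 : (k y - k (y * σ) / σ) / (k y - y * deriv k y) +
          ε * ((k y - y * z₀) / (k y - y * deriv k y)) =
          (k y - y * z) / (k y - y * deriv k y) +
          ε * ((k y - y * (z₀ + e / ε)) / (k y - y * deriv k y)) := by
        have := hW y hy1
        rw [he]
        field_simp
        ring
      rw [h3, Complex.add_re, Complex.re_ofReal_mul]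
      positivity
  have hlim : Tendsto (fun ε : ℝ => ((k u - k (u * σ) / σ) / (k u - u * deriv k u) +
      ε * ((k u - u * z₀) / (k u - u * deriv k u))).re) (𝓝[>] 0)
      (𝓝 ((k u - k (u * σ) / σ) / (k u - u * deriv k u) +
      (0 : ℝ) * ((k u - u * z₀) / (k u - u * deriv k u))).re) := by
    apply Tendsto.mono_left _ nhdsWithin_le_nhds
    apply Continuous.tendsto
    fun_prop
  simp only [Complex.ofReal_zero, zero_mul, add_zero] at hlim
  exact ge_of_tendsto hlim (eventually_nhdsWithin_of_forall fun ε hε => key ε hε)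

/-- Data of a nice exterior conformal map `g u = k u / u` around the set `C`. -/
structure Ext (C : Set ℂ) (R : ℝ) (k : ℂ → ℂ) : Prop where
  one_lt : 1 < R
  diff : DifferentiableOn ℂ k (ball 0 R)
  k0 : k 0 ≠ 0
  notMem : ∀ u ∈ ball (0 : ℂ) R, ∀ z ∈ C, k u - u * z ≠ 0
  inj : ∀ u ∈ ball (0 : ℂ) R, ∀ v ∈ ball (0 : ℂ) R, k u * v = k v * u → u = v
  wne : ∀ u ∈ ball (0 : ℂ) R, k u - u * deriv k u ≠ 0
  pos1 : ∀ u : ℂ, ‖u‖ = 1 → ∀ z ∈ C, 0 ≤ ((k u - u * z) / (k u - u * deriv k u)).re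
  pos2 : ∀ u v : ℂ, ‖u‖ = 1 → ‖v‖ = 1 →
    0 ≤ ((k u - u * (k v / v)) / (k u - u * deriv k u)).re

theorem exists_ext {C : Set ℂ} (hC : IsCompact C) (hcv : Convex ℝ C) (hne : C.Nonempty)
    {O : Set ℂ} (hO : IsOpen O) (hCO : C ⊆ O) :
    ∃ R k, Ext C R k ∧ ∀ u : ℂ, ‖u‖ = 1 → k u / u ∈ O := by
  obtain ⟨δ, hδ, hδO⟩ := hC.exists_cthickening_subset_open hO hCO
  obtain ⟨z₀, hz₀⟩ := hne
  have hb : closedBall z₀ δ ⊆ cthickening δ C := closedBall_subset_cthickening hz₀ δ
  have hCC : C ⊆ cthickening δ C := self_subset_cthickening C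
  obtain ⟨k, hk, hk0, hnm, hinj, hW, hp, hn⟩ :=
    exists_ext_aux hC.cthickening (hcv.cthickening δ) hδ hb
  obtain ⟨ρ, hρ1, hρ⟩ := hn O hO hδO
  obtain ⟨r, hr1, hr2⟩ := exists_between (show max ρ 0 < 1 by simp [hρ1])
  have hrρ : ρ < r := lt_of_le_of_lt (le_max_left _ _) hr1
  have hr0 : 0 < r := lt_of_le_of_lt (le_max_right _ _) hr1
  have hr' : (r : ℂ) ≠ 0 := by exact_mod_cast hr0.ne'
  have hmem : ∀ u ∈ ball (0 : ℂ) r⁻¹, (r : ℂ) * u ∈ ball (0 : ℂ) 1 := by
    intro u hu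
    rw [mem_ball_zero_iff] at hu ⊢
    rw [norm_mul, Complex.norm_real, Real.norm_of_nonneg hr0.le]
    calc r * ‖u‖ < r * r⁻¹ := by gcongr
      _ = 1 := mul_inv_cancel₀ hr0.ne'
  have hR : 1 < r⁻¹ := (one_lt_inv₀ hr0).2 hr2
  have hsph : ∀ u : ℂ, ‖u‖ = 1 → u ∈ ball (0 : ℂ) r⁻¹ := fun u hu => by simpa [hu] using hR
  have hd : ∀ u ∈ ball (0 : ℂ) r⁻¹, HasDerivAt (fun u => k (r * u) / r) (deriv k (r * u)) u := by
    intro u hu
    have h1 := (hk.differentiableAt (isOpen_ball.mem_nhds (hmem u hu))).hasDerivAt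
    have h2 := (h1.comp u ((hasDerivAt_id u).const_mul (r : ℂ))).div_const (r : ℂ)
    refine h2.congr_deriv ?_
    field_simp
  have hWr : ∀ u ∈ ball (0 : ℂ) r⁻¹, k (r * u) / r - u * deriv (fun u => k (r * u) / r) u =
      (k (r * u) - (r * u) * deriv k (r * u)) / r := by
    intro u hu
    rw [(hd u hu).deriv]
    field_simp
  refine ⟨r⁻¹, fun u => k (r * u) / r, ⟨hR,
    fun u hu => (hd u hu).differentiableAt.differentiableWithinAt, by simp [hk0, hr'],
    ?_, ?_, ?_, ?_, ?_⟩, ?_⟩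
  · intro u hu z hz h
    apply hnm _ (hmem u hu) z (hCC hz)
    field_simp at h
    linear_combination h
  · intro u hu v hv h
    have := hinj _ (hmem u hu) _ (hmem v hv) (by field_simp at h; linear_combination (r : ℂ) * h)
    exact mul_left_cancel₀ hr' this
  · intro u hu
    rw [hWr u hu]
    exact div_ne_zero (hW _ (hmem u hu)) hr'
  · intro u hu z hz
    rw [hWr u (hsph u hu)]
    convert hp _ (hmem u (hsph u hu)) z (hCC hz) using 2
    field_simp
  · intro u v hu hv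
    rw [hWr u (hsph u hu)]
    have hu0 : u ≠ 0 := by rintro rfl; simp at hu
    have hv0 : v ≠ 0 := by rintro rfl; simp at hv
    have := ext_pos2 hδ hb hk hW hp hn (σ := v / u) (by simp [hu, hv]) (u := r * u)
      (by simpa using hmem u (hsph u hu))
    have e : (r : ℂ) * u * (v / u) = r * v := by field_simp
    rw [e] at this
    convert this using 2
    field_simp
  · intro u hu
    have := hρ (r * u) (by simpa [hu, abs_of_pos hr0] using hrρ)
      (by simpa [hu, abs_of_pos hr0] using hr2)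
    convert this using 1
    field_simp

end Crest.Agent.H0179
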