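import Mathlib
import Crest.Prelude.Def_NumRangeMetric

set_option autoImplicit false

open Set Filter Metric Topology Polynomial
open Crest.AnalysisR.NumRange

namespace Crest.Agent.H0179

theorem exists_dsl {U : Set ℂ} (hU : IsOpen U) {g : ℂ → ℂ} (hg : DifferentiableOn ℂ g U) {a : ℂ}
    (ha : a ∈ U) : ∃ d : ℂ → ℂ, DifferentiableOn ℂ d U ∧ ∀ z, g z = g a + (z - a) * d z :=
  ⟨dslope g a, (Complex.differentiableOn_dslope (hU.mem_nhds ha)).2 hg, fun z => by
    have := sub_smul_dslope g a z
    rw [smul_eq_mul] at this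
    rw [this]; ring⟩

theorem div_multiset {U : Set ℂ} (hU : IsOpen U) (s : Multiset ℂ) :
    ∀ e : ℂ → ℂ, DifferentiableOn ℂ e U → (∀ a ∈ s, a ∈ U) →
      (∀ a ∈ s, (s.count a : ℕ∞) ≤ analyticOrderAt e a) →
      ∃ h : ℂ → ℂ, DifferentiableOn ℂ h U ∧ ∀ z, e z = (s.map (z - ·)).prod * h z := by
  induction s using Multiset.induction_on with
  | empty => exact fun e he _ _ => ⟨e, he, by simp⟩
  | cons a s ih =>
    intro e he hs ho
    have haU := hs a (Multiset.mem_cons_self _ _)
    have hea : e a = 0 := by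
      apply apply_eq_zero_of_analyticOrderAt_ne_zero
      intro h0
      have := ho a (Multiset.mem_cons_self _ _)
      rw [h0] at this
      simp at this
    obtain ⟨d, hd, hde⟩ := exists_dsl hU he haU
    simp only [hea, zero_add] at hde
    have hfun : e = (fun z => z - a) * d := funext hde
    obtain ⟨h, hh, hhe⟩ := ih d hd (fun b hb => hs b (Multiset.mem_cons_of_mem hb)) (by
      intro b hb
      have hbU := hs b (Multiset.mem_cons_of_mem hb)
      have h1 := ho b (Multiset.mem_cons_of_mem hb)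
      rw [hfun, analyticOrderAt_mul (by fun_prop) (hd.analyticAt (hU.mem_nhds hbU))] at h1
      by_cases hba : b = a
      · subst hba
        rw [analyticOrderAt_id_sub_const_self, Multiset.count_cons_self, add_comm] at h1
        push_cast at h1
        exact (ENat.add_le_add_iff_left ENat.one_ne_top).1 h1
      · rwa [analyticOrderAt_id_sub_const_of_ne hba, Multiset.count_cons_of_ne hba, zero_add] at h1)
    refine ⟨h, hh, fun z => ?_⟩
    rw [hde, hhe, Multiset.map_cons, Multiset.prod_cons, mul_assoc]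

theorem interp {U : Set ℂ} (hU : IsOpen U) (s : Multiset ℂ) :
    ∀ g : ℂ → ℂ, DifferentiableOn ℂ g U → (∀ a ∈ s, a ∈ U) →
      ∃ (r : ℂ[X]) (h : ℂ → ℂ), DifferentiableOn ℂ h U ∧
        ∀ z, g z = r.eval z + (s.map (z - ·)).prod * h z := by
  induction s using Multiset.induction_on with
  | empty => exact fun g hg _ => ⟨0, g, hg, by simp⟩
  | cons a s ih =>
    intro g hg hs
    obtain ⟨d, hd, hde⟩ := exists_dsl hU hg (hs a (Multiset.mem_cons_self _ _))
    obtain ⟨r, h, hh, hhe⟩ := ih d hd (fun b hb => hs b (Multiset.mem_cons_of_mem hb))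
    refine ⟨C (g a) + (X - C a) * r, h, hh, fun z => ?_⟩
    rw [hde z, hhe, Multiset.map_cons, Multiset.prod_cons]
    simp only [eval_add, eval_mul, eval_sub, eval_C, eval_X]
    ring

theorem dvd_of_eq_mul {U : Set ℂ} (hU : IsOpen U) {h : ℂ → ℂ} (hh : ContinuousOn h U)
    (s : Multiset ℂ) : ∀ r : ℂ[X], (∀ a ∈ s, a ∈ U) →
      (∀ z ∈ U, r.eval z = (s.map (z - ·)).prod * h z) → (s.map (fun a => X - C a)).prod ∣ r := by
  induction s using Multiset.induction_on with
  | empty => simp
  | cons a s ih =>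
    intro r hs hr
    have haU := hs a (Multiset.mem_cons_self _ _)
    have hra : r.IsRoot a := by simp [hr a haU]
    obtain ⟨r₁, rfl⟩ := dvd_iff_isRoot.2 hra
    rw [Multiset.map_cons, Multiset.prod_cons]
    refine mul_dvd_mul_left _ (ih r₁ (fun b hb => hs b (Multiset.mem_cons_of_mem hb)) ?_)
    have hoff : ∀ z ∈ U, z ≠ a → r₁.eval z = (s.map (z - ·)).prod * h z := by
      intro z hz hza
      have := hr z hz
      simp only [eval_mul, eval_sub, eval_X, eval_C, Multiset.map_cons, Multiset.prod_cons,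
        mul_assoc] at this
      exact mul_left_cancel₀ (sub_ne_zero.2 hza) this
    intro z hz
    by_cases hza : z = a
    · subst hza
      have hc : Continuous fun w : ℂ => (s.map (w - ·)).prod :=
        continuous_multiset_prod s fun b _ => by fun_prop
      refine tendsto_nhds_unique_of_eventuallyEq (l := 𝓝[≠] z)
        (r₁.continuous.continuousAt.continuousWithinAt)
        ((hc.continuousAt.mul (hh.continuousAt (hU.mem_nhds hz))).continuousWithinAt) ?_
      filter_upwards [self_mem_nhdsWithin, mem_nhdsWithin_of_mem_nhds (hU.mem_nhds hz)]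
        with w hw hwU using hoff w hwU hw
    · exact hoff z hz hza

variable {n : ℕ}

theorem charpoly_eq_prod (A : Matrix (Fin n) (Fin n) ℂ) :
    A.charpoly = (A.charpoly.roots.map (fun a => X - C a)).prod :=
  (IsAlgClosed.splits _).eq_prod_roots_of_monic A.charpoly_monic

theorem charpoly_eval (A : Matrix (Fin n) (Fin n) ℂ) (z : ℂ) :
    A.charpoly.eval z = (A.charpoly.roots.map (z - ·)).prod :=
  (IsAlgClosed.splits _).eval_eq_prod_roots_of_monic A.charpoly_monic z

theorem root_mem_spectrum {A : Matrix (Fin n) (Fin n) ℂ} {a : ℂ} (ha : a ∈ A.charpoly.roots) :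
    a ∈ spectrum ℂ A :=
  Matrix.mem_spectrum_of_isRoot_charpoly (isRoot_of_mem_roots ha)

theorem spectrum_subset_numRange (A : Matrix (Fin n) (Fin n) ℂ) : spectrum ℂ A ⊆ numRange A := by
  intro a ha
  rw [← Matrix.spectrum_toLpLin 2, ← Module.End.hasEigenvalue_iff_mem_spectrum] at ha
  obtain ⟨x, hx⟩ := ha.exists_hasEigenvector
  have hx0 : ‖x‖ ≠ 0 := norm_ne_zero_iff.2 hx.2
  have hx0' : (‖x‖ : ℂ) ≠ 0 := by exact_mod_cast hx0
  refine ⟨(‖x‖ : ℂ)⁻¹ • x, ?_, ?_⟩
  · rw [norm_smul, norm_inv, Complex.norm_real, norm_norm, inv_mul_cancel₀ hx0]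
  · rw [map_smul, hx.apply_eq_smul]
    simp only [inner_smul_left, inner_smul_right, inner_self_eq_norm_sq_to_K, map_inv₀,
      Complex.conj_ofReal, Complex.coe_algebraMap]
    field_simp

theorem fc_rep {A : Matrix (Fin n) (Fin n) ℂ} {U : Set ℂ} (hU : IsOpen U)
    (hA : spectrum ℂ A ⊆ U) {g : ℂ → ℂ} (hg : DifferentiableOn ℂ g U) {p : ℂ[X]}
    (hp : AgreesOnSpectrum A g p) :
    ∃ h : ℂ → ℂ, DifferentiableOn ℂ h U ∧ ∀ z, g z = p.eval z + A.charpoly.eval z * h z := by
  obtain ⟨h, hh, hhe⟩ := div_multiset hU A.charpoly.roots (fun z => g z - p.eval z)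
    (hg.sub p.differentiableOn) (fun a ha => hA (root_mem_spectrum ha)) (by
      intro a ha
      have haS := root_mem_spectrum ha
      have hga : AnalyticAt ℂ g a := hg.analyticAt (hU.mem_nhds (hA haS))
      have hpa : AnalyticAt ℂ (fun z => p.eval z) a := p.differentiable.analyticAt a
      have h1 : (n : ℕ∞) ≤ analyticOrderAt (fun z => g z - p.eval z) a := by
        rw [natCast_le_analyticOrderAt_iff_iteratedDeriv_eq_zero (hga.fun_sub hpa)]
        intro i hi
        rw [iteratedDeriv_fun_sub hga.contDiffAt hpa.contDiffAt, hp a haS i hi, sub_self]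
      refine le_trans ?_ h1
      have h2 : A.charpoly.roots.count a ≤ n := by
        refine (Multiset.count_le_card _ _).trans ((card_roots' _).trans ?_)
        simp
      exact_mod_cast h2)
  refine ⟨h, hh, fun z => ?_⟩
  rw [charpoly_eval, ← hhe]; ring

theorem agrees_eval {A : Matrix (Fin n) (Fin n) ℂ} {g : ℂ → ℂ} {p : ℂ[X]}
    (hp : AgreesOnSpectrum A g p) (hn : 1 ≤ n) {a : ℂ} (ha : a ∈ spectrum ℂ A) : p.eval a = g a := by
  simpa using hp a ha 0 hn

theorem poly_sub_poly {U : Set ℂ} {a b : ℂ → ℂ} (ha : DifferentiableOn ℂ a U)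
    (hb : DifferentiableOn ℂ b U) (s : ℂ[X]) :
    ∃ c : ℂ → ℂ, DifferentiableOn ℂ c U ∧ ∀ z, s.eval (a z) - s.eval (b z) = (a z - b z) * c z := by
  induction s using Polynomial.induction_on with
  | C x => exact ⟨0, by fun_prop, by simp⟩
  | add p q hp hq =>
    obtain ⟨c, hc, hce⟩ := hp
    obtain ⟨d, hd, hde⟩ := hq
    refine ⟨fun z => c z + d z, hc.add hd, fun z => ?_⟩
    simp only [eval_add]
    linear_combination hce z + hde z
  | monomial m x ih =>
    obtain ⟨c, hc, hce⟩ := ih
    refine ⟨fun z => a z * c z + x * b z ^ m, by fun_prop, fun z => ?_⟩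
    have := hce z
    simp only [eval_mul, eval_C, eval_pow, eval_X] at this ⊢
    linear_combination a z * this

end Crest.Agent.H0179
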