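import Mathlib

set_option autoImplicit false

open Set Filter Metric Topology

namespace Crest.Agent.H0179

/-- Local Hurwitz theorem. -/
theorem hurwitz_local {ι : Type*} {l : Filter ι} {U : Set ℂ} (hU : IsOpen U)
    {F : ι → ℂ → ℂ} {f : ℂ → ℂ} (hF : ∀ᶠ i in l, DifferentiableOn ℂ (F i) U)
    (hf : ContinuousOn f U)
    (hlim : TendstoLocallyUniformlyOn F f l U) {z₀ : ℂ} (hz₀ : z₀ ∈ U) (h0 : f z₀ = 0)
    (hne : ∀ᶠ z in 𝓝[≠] z₀, f z ≠ 0) {s : Set ℂ} (hs : s ∈ 𝓝 z₀) :
    ∀ᶠ i in l, ∃ z ∈ s ∩ U, F i z = 0 := by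
  have h1 : ∀ᶠ z in 𝓝 z₀, (z ≠ z₀ → f z ≠ 0) ∧ z ∈ s ∩ U :=
    (eventually_nhdsWithin_iff.1 hne).and (inter_mem hs (hU.mem_nhds hz₀))
  obtain ⟨r, hr, hrb⟩ := Metric.nhds_basis_closedBall.eventually_iff.1 h1
  have hsub : closedBall z₀ r ⊆ U := fun z hz => (hrb hz).2.2
  have hsph : (sphere z₀ r).Nonempty := NormedSpace.sphere_nonempty.2 hr.le
  obtain ⟨w, hw, hwmin⟩ := (isCompact_sphere z₀ r).exists_isMinOn hsph
    ((hf.mono (sphere_subset_closedBall.trans hsub)).norm)
  set δ := ‖f w‖ with hδ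
  have hδpos : 0 < δ := by
    apply norm_pos_iff.2
    apply (hrb (sphere_subset_closedBall hw)).1
    rintro rfl
    simp at hw
    exact hr.ne hw
  have hu : TendstoUniformlyOn F f l (closedBall z₀ r) :=
    (tendstoLocallyUniformlyOn_iff_forall_isCompact hU).1 hlim _ hsub (isCompact_closedBall _ _)
  filter_upwards [hF, Metric.tendstoUniformlyOn_iff.1 hu (δ / 2) (by positivity)] with i hi hd
  by_contra hcon
  push Not at hcon
  have hnz : ∀ z ∈ closedBall z₀ r, F i z ≠ 0 := fun z hz => hcon z (hrb hz).2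
  have hdc : DiffContOnCl ℂ (fun z => (F i z)⁻¹) (ball z₀ r) := by
    apply DifferentiableOn.diffContOnCl
    rw [closure_ball _ hr.ne']
    exact (hi.mono hsub).inv hnz
  have hb : ‖(F i z₀)⁻¹‖ ≤ (δ / 2)⁻¹ := by
    apply Complex.norm_le_of_forall_mem_frontier_norm_le isBounded_ball hdc
    · intro z hz
      rw [frontier_ball _ hr.ne'] at hz
      rw [norm_inv]
      apply inv_anti₀ (by positivity)
      have h2 := hd z (sphere_subset_closedBall hz)
      have h3 : δ ≤ ‖f z‖ := hwmin hz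
      rw [dist_eq_norm] at h2
      have h4 : ‖f z‖ ≤ ‖f z - F i z‖ + ‖F i z‖ := by
        simpa using norm_add_le (f z - F i z) (F i z)
      linarith
    · exact subset_closure (mem_ball_self hr)
  have h2 := hd z₀ (mem_closedBall_self hr.le)
  rw [h0, dist_comm, dist_zero_right] at h2
  rw [norm_inv] at hb
  have h5 : 0 < ‖F i z₀‖ := norm_pos_iff.2 (hnz _ (mem_closedBall_self hr.le))
  have := (inv_le_inv₀ h5 (by positivity)).1 hb
  linarith

/-- If an analytic function on a preconnected open set is not identically zero then its zeros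
are isolated. -/
theorem ev_ne_of_ne {U : Set ℂ} (hU : IsOpen U) (hc : IsPreconnected U) {f : ℂ → ℂ}
    (hf : DifferentiableOn ℂ f U) {a z₀ : ℂ} (ha : a ∈ U) (hfa : f a ≠ 0) (hz₀ : z₀ ∈ U) :
    ∀ᶠ z in 𝓝[≠] z₀, f z ≠ 0 := by
  have han := hf.analyticOnNhd hU
  rcases (han z₀ hz₀).eventually_eq_zero_or_eventually_ne_zero with h | h
  · exact absurd (han.eqOn_zero_of_preconnected_of_eventuallyEq_zero hc hz₀ h ha) hfa
  · exact h

/-- Montel's theorem along an ultrafilter. -/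
theorem montel {ι : Type*} (l : Ultrafilter ι) {U : Set ℂ} (hU : IsOpen U)
    {F : ι → ℂ → ℂ} (hF : ∀ i, DifferentiableOn ℂ (F i) U) (hb : ∀ i, ∀ z ∈ U, ‖F i z‖ ≤ 1) :
    ∃ f : ℂ → ℂ, TendstoLocallyUniformlyOn F f l U := by
  have hp : ∀ z ∈ U, ∃ a, Tendsto (fun i => F i z) l (𝓝 a) := by
    intro z hz
    have hle : (l.map (fun i => F i z) : Filter ℂ) ≤ 𝓟 (closedBall 0 1) := by
      rw [le_principal_iff]
      simp only [Ultrafilter.mem_coe, Ultrafilter.mem_map]
      exact Filter.Eventually.of_forall (fun i => by simpa using hb i z hz)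
    obtain ⟨a, -, ha⟩ := (isCompact_closedBall (0 : ℂ) 1).ultrafilter_le_nhds _ hle
    exact ⟨a, ha⟩
  choose! f hf using hp
  refine ⟨f, Metric.tendstoLocallyUniformlyOn_iff.2 fun ε hε x hx => ?_⟩
  obtain ⟨r, hr, hrU⟩ := Metric.isOpen_iff.1 hU x hx
  have hlip : ∀ i, ∀ y ∈ ball x r, dist (F i y) (F i x) ≤ 2 / r * dist y x := by
    intro i y hy
    apply Complex.dist_le_div_mul_dist_of_mapsTo_ball ((hF i).mono hrU) _ hy
    intro z hz
    rw [mem_closedBall, dist_eq_norm]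
    have := norm_sub_le (F i z) (F i x)
    have h1 := hb i z (hrU hz)
    have h2 := hb i x hx
    linarith
  have hlipf : ∀ y ∈ ball x r, dist (f y) (f x) ≤ 2 / r * dist y x := by
    intro y hy
    exact le_of_tendsto ((hf y (hrU hy)).dist (hf x hx))
      (Filter.Eventually.of_forall fun i => hlip i y hy)
  set ρ := min r (ε * r / 6) with hρ
  have hρpos : 0 < ρ := by positivity
  refine ⟨ball x ρ, mem_nhdsWithin_of_mem_nhds (ball_mem_nhds _ hρpos), ?_⟩
  filter_upwards [Metric.tendsto_nhds.1 (hf x hx) (ε / 3) (by positivity)] with i hi y hy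
  have hy1 : y ∈ ball x r := ball_subset_ball (min_le_left _ _) hy
  have hy2 : dist y x < ε * r / 6 := lt_of_lt_of_le hy (min_le_right _ _)
  have h3 : 2 / r * dist y x ≤ ε / 3 := by
    calc 2 / r * dist y x ≤ 2 / r * (ε * r / 6) := by gcongr
      _ = ε / 3 := by field_simp; ring
  have h4 := hlip i y hy1
  have h5 := hlipf y hy1
  have h6 := dist_triangle4 (f y) (f x) (F i x) (F i y)
  rw [dist_comm (f x) (F i x), dist_comm (F i x) (F i y)] at h6
  linarith

end Crest.Agent.H0179
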