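import Mathlib

set_option autoImplicit false

open Set Filter Metric Topology
open scoped ComplexConjugate ComplexOrder InnerProductSpace

namespace Crest.Agent.H0179

theorem gram_ineq {V : Type*} [NormedAddCommGroup V] [InnerProductSpace ℂ V] (K : V →L[ℂ] V)
    (hK : ∀ ξ, 0 ≤ (⟪ξ, K ξ⟫_ℂ).re) {ι : Type*} [Fintype ι] (x y : ι → V) :
    2 * ∑ i, ∑ j, ‖⟪y i, K (x j)⟫_ℂ + conj ⟪x j, K (y i)⟫_ℂ‖ ^ 2 ≤
      ∑ i, ∑ j, ‖⟪x i, K (x j)⟫_ℂ + conj ⟪x j, K (x i)⟫_ℂ‖ ^ 2 +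
      ∑ i, ∑ j, ‖⟪y i, K (y j)⟫_ℂ + conj ⟪y j, K (y i)⟫_ℂ‖ ^ 2 := by
  classical
  set e : ι ⊕ ι → V := Sum.elim x y with he
  set M : Matrix (ι ⊕ ι) (ι ⊕ ι) ℂ :=
    Matrix.of fun a b => ⟪e a, K (e b)⟫_ℂ + conj ⟪e b, K (e a)⟫_ℂ with hM
  have hherm : ∀ a b, conj (M a b) = M b a := by
    intro a b
    simp only [hM, Matrix.of_apply, map_add, Complex.conj_conj, add_comm]
  have hpsd : M.PosSemidef := by
    apply Matrix.PosSemidef.of_dotProduct_mulVec_nonneg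
    · ext a b
      simpa using hherm b a
    · intro c
      have h1 : star c ⬝ᵥ M.mulVec c = ⟪∑ a, c a • e a, K (∑ a, c a • e a)⟫_ℂ +
          conj ⟪∑ a, c a • e a, K (∑ a, c a • e a)⟫_ℂ := by
        simp only [dotProduct, Matrix.mulVec, hM, Matrix.of_apply, map_sum, map_smul, sum_inner,
          inner_sum, inner_smul_left, inner_smul_right, Pi.star_apply, RCLike.star_def,
          Finset.mul_sum, map_mul, Complex.conj_conj, mul_add, add_mul, Finset.sum_add_distrib]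
        congr 1
        · rw [Finset.sum_comm]
          refine Finset.sum_congr rfl fun a _ => Finset.sum_congr rfl fun b _ => by ring
        · refine Finset.sum_congr rfl fun a _ => Finset.sum_congr rfl fun b _ => by ring
      rw [h1, Complex.add_conj]
      exact_mod_cast mul_nonneg zero_le_two (hK _)
  have h2 := (hpsd.hadamard hpsd.transpose).dotProduct_mulVec_nonneg
    (Sum.elim (fun _ => 1) (fun _ => -1))
  have h3 : ∀ a b, M a b * M b a = ((‖M a b‖ ^ 2 : ℝ) : ℂ) := by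
    intro a b
    rw [← hherm a b, Complex.mul_conj']; push_cast; rfl
  simp only [dotProduct, Matrix.mulVec, Matrix.hadamard_apply, Matrix.transpose_apply, h3,
    Fintype.sum_sum_type, Sum.elim_inl, Sum.elim_inr, Pi.star_apply, star_one, star_neg,
    mul_one, one_mul, mul_neg, neg_mul, Finset.sum_neg_distrib, Finset.sum_add_distrib,
    neg_add, neg_neg] at h2
  have h4 : (0 : ℝ) ≤ ∑ i, ∑ j, ‖M (Sum.inl i) (Sum.inl j)‖ ^ 2 +
      -∑ i, ∑ j, ‖M (Sum.inl i) (Sum.inr j)‖ ^ 2 +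
      (-∑ i, ∑ j, ‖M (Sum.inr i) (Sum.inl j)‖ ^ 2 +
        ∑ i, ∑ j, ‖M (Sum.inr i) (Sum.inr j)‖ ^ 2) := by
    exact_mod_cast h2
  have h5 : ∑ i, ∑ j, ‖M (Sum.inl i) (Sum.inr j)‖ ^ 2 =
      ∑ i, ∑ j, ‖M (Sum.inr i) (Sum.inl j)‖ ^ 2 := by
    rw [Finset.sum_comm]
    refine Finset.sum_congr rfl fun a _ => Finset.sum_congr rfl fun b _ => ?_
    rw [← hherm, Complex.norm_conj]
  rw [h5] at h4
  simp only [hM, he, Matrix.of_apply, Sum.elim_inl, Sum.elim_inr] at h4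
  linarith

theorem exists_top_singular {X : Type*} [NormedAddCommGroup X] [InnerProductSpace ℂ X]
    [FiniteDimensional ℂ X] (T : X →L[ℂ] X) (hT : 0 < ‖T‖) :
    ∃ x y : X, ‖x‖ = 1 ∧ T x = (‖T‖ : ℂ) • y ∧ ∀ ξ, ⟪y, T ξ⟫_ℂ = ‖T‖ * ⟪x, ξ⟫_ℂ := by
  have : ProperSpace X := FiniteDimensional.proper ℂ X
  have : CompleteSpace X := FiniteDimensional.complete ℂ X
  have : Nontrivial X := by
    by_contra h
    rw [not_nontrivial_iff_subsingleton] at h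
    rw [Subsingleton.elim T 0] at hT
    simp at hT
  have : NormedSpace ℝ X := NormedSpace.complexToReal
  obtain ⟨x, hx, hmax⟩ := (isCompact_sphere (0 : X) 1).exists_isMaxOn
    (NormedSpace.sphere_nonempty.2 zero_le_one) (T.continuous.norm.continuousOn)
  have hx1 : ‖x‖ = 1 := by simpa using hx
  have hTx : ‖T x‖ = ‖T‖ := by
    apply le_antisymm
    · simpa [hx1] using T.le_opNorm x
    · apply ContinuousLinearMap.opNorm_le_of_unit_norm (norm_nonneg _)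
      intro z hz
      exact hmax (by simpa using hz)
  have hκ : (‖T‖ : ℂ) ≠ 0 := by exact_mod_cast hT.ne'
  refine ⟨x, (‖T‖ : ℂ)⁻¹ • T x, hx1, by rw [smul_smul, mul_inv_cancel₀ hκ, one_smul], ?_⟩
  set y := (‖T‖ : ℂ)⁻¹ • T x with hy
  have hy1 : ‖y‖ = 1 := by
    rw [hy, norm_smul, norm_inv, hTx, Complex.norm_real, norm_norm, inv_mul_cancel₀ hT.ne']
  set z := ContinuousLinearMap.adjoint T y with hz
  have hz1 : ‖z‖ ≤ ‖T‖ := by
    have := (ContinuousLinearMap.adjoint T).le_opNorm y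
    rwa [hy1, mul_one, LinearIsometryEquiv.norm_map] at this
  have hz2 : ⟪z, x⟫_ℂ = ‖T‖ := by
    rw [hz, ContinuousLinearMap.adjoint_inner_left, hy, inner_smul_left, inner_self_eq_norm_sq_to_K,
      hTx]
    simp only [map_inv₀, Complex.conj_ofReal, Complex.coe_algebraMap]
    field_simp
  have hz3 : z = (‖T‖ : ℂ) • x := by
    rw [← sub_eq_zero, ← norm_eq_zero]
    have h1 := @norm_sub_sq ℂ X _ _ _ z ((‖T‖ : ℂ) • x)
    rw [inner_smul_right, hz2, norm_smul, hx1, Complex.norm_real, norm_norm] at h1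
    have h2 : RCLike.re ((‖T‖ : ℂ) * ‖T‖) = ‖T‖ ^ 2 := by
      simp [sq]
    rw [h2] at h1
    have h3 : ‖z‖ ^ 2 ≤ ‖T‖ ^ 2 := by gcongr
    have h4 : ‖z - (‖T‖ : ℂ) • x‖ ^ 2 ≤ 0 := by linarith
    exact pow_eq_zero_iff two_ne_zero |>.1 (le_antisymm h4 (by positivity))
  intro ξ
  rw [← ContinuousLinearMap.adjoint_inner_left, ← hz, hz3, inner_smul_left]
  simp

theorem bilin_bound {ι : Type*} [Fintype ι] [DecidableEq ι] (φ : Matrix ι ι ℂ) {M : ℝ}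
    (hM : ‖Matrix.toEuclideanCLM (n := ι) (𝕜 := ℂ) φ‖ ≤ M) (η ξ : ι → ℂ) {s t : ℝ}
    (hs : 0 < s) (hst : 4 * s * t = 1) :
    (∑ i, ∑ j, η i * φ i j * ξ j).re ≤ M * (s * ∑ i, ‖η i‖ ^ 2 + t * ∑ j, ‖ξ j‖ ^ 2) := by
  set a : EuclideanSpace ℂ ι := WithLp.toLp 2 (fun i => conj (η i)) with ha
  set b : EuclideanSpace ℂ ι := WithLp.toLp 2 ξ with hb
  have hM0 : 0 ≤ M := (norm_nonneg _).trans hM
  have h1 : ∑ i, ∑ j, η i * φ i j * ξ j =
      ⟪a, Matrix.toEuclideanCLM (n := ι) (𝕜 := ℂ) φ b⟫_ℂ := by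
    simp only [ha, hb, Matrix.toEuclideanCLM_toLp, PiLp.inner_apply, Matrix.mulVec, dotProduct,
      RCLike.inner_apply, Complex.conj_conj, Finset.sum_mul]
    refine Finset.sum_congr rfl fun a _ => Finset.sum_congr rfl fun b _ => by ring
  have h2 : ∑ i, ‖η i‖ ^ 2 = ‖a‖ ^ 2 := by
    rw [EuclideanSpace.norm_sq_eq]; simp [ha]
  have h3 : ∑ i, ‖ξ i‖ ^ 2 = ‖b‖ ^ 2 := by
    rw [EuclideanSpace.norm_sq_eq]
  rw [h1, h2, h3]
  have h4 : ‖Matrix.toEuclideanCLM (n := ι) (𝕜 := ℂ) φ b‖ ≤ M * ‖b‖ :=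
    ContinuousLinearMap.le_of_opNorm_le _ hM b
  have h5 : ‖a‖ * ‖b‖ ≤ s * ‖a‖ ^ 2 + t * ‖b‖ ^ 2 := by
    have ht : t = 1 / (4 * s) := by field_simp; linarith
    have : 0 ≤ (2 * s * ‖a‖ - ‖b‖) ^ 2 / (4 * s) := by positivity
    have e : s * ‖a‖ ^ 2 + t * ‖b‖ ^ 2 - ‖a‖ * ‖b‖ = (2 * s * ‖a‖ - ‖b‖) ^ 2 / (4 * s) := by
      rw [ht]; field_simp; ring
    linarith
  calc _ ≤ ‖⟪a, Matrix.toEuclideanCLM (n := ι) (𝕜 := ℂ) φ b⟫_ℂ‖ := Complex.re_le_norm _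
    _ ≤ ‖a‖ * (M * ‖b‖) := (norm_inner_le_norm _ _).trans (by gcongr)
    _ = M * (‖a‖ * ‖b‖) := by ring
    _ ≤ _ := by gcongr

end Crest.Agent.H0179
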