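import Crest.Agent.H0179.NP
import Crest.Agent.H0179.LinAlg

set_option autoImplicit false

open Set Filter Metric Topology
open scoped ComplexConjugate InnerProductSpace

namespace Crest.Agent.H0179

variable {V : Type*} [NormedAddCommGroup V] [InnerProductSpace ℂ V]

/-- The operator-valued Cauchy kernel. -/
noncomputable def Kop (k : ℂ → ℂ) (A : V →L[ℂ] V) (u : ℂ) : V →L[ℂ] V :=
  WW k u • Ring.inverse (k u • (1 : V →L[ℂ] V) - u • A)

/-- The functional calculus given by the Cauchy integral along the boundary curve. -/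
noncomputable def JJ (k : ℂ → ℂ) (A : V →L[ℂ] V) (φ : ℂ → ℂ) : V →L[ℂ] V :=
  av (fun u => φ u • Kop k A u)

/-- Admissible boundary functions. -/
def Adm (k : ℂ → ℂ) (φ : ℂ → ℂ) : Prop :=
  ContinuousOn φ S1 ∧ ∀ Q : Polynomial ℂ, av (fun u => Q.eval (gg k u) * φ u * (WW k u / u)) = 0

variable {C : Set ℂ} {R : ℝ} {k : ℂ → ℂ}

theorem Ext.adm_holo (E : Ext C R k) {Ω : Set ℂ} (hΩ : IsOpen Ω) (hc : Convex ℝ Ω)
    (hg : ∀ u ∈ S1, gg k u ∈ Ω) {f : ℂ → ℂ} (hf : DifferentiableOn ℂ f Ω) :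
    Adm k (fun u => f (gg k u)) :=
  ⟨hf.continuousOn.comp E.contg hg, fun Q =>
    E.av_holo_curve hΩ hc hg (f := fun z => Q.eval z * f z) (Q.differentiableOn.mul hf)⟩

theorem Ext.adm_poly_mul (E : Ext C R k) {φ : ℂ → ℂ} (hφ : Adm k φ) (h : Polynomial ℂ) :
    Adm k (fun u => h.eval (gg k u) * φ u) :=
  ⟨(h.continuous.comp_continuousOn E.contg).mul hφ.1, fun Q => by
    simpa only [Polynomial.eval_mul, mul_assoc] using hφ.2 (Q * h)⟩

theorem Ext.adm_one (E : Ext C R k) : Adm k (fun _ => 1) :=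
  E.adm_holo isOpen_univ convex_univ (fun _ _ => mem_univ _) (f := fun _ => 1) (by fun_prop)

variable [FiniteDimensional ℂ V] {A : V →L[ℂ] V}

omit [FiniteDimensional ℂ V] in
theorem inner_aux {A : V →L[ℂ] V} (hA : ∀ x : V, ‖x‖ = 1 → ⟪x, A x⟫_ℂ ∈ C) {η : V}
    (hη : η ≠ 0) : ∃ z ∈ C, ⟪η, A η⟫_ℂ = (‖η‖ ^ 2 : ℝ) * z := by
  have hn : (‖η‖ : ℂ) ≠ 0 := by exact_mod_cast norm_ne_zero_iff.2 hη
  refine ⟨_, hA ((‖η‖ : ℂ)⁻¹ • η) ?_, ?_⟩
  · rw [norm_smul, norm_inv, Complex.norm_real, norm_norm, inv_mul_cancel₀ (norm_ne_zero_iff.2 hη)]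
  · simp only [map_smul, inner_smul_left, inner_smul_right, map_inv₀, Complex.conj_ofReal]
    push_cast
    field_simp

theorem Ext.isUnit (E : Ext C R k) (hA : ∀ x : V, ‖x‖ = 1 → ⟪x, A x⟫_ℂ ∈ C) {u : ℂ}
    (hu : u ∈ ball (0 : ℂ) R) : IsUnit (k u • (1 : V →L[ℂ] V) - u • A) := by
  have : CompleteSpace V := FiniteDimensional.complete ℂ V
  rw [ContinuousLinearMap.isUnit_iff_bijective]
  have hinj : Function.Injective (k u • (1 : V →L[ℂ] V) - u • A) := by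
    rw [injective_iff_map_eq_zero]
    intro η hη
    by_contra hne
    obtain ⟨z, hz, he⟩ := inner_aux hA hne
    have h1 : ⟪η, (k u • (1 : V →L[ℂ] V) - u • A) η⟫_ℂ = (‖η‖ ^ 2 : ℝ) * (k u - u * z) := by
      simp only [sub_apply, smul_apply,
        one_apply_eq_self, inner_sub_right, inner_smul_right, he,
        inner_self_eq_norm_sq_to_K]
      push_cast
      simp only [Complex.coe_algebraMap]
      ring
    rw [hη, inner_zero_right] at h1
    have h2 : ((‖η‖ ^ 2 : ℝ) : ℂ) ≠ 0 := by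
      exact_mod_cast pow_ne_zero 2 (norm_ne_zero_iff.2 hne)
    exact E.notMem u hu z hz ((mul_eq_zero.1 h1.symm).resolve_left h2)
  exact ⟨hinj, LinearMap.surjective_of_injective
    (f := ((k u • (1 : V →L[ℂ] V) - u • A : V →L[ℂ] V) : V →ₗ[ℂ] V)) hinj⟩

theorem Ext.diffK (E : Ext C R k) (hA : ∀ x : V, ‖x‖ = 1 → ⟪x, A x⟫_ℂ ∈ C) :
    DifferentiableOn ℂ (Kop k A) (ball 0 R) := by
  have : CompleteSpace V := FiniteDimensional.complete ℂ V
  apply E.diffW.smul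
  intro u hu
  exact DifferentiableWithinAt.inverse
    (((E.diff u hu).smul_const _).sub (differentiableWithinAt_id.smul_const A)) (E.isUnit hA hu)

theorem Ext.contK (E : Ext C R k) (hA : ∀ x : V, ‖x‖ = 1 → ⟪x, A x⟫_ℂ ∈ C) :
    ContinuousOn (Kop k A) S1 := (E.diffK hA).continuousOn.mono E.sub

theorem Ext.K_zero (E : Ext C R k) (hA : ∀ x : V, ‖x‖ = 1 → ⟪x, A x⟫_ℂ ∈ C) : Kop k A 0 = 1 := by
  have h := Ring.mul_inverse_cancel _ (E.isUnit hA E.zero_mem)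
  rw [Kop, WW, zero_mul, sub_zero]
  rw [zero_smul, sub_zero] at h ⊢
  rwa [smul_mul_assoc, one_mul] at h

theorem Ext.gK (E : Ext C R k) (hA : ∀ x : V, ‖x‖ = 1 → ⟪x, A x⟫_ℂ ∈ C) {u : ℂ} (hu : u ∈ S1) :
    gg k u • Kop k A u = (WW k u / u) • (1 : V →L[ℂ] V) + A * Kop k A u := by
  have h := Ring.mul_inverse_cancel _ (E.isUnit hA (E.sub hu))
  have hu0 := S1_ne hu
  rw [Kop, gg]
  generalize Ring.inverse (k u • (1 : V →L[ℂ] V) - u • A) = B at h
  rw [← h]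
  simp only [sub_mul, smul_mul_assoc, one_mul, mul_smul_comm, smul_sub, smul_smul]
  have e1 : WW k u / u * u = WW k u := by field_simp
  have e2 : k u / u * WW k u = WW k u / u * k u := by ring
  rw [e1, e2]
  abel

theorem Ext.commK (E : Ext C R k) (hA : ∀ x : V, ‖x‖ = 1 → ⟪x, A x⟫_ℂ ∈ C) {u : ℂ}
    (hu : u ∈ S1) : A * Kop k A u = Kop k A u * A := by
  have hun := E.isUnit hA (E.sub hu)
  have hc : Commute A (k u • (1 : V →L[ℂ] V) - u • A) :=
    ((Commute.one_right A).smul_right _).sub_right ((Commute.refl A).smul_right _)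
  have h2 : Commute A (Ring.inverse (k u • (1 : V →L[ℂ] V) - u • A)) := by
    obtain ⟨w, hw⟩ := hun
    rw [← hw] at hc ⊢
    rw [Ring.inverse_unit]
    exact hc.units_inv_right
  exact (h2.smul_right _).eq

theorem Ext.posK (E : Ext C R k) (hA : ∀ x : V, ‖x‖ = 1 → ⟪x, A x⟫_ℂ ∈ C) {u : ℂ}
    (hu : u ∈ S1) (ξ : V) : 0 ≤ (⟪ξ, Kop k A u ξ⟫_ℂ).re := by
  have h := Ring.mul_inverse_cancel _ (E.isUnit hA (E.sub hu))
  rw [Kop]
  generalize Ring.inverse (k u • (1 : V →L[ℂ] V) - u • A) = B at h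
  have h1 : ξ = k u • B ξ - u • A (B ξ) := by
    have := congrArg (fun T : V →L[ℂ] V => T ξ) h
    simpa using this.symm
  rw [smul_apply]
  generalize B ξ = η at h1
  by_cases hη : η = 0
  · simp [hη]
  obtain ⟨z, hz, he⟩ := inner_aux hA hη
  have h2 : ⟪η, ξ⟫_ℂ = (‖η‖ ^ 2 : ℝ) * (k u - u * z) := by
    rw [h1]
    simp only [inner_sub_right, inner_smul_right, he, inner_self_eq_norm_sq_to_K]
    push_cast
    simp only [Complex.coe_algebraMap]
    ring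
  have h3 := E.pos1 u (mem_S1.1 hu) z hz
  have hW := E.wne u (E.sub hu)
  rw [inner_smul_right, ← inner_conj_symm, h2]
  change 0 ≤ ((k u - u * z) / WW k u).re at h3
  change WW k u ≠ 0 at hW
  have h4 : WW k u * conj (((‖η‖ ^ 2 : ℝ) : ℂ) * (k u - u * z)) =
      ((‖η‖ ^ 2 * ‖WW k u‖ ^ 2 : ℝ) : ℂ) * conj ((k u - u * z) / WW k u) := by
    rw [map_mul, map_div₀, Complex.conj_ofReal]
    have : conj (WW k u) ≠ 0 := by simpa using hW
    push_cast
    rw [← Complex.mul_conj' (WW k u)]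
    field_simp
  rw [h4, Complex.re_ofReal_mul, Complex.conj_re]
  positivity

theorem Ext.J_g_mul (E : Ext C R k) (hA : ∀ x : V, ‖x‖ = 1 → ⟪x, A x⟫_ℂ ∈ C) {φ : ℂ → ℂ}
    (hφ : Adm k φ) : JJ k A (fun u => gg k u * φ u) = A * JJ k A φ := by
  have : CompleteSpace V := FiniteDimensional.complete ℂ V
  have hK := E.contK hA
  have hφc := hφ.1
  have hw : ContinuousOn (fun u => φ u * (WW k u / u)) S1 :=
    hφc.mul (E.contW.div continuousOn_id fun _ hu => S1_ne hu)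
  have h1 := av_clm (ContinuousLinearMap.mul ℂ (V →L[ℂ] V) A) (hφc.fun_smul hK)
  have h2 := av_clm (ContinuousLinearMap.toSpanSingleton ℂ (1 : V →L[ℂ] V)) hw
  have h3 := hφ.2 1
  simp only [Polynomial.eval_one, one_mul] at h3
  simp only [ContinuousLinearMap.mul_apply', ContinuousLinearMap.toSpanSingleton_apply, h3,
    zero_smul] at h1 h2
  rw [JJ, JJ, ← h1, ← zero_add (av fun u => A * φ u • Kop k A u), ← h2,
    ← av_add (by fun_prop) (by fun_prop)]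
  apply av_congr
  intro u hu
  rw [mul_comm, ← smul_smul, E.gK hA hu, smul_add, smul_smul, mul_smul_comm]

theorem Ext.J_comm (E : Ext C R k) (hA : ∀ x : V, ‖x‖ = 1 → ⟪x, A x⟫_ℂ ∈ C) {φ : ℂ → ℂ}
    (hφ : ContinuousOn φ S1) : Commute A (JJ k A φ) := by
  have : CompleteSpace V := FiniteDimensional.complete ℂ V
  have hK := E.contK hA
  have h1 := av_clm (ContinuousLinearMap.mul ℂ (V →L[ℂ] V) A) (hφ.fun_smul hK)
  have h2 := av_clm ((ContinuousLinearMap.mul ℂ (V →L[ℂ] V)).flip A) (hφ.fun_smul hK)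
  simp only [ContinuousLinearMap.mul_apply', ContinuousLinearMap.flip_apply] at h1 h2
  rw [Commute, SemiconjBy, JJ, ← h1, ← h2]
  apply av_congr
  intro u hu
  rw [mul_smul_comm, smul_mul_assoc, E.commK hA hu]

theorem Ext.J_add (E : Ext C R k) (hA : ∀ x : V, ‖x‖ = 1 → ⟪x, A x⟫_ℂ ∈ C) {φ ψ : ℂ → ℂ}
    (hφ : ContinuousOn φ S1) (hψ : ContinuousOn ψ S1) :
    JJ k A (fun u => φ u + ψ u) = JJ k A φ + JJ k A ψ := by
  have hK := E.contK hA
  rw [JJ, JJ, JJ, ← av_add (by fun_prop) (by fun_prop)]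
  simp only [add_smul]

omit [FiniteDimensional ℂ V] in
theorem J_const_mul (c : ℂ) (φ : ℂ → ℂ) : JJ k A (fun u => c * φ u) = c • JJ k A φ := by
  rw [JJ, JJ, ← av_smul]
  simp only [smul_smul]

theorem Ext.J_sum (E : Ext C R k) (hA : ∀ x : V, ‖x‖ = 1 → ⟪x, A x⟫_ℂ ∈ C) {ι : Type*}
    (s : Finset ι) {φ : ι → ℂ → ℂ} (hφ : ∀ i ∈ s, ContinuousOn (φ i) S1) :
    JJ k A (fun u => ∑ i ∈ s, φ i u) = ∑ i ∈ s, JJ k A (φ i) := by
  have hK := E.contK hA
  simp only [JJ, Finset.sum_smul]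
  exact av_sum s fun i hi => (hφ i hi).fun_smul hK

theorem Ext.J_poly_mul (E : Ext C R k) (hA : ∀ x : V, ‖x‖ = 1 → ⟪x, A x⟫_ℂ ∈ C)
    (h : Polynomial ℂ) {φ : ℂ → ℂ} (hφ : Adm k φ) :
    JJ k A (fun u => h.eval (gg k u) * φ u) = Polynomial.aeval A h * JJ k A φ := by
  induction h using Polynomial.induction_on with
  | C a => simp [J_const_mul, Algebra.algebraMap_eq_smul_one]
  | add p q hp hq =>
    simp only [Polynomial.eval_add, add_mul, map_add]
    rw [E.J_add hA (E.adm_poly_mul hφ p).1 (E.adm_poly_mul hφ q).1, hp, hq]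
  | monomial n a ih =>
    have := E.J_g_mul hA (E.adm_poly_mul hφ (Polynomial.C a * Polynomial.X ^ n))
    rw [ih] at this
    have e : (Polynomial.C a * Polynomial.X ^ (n + 1) : Polynomial ℂ) =
        Polynomial.X * (Polynomial.C a * Polynomial.X ^ n) := by ring
    rw [e, map_mul, Polynomial.aeval_X, mul_assoc, ← this]
    simp only [Polynomial.eval_mul, Polynomial.eval_X, mul_assoc]

theorem Ext.J_one (E : Ext C R k) (hA : ∀ x : V, ‖x‖ = 1 → ⟪x, A x⟫_ℂ ∈ C) :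
    JJ k A (fun _ => 1) = 1 := by
  have : CompleteSpace V := FiniteDimensional.complete ℂ V
  simp only [JJ, one_smul]
  rw [av_holo E.one_lt (E.diffK hA), E.K_zero hA]

theorem Ext.J_poly (E : Ext C R k) (hA : ∀ x : V, ‖x‖ = 1 → ⟪x, A x⟫_ℂ ∈ C) (h : Polynomial ℂ) :
    JJ k A (fun u => h.eval (gg k u)) = Polynomial.aeval A h := by
  simpa [E.J_one hA] using E.J_poly_mul hA h E.adm_one

theorem Ext.J_mul_poly (E : Ext C R k) (hA : ∀ x : V, ‖x‖ = 1 → ⟪x, A x⟫_ℂ ∈ C)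
    (h : Polynomial ℂ) {φ : ℂ → ℂ} (hφ : Adm k φ) :
    JJ k A (fun u => h.eval (gg k u) * φ u) = JJ k A φ * Polynomial.aeval A h := by
  rw [E.J_poly_mul hA h hφ, Polynomial.aeval_eq_sum_range]
  exact (Commute.sum_left _ _ _ fun i _ =>
    ((E.J_comm hA hφ.1).pow_left i).smul_left _).eq

theorem Ext.inner_J (E : Ext C R k) (hA : ∀ x : V, ‖x‖ = 1 → ⟪x, A x⟫_ℂ ∈ C) {φ : ℂ → ℂ}
    (hφ : ContinuousOn φ S1) (a b : V) :
    ⟪a, JJ k A φ b⟫_ℂ = av (fun u => φ u * ⟪a, Kop k A u b⟫_ℂ) := by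
  have : CompleteSpace V := FiniteDimensional.complete ℂ V
  have h1 := av_clm ((innerSL ℂ a).comp (ContinuousLinearMap.apply ℂ V b))
    (hφ.fun_smul (E.contK hA))
  simp only [ContinuousLinearMap.comp_apply, ContinuousLinearMap.apply_apply, innerSL_apply_apply,
    smul_apply, inner_smul_right] at h1
  exact h1.symm

theorem Ext.diffB (E : Ext C R k) (hA : ∀ x : V, ‖x‖ = 1 → ⟪x, A x⟫_ℂ ∈ C) (a b : V) :
    DifferentiableOn ℂ (fun u => ⟪a, Kop k A u b⟫_ℂ) (ball 0 R) :=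
  ((innerSL ℂ a).comp (ContinuousLinearMap.apply ℂ V b)).differentiable.comp_differentiableOn
    (E.diffK hA)

end Crest.Agent.H0179
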