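import Crest.Agent.H0179.TH
import Crest.Agent.H0179.FC
import Crest.Agent.H0179.Dual

set_option autoImplicit false

open Set hiding diagonal
open Filter Metric Topology Matrix
open scoped ComplexOrder MatrixOrder Matrix.Norms.L2Operator ComplexConjugate InnerProductSpace
open Crest.AnalysisR.NumRange

namespace Crest.Agent.H0179

variable {n : ℕ}

local notation "𝓛" => Matrix.toEuclideanCLM (n := Fin n) (𝕜 := ℂ)

theorem av_norm_le {E : Type*} [NormedAddCommGroup E] [NormedSpace ℝ E] {f : ℂ → E} {c : ℝ}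
    (h : ∀ u ∈ S1, ‖f u‖ ≤ c) : ‖av f‖ ≤ c := by
  have := intervalIntegral.norm_integral_le_of_norm_le_const (a := 0) (b := 2 * Real.pi) (C := c)
    (f := fun θ => f (circleMap 0 1 θ)) (fun θ _ => h _ (circleMap_mem_sphere 0 zero_le_one θ))
  have hpi : 0 < 2 * Real.pi := by positivity
  rw [sub_zero, abs_of_pos hpi] at this
  rw [av, Real.circleAverage, norm_smul, norm_inv, Real.norm_of_nonneg hpi.le,
    inv_mul_le_iff₀ hpi]
  linarith

theorem aeval_L (A : Matrix (Fin n) (Fin n) ℂ) (p : Polynomial ℂ) :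
    Polynomial.aeval (𝓛 A) p = 𝓛 (Polynomial.aeval A p) :=
  Polynomial.aeval_algHom_apply _ A p

section
variable {A : Matrix (Fin n) (Fin n) ℂ} {Ω : Set ℂ} {R : ℝ} {k f : ℂ → ℂ} {p : Polynomial ℂ}

theorem Ext.J_f_mul (E : Ext (nr (𝓛 A)) R k) (hΩ₁ : IsOpen Ω) (hΩ₃ : Convex ℝ Ω)
    (hk : ∀ u ∈ S1, gg k u ∈ Ω) (hf : DifferentiableOn ℂ f Ω) (hA : numRange A ⊆ Ω)
    (hp : AgreesOnSpectrum A f p) {H : ℂ → ℂ} (hH : DifferentiableOn ℂ H Ω) :
    JJ k (𝓛 A) (fun u => f (gg k u) * H (gg k u)) =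
        𝓛 (Polynomial.aeval A p) * JJ k (𝓛 A) (fun u => H (gg k u)) ∧
      JJ k (𝓛 A) (fun u => f (gg k u) * H (gg k u)) =
        JJ k (𝓛 A) (fun u => H (gg k u)) * 𝓛 (Polynomial.aeval A p) := by
  have hA' : ∀ x, ‖x‖ = 1 → ⟪x, 𝓛 A x⟫_ℂ ∈ nr (𝓛 A) := fun x hx => ⟨x, hx, rfl⟩
  obtain ⟨h, hh, hhe⟩ := fc_rep hΩ₁ ((spectrum_subset_numRange A).trans hA) hf hp
  have a1 := E.adm_holo hΩ₁ hΩ₃ hk hH
  have a2 := E.adm_holo hΩ₁ hΩ₃ hk (hh.fun_mul hH)
  have e : JJ k (𝓛 A) (fun u => f (gg k u) * H (gg k u)) =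
      JJ k (𝓛 A) (fun u => p.eval (gg k u) * H (gg k u)) := by
    have e1 : (fun u => f (gg k u) * H (gg k u)) = fun u => p.eval (gg k u) * H (gg k u) +
        A.charpoly.eval (gg k u) * (h (gg k u) * H (gg k u)) := by
      ext u; rw [hhe]; ring
    rw [e1, E.J_add hA' (E.adm_poly_mul a1 p).1 (E.adm_poly_mul a2 _).1, E.J_poly_mul hA' _ a2,
      aeval_L, aeval_self_charpoly, map_zero, zero_mul, add_zero]
  rw [e, ← aeval_L]
  exact ⟨E.J_poly_mul hA' p a1, E.J_mul_poly hA' p a1⟩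

theorem Ext.pow_small (E : Ext (nr (𝓛 A)) R k) (hΩ₁ : IsOpen Ω) (hΩ₃ : Convex ℝ Ω)
    (hk : ∀ u ∈ S1, gg k u ∈ Ω) (hf : DifferentiableOn ℂ f Ω) (hA : numRange A ⊆ Ω)
    (hp : AgreesOnSpectrum A f p) (hf1 : ∀ z ∈ Ω, ‖f z‖ < 1) :
    ∃ N : ℕ, ‖Polynomial.aeval A p ^ (N + 1)‖ < 1 := by
  have hA' : ∀ x, ‖x‖ = 1 → ⟪x, 𝓛 A x⟫_ℂ ∈ nr (𝓛 A) := fun x hx => ⟨x, hx, rfl⟩
  have hpow : ∀ N : ℕ, JJ k (𝓛 A) (fun u => f (gg k u) ^ N) = 𝓛 (Polynomial.aeval A p ^ N) := by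
    intro N
    induction N with
    | zero => simpa using E.J_one hA'
    | succ N ih =>
      have := (E.J_f_mul hΩ₁ hΩ₃ hk hf hA hp (hf.pow N)).1
      simp only [Pi.pow_apply] at this
      rw [ih, ← map_mul, ← pow_succ'] at this
      simpa only [pow_succ'] using this
  obtain ⟨u₀, hu₀, hmax⟩ := (isCompact_sphere (0 : ℂ) 1).exists_isMaxOn ⟨1, by simp⟩
    (hf.continuousOn.comp E.contg hk).norm
  obtain ⟨B, hB⟩ := (isCompact_sphere (0 : ℂ) 1).exists_bound_of_continuousOn (E.contK hA')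
  set ρ := ‖f (gg k u₀)‖ with hρ
  have hρ1 : ρ < 1 := hf1 _ (hk u₀ hu₀)
  have hlim : Tendsto (fun N : ℕ => ρ ^ (N + 1) * B) atTop (𝓝 (0 * B)) :=
    (((tendsto_pow_atTop_nhds_zero_of_lt_one (norm_nonneg _) hρ1).comp
      (tendsto_add_atTop_nat 1))).mul_const B
  obtain ⟨N, hN⟩ := (hlim.eventually (gt_mem_nhds (show 0 * B < 1 by simp))).exists
  refine ⟨N, lt_of_le_of_lt ?_ hN⟩
  rw [← l2_opNorm_toEuclideanCLM, ← hpow]
  apply av_norm_le
  intro u hu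
  rw [norm_smul, norm_pow]
  have h1 : ‖f (gg k u)‖ ≤ ρ := hmax hu
  have h2 := hB u hu
  gcongr

end

theorem transfer_bound {ι : Type*} [Fintype ι] [DecidableEq ι] (a c b d : Matrix ι ι ℂ)
    (hΘ : ∀ ξ η : ι → ℂ, ∑ i, ‖(a *ᵥ ξ + c *ᵥ η) i‖ ^ 2 + ∑ i, ‖(b *ᵥ ξ + d *ᵥ η) i‖ ^ 2 ≤
      ∑ i, ‖ξ i‖ ^ 2 + ∑ i, ‖η i‖ ^ 2) {s : ℂ} (hs : ‖s‖ < 1) :
    IsUnit (1 - s • d) ∧ ‖Matrix.toEuclideanCLM (n := ι) (𝕜 := ℂ)
      (a + s • (c * Ring.inverse (1 - s • d) * b))‖ ≤ 1 := by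
  have hs2 : ‖s‖ ^ 2 < 1 := by nlinarith [norm_nonneg s]
  have hsm : ∀ η : ι → ℂ, ∑ i, ‖(s • η) i‖ ^ 2 = ‖s‖ ^ 2 * ∑ i, ‖η i‖ ^ 2 := by
    intro η
    simp [Finset.mul_sum, mul_pow]
  have hnn : ∀ η : ι → ℂ, 0 ≤ ∑ i, ‖η i‖ ^ 2 := fun η => by positivity
  have hu : IsUnit (1 - s • d) := by
    rw [← mulVec_injective_iff_isUnit]
    have : Function.Injective (1 - s • d).mulVecLin := by
      rw [injective_iff_map_eq_zero]
      intro η hη
      have h1 : d *ᵥ (s • η) = η := by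
        simp only [mulVecLin_apply, sub_mulVec, one_mulVec, smul_mulVec] at hη
        rw [mulVec_smul]; exact (sub_eq_zero.1 hη).symm
      have h2 := hΘ 0 (s • η)
      rw [hsm, mulVec_zero, mulVec_zero, zero_add, zero_add, h1] at h2
      have h3 := hnn (c *ᵥ (s • η))
      have h4 := hnn η
      have h5 : ∑ i, ‖η i‖ ^ 2 = 0 := by
        simp only [Pi.zero_apply, norm_zero, ne_eq, OfNat.ofNat_ne_zero, not_false_eq_true,
          zero_pow, Finset.sum_const_zero, zero_add] at h2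
        nlinarith
      ext i
      have := (Finset.sum_eq_zero_iff_of_nonneg (fun i _ => by positivity)).1 h5 i
        (Finset.mem_univ i)
      simpa using this
    exact this
  refine ⟨hu, ContinuousLinearMap.opNorm_le_bound _ zero_le_one fun ξ => ?_⟩
  have hN := Ring.mul_inverse_cancel _ hu
  generalize Ring.inverse (1 - s • d) = N at hN
  set η := N *ᵥ (b *ᵥ ξ.ofLp) with hη
  have h1 : b *ᵥ ξ.ofLp + d *ᵥ (s • η) = η := by
    have := congrArg (· *ᵥ (b *ᵥ ξ.ofLp)) hN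
    simp only [← mulVec_mulVec, one_mulVec, ← hη, sub_mulVec, smul_mulVec] at this
    rw [← this, mulVec_smul]; abel
  have h2 := hΘ ξ.ofLp (s • η)
  rw [h1, hsm] at h2
  have h3 : (a + s • (c * N * b)) *ᵥ ξ.ofLp = a *ᵥ ξ.ofLp + c *ᵥ (s • η) := by
    rw [add_mulVec, smul_mulVec, mulVec_smul, hη, mulVec_mulVec, mulVec_mulVec]
  rw [one_mul]
  apply le_of_sq_le_sq _ (norm_nonneg _) |>.trans le_rfl
  rw [EuclideanSpace.norm_sq_eq, EuclideanSpace.norm_sq_eq]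
  simp only [ofLp_toEuclideanCLM, h3]
  have := hnn η
  nlinarith

theorem diff_entry {ι : Type*} [Fintype ι] [DecidableEq ι] {U : Set ℂ} {F : ℂ → Matrix ι ι ℂ}
    (hF : DifferentiableOn ℂ F U) (i j : ι) : DifferentiableOn ℂ (fun z => F z i j) U :=
  (LinearMap.toContinuousLinearMap (entryLinearMap ℂ ℂ i j)).differentiable.comp_differentiableOn hF

theorem sum_col_norm (X : Matrix (Fin n) (Fin n) ℂ) :
    ‖(WithLp.toLp 2 (fun i => (WithLp.toLp 2 fun α => X α i : EuclideanSpace ℂ (Fin n))) :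
      PiLp 2 (fun _ : Fin n => EuclideanSpace ℂ (Fin n)))‖ ^ 2 = (X * Xᴴ).trace.re := by
  rw [PiLp.norm_sq_eq_of_L2]
  simp only [EuclideanSpace.norm_sq_eq, trace, diag_apply, mul_apply, conjTranspose_apply,
    RCLike.star_def, Complex.mul_conj', Complex.re_sum]
  rw [Finset.sum_comm]
  refine Finset.sum_congr rfl fun a _ => Finset.sum_congr rfl fun b _ => by norm_cast

theorem Ext.feasible_four {A : Matrix (Fin n) (Fin n) ℂ} {Ω : Set ℂ} {R : ℝ} {k f : ℂ → ℂ}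
    {p : Polynomial ℂ} (E : Ext (nr (𝓛 A)) R k) (hΩ₁ : IsOpen Ω) (hΩ₃ : Convex ℝ Ω)
    (hk : ∀ u ∈ S1, gg k u ∈ Ω) (hf : DifferentiableOn ℂ f Ω) (hA : numRange A ⊆ Ω)
    (hp : AgreesOnSpectrum A f p) (hf1 : ∀ z ∈ Ω, ‖f z‖ < 1) :
    ∃ H, MetricFeasible (Polynomial.aeval A p) H 4 := by
  have hA' : ∀ x, ‖x‖ = 1 → ⟪x, 𝓛 A x⟫_ℂ ∈ nr (𝓛 A) := fun x hx => ⟨x, hx, rfl⟩
  have hJ := fun H hH => E.J_f_mul hΩ₁ hΩ₃ hk hf hA hp (H := H) hH
  generalize Polynomial.aeval A p = T at hJ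
  by_contra hcon
  obtain ⟨X, Y, Z, hXYZ, hlt⟩ := dual_cert T (by norm_num) hcon
  obtain ⟨V, hV⟩ := exists_isometry
    (fun α => (WithLp.toLp 2 (Sum.elim (X α) (Z α)) : EuclideanSpace ℂ (Fin n ⊕ Fin n)))
    (fun α => (WithLp.toLp 2 (Sum.elim (Y α) ((T * Z) α)) : EuclideanSpace ℂ (Fin n ⊕ Fin n)))
    (fun α β => by
      have := congrFun (congrFun hXYZ β) α
      simpa only [PiLp.inner_apply, Fintype.sum_sum_type, Sum.elim_inl, Sum.elim_inr,
        RCLike.inner_apply, Matrix.add_apply, mul_apply (M := X), mul_apply (M := Z),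
        mul_apply (M := Y), mul_apply (M := T * Z), conjTranspose_apply, RCLike.star_def] using this)
  obtain ⟨Θ, hΘ⟩ := (Matrix.toEuclideanCLM (n := Fin n ⊕ Fin n) (𝕜 := ℂ)).surjective
    V.toContinuousLinearMap
  have hVΘ : ∀ w : Fin n ⊕ Fin n → ℂ, V (WithLp.toLp 2 w) = WithLp.toLp 2 (Θ *ᵥ w) := by
    intro w
    rw [← toEuclideanCLM_toLp]
    exact (congrArg (fun L => L (WithLp.toLp 2 w)) hΘ).symm
  obtain ⟨a, c, b, d, rfl⟩ : ∃ a c b d, Θ = fromBlocks a c b d :=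
    ⟨_, _, _, _, (fromBlocks_toBlocks Θ).symm⟩
  have hmv : ∀ ξ η : Fin n → ℂ, fromBlocks a c b d *ᵥ Sum.elim ξ η =
      Sum.elim (a *ᵥ ξ + c *ᵥ η) (b *ᵥ ξ + d *ᵥ η) := fun ξ η => by
    rw [fromBlocks_mulVec]; rfl
  have hcontr : ∀ ξ η : Fin n → ℂ, ∑ i, ‖(a *ᵥ ξ + c *ᵥ η) i‖ ^ 2 +
      ∑ i, ‖(b *ᵥ ξ + d *ᵥ η) i‖ ^ 2 ≤ ∑ i, ‖ξ i‖ ^ 2 + ∑ i, ‖η i‖ ^ 2 := by
    intro ξ η
    have := congrArg (· ^ 2) (V.norm_map (WithLp.toLp 2 (Sum.elim ξ η)))
    simp only [hVΘ, hmv, EuclideanSpace.norm_sq_eq, Fintype.sum_sum_type, Sum.elim_inl,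
      Sum.elim_inr] at this
    exact this.le
  have hrow : ∀ α, X α = a *ᵥ Y α + c *ᵥ (T * Z) α ∧ Z α = b *ᵥ Y α + d *ᵥ (T * Z) α := by
    intro α
    have := hV α
    rw [hVΘ, hmv] at this
    have h2 := congrArg WithLp.ofLp this
    exact ⟨funext fun i => (congrFun h2 (Sum.inl i)).symm,
      funext fun i => (congrFun h2 (Sum.inr i)).symm⟩
  set x : Fin n → EuclideanSpace ℂ (Fin n) := fun i => WithLp.toLp 2 fun α => X α i with hx
  set y : Fin n → EuclideanSpace ℂ (Fin n) := fun i => WithLp.toLp 2 fun α => Y α i with hy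
  set z : Fin n → EuclideanSpace ℂ (Fin n) := fun i => WithLp.toLp 2 fun α => Z α i with hz
  have hx1 : ∀ i, x i = ∑ l, a i l • y l + ∑ j, c i j • 𝓛 T (z j) := by
    intro i
    ext α
    have := congrFun (hrow α).1 i
    simpa [hx, hy, hz, mulVec, dotProduct, mul_apply] using this
  have hz1 : ∀ i, z i = ∑ l, b i l • y l + ∑ j, d i j • 𝓛 T (z j) := by
    intro i
    ext α
    have := congrFun (hrow α).2 i
    simpa [hz, hy, mulVec, dotProduct, mul_apply] using this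
  have htb := fun w (hw : w ∈ Ω) => transfer_bound a c b d hcontr (hf1 w hw)
  set N : ℂ → Matrix (Fin n) (Fin n) ℂ := fun w => Ring.inverse (1 - f w • d) with hN
  have hNd : DifferentiableOn ℂ N Ω := fun w hw =>
    DifferentiableWithinAt.inverse (((hf w hw).smul_const d).const_sub 1) (htb w hw).1
  have hNe := fun i j => diff_entry hNd i j
  have hNc : ∀ i j, ContinuousOn (fun u => N (gg k u) i j) S1 := fun i j =>
    (hNe i j).continuousOn.comp E.contg hk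
  have hfc : ContinuousOn (fun u => f (gg k u)) S1 := hf.continuousOn.comp E.contg hk
  have hc : ∀ (t : ℂ) i j, ContinuousOn (fun u => t * (f (gg k u) * N (gg k u) i j)) S1 :=
    fun t i j => continuousOn_const.mul (hfc.mul (hNc i j))
  set Ξ : Fin n → Fin n → (EuclideanSpace ℂ (Fin n) →L[ℂ] EuclideanSpace ℂ (Fin n)) :=
    fun i j => JJ k (𝓛 A) (fun u => N (gg k u) i j) with hΞ
  have hΞ1 : ∀ i l, Ξ i l = (1 : Matrix (Fin n) (Fin n) ℂ) i l • 1 +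
      ∑ j, d j l • (Ξ i j * 𝓛 T) := by
    intro i l
    have h1 : ∀ u ∈ S1, N (gg k u) i l = (1 : Matrix (Fin n) (Fin n) ℂ) i l * 1 +
        ∑ j, d j l * (f (gg k u) * N (gg k u) i j) := by
      intro u hu
      have h2 := Ring.inverse_mul_cancel _ (htb _ (hk u hu)).1
      change N (gg k u) * _ = 1 at h2
      rw [Matrix.mul_sub, mul_one, Matrix.mul_smul, sub_eq_iff_eq_add] at h2
      have h3 := congrFun (congrFun h2 i) l
      rw [h3, Matrix.add_apply, Matrix.smul_apply, mul_apply, mul_one, smul_eq_mul,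
        Finset.mul_sum]
      congr 1
      exact Finset.sum_congr rfl fun j _ => by ring
    have h4 : Ξ i l = JJ k (𝓛 A) (fun u => (1 : Matrix (Fin n) (Fin n) ℂ) i l * 1 +
        ∑ j, d j l * (f (gg k u) * N (gg k u) i j)) :=
      av_congr fun u hu => congrArg (· • Kop k (𝓛 A) u) (h1 u hu)
    rw [h4, E.J_add hA' continuousOn_const (continuousOn_finsetSum _ fun j _ => hc _ _ _),
      E.J_sum hA' _ (fun j _ => hc _ _ _),
      J_const_mul, E.J_one hA']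
    congr 1
    exact Finset.sum_congr rfl fun j _ => by rw [J_const_mul, (hJ _ (hNe i j)).2]
  have hz2 : ∀ i, z i = ∑ j, ∑ l, b j l • Ξ i j (y l) := by
    intro i
    have h1 : ∑ l, Ξ i l (z l) = z i + ∑ l, ∑ j, d j l • Ξ i j (𝓛 T (z l)) := by
      conv_lhs => enter [2, l]; rw [hΞ1 i l]
      simp only [_root_.add_apply, _root_.smul_apply, _root_.sum_apply,
        one_apply_eq_self, mul_apply_eq_comp,
        Finset.sum_add_distrib]
      simp [one_apply]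
    have h2 : ∑ l, Ξ i l (z l) = ∑ j, ∑ l, b j l • Ξ i j (y l) +
        ∑ l, ∑ j, d j l • Ξ i j (𝓛 T (z l)) := by
      conv_lhs => enter [2, l]; rw [hz1 l]
      simp only [map_add, map_sum, map_smul, Finset.sum_add_distrib]
      rw [Finset.sum_comm (f := fun l j => d j l • Ξ i j (𝓛 T (z l)))]
    exact add_right_cancel (h1.symm.trans h2)
  set F : ℂ → Matrix (Fin n) (Fin n) ℂ := fun w => a + f w • (c * N w * b) with hF
  have hFd : DifferentiableOn ℂ F Ω :=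
    (hf.smul ((hNd.const_mul c).mul_const b)).const_add a
  have hJF : ∀ i l, JJ k (𝓛 A) (fun u => F (gg k u) i l) =
      a i l • 1 + ∑ j, ∑ m, (c i j * b m l) • (𝓛 T * Ξ j m) := by
    intro i l
    have h1 : (fun u => F (gg k u) i l) = fun u => a i l * 1 +
        ∑ j, ∑ m, (c i j * b m l) * (f (gg k u) * N (gg k u) j m) := by
      ext u
      simp only [hF, Matrix.add_apply, Matrix.smul_apply, mul_apply, smul_eq_mul, mul_one,
        Finset.mul_sum, Finset.sum_mul]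
      rw [Finset.sum_comm]
      congr 1
      exact Finset.sum_congr rfl fun j _ => Finset.sum_congr rfl fun m _ => by ring
    rw [h1, E.J_add hA' continuousOn_const (continuousOn_finsetSum _ fun j _ =>
        continuousOn_finsetSum _ fun m _ => hc _ _ _),
      E.J_sum hA' _ (fun j _ => continuousOn_finsetSum _ fun m _ => hc _ _ _),
      J_const_mul, E.J_one hA']
    congr 1
    refine Finset.sum_congr rfl fun j _ => ?_
    rw [E.J_sum hA' _ (fun j _ => hc _ _ _)]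
    exact Finset.sum_congr rfl fun m _ => by rw [J_const_mul, (hJ _ (hNe j m)).1]
  have hx2 : ∀ i, ∑ l, JJ k (𝓛 A) (fun u => F (gg k u) i l) (y l) = x i := by
    intro i
    rw [hx1 i]
    simp only [hJF, _root_.add_apply, _root_.smul_apply, _root_.sum_apply,
        one_apply_eq_self, mul_apply_eq_comp,
      Finset.sum_add_distrib]
    congr 1
    rw [Finset.sum_comm]
    refine Finset.sum_congr rfl fun j _ => ?_
    rw [hz2 j, Finset.sum_comm]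
    simp only [map_sum, map_smul, Finset.smul_sum, smul_smul]
  have hmain := E.crouzeix hA' (φ := fun i j u => F (gg k u) i j)
    (fun i j => E.adm_holo hΩ₁ hΩ₃ hk (diff_entry hFd i j)) (M := 1)
    (fun u hu => (htb _ (hk u hu)).2) (WithLp.toLp 2 y)
  simp only [hx2] at hmain
  rw [← sum_col_norm, ← sum_col_norm] at hlt
  have h2 := pow_le_pow_left₀ (norm_nonneg _) hmain 2
  change 4 * ‖(WithLp.toLp 2 y : PiLp 2 (fun _ : Fin n => EuclideanSpace ℂ (Fin n)))‖ ^ 2 <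
    ‖(WithLp.toLp 2 x : PiLp 2 (fun _ : Fin n => EuclideanSpace ℂ (Fin n)))‖ ^ 2 at hlt
  nlinarith

theorem s0180
    (n : ℕ) (hn : 1 ≤ n) (A : Matrix (Fin n) (Fin n) ℂ)
    (Ω U : Set ℂ) (hΩ₁ : IsOpen Ω) (hΩ₃ : Convex ℝ Ω) (hΩU : closure Ω ⊆ U)
    (f : ℂ → ℂ) (hf₁ : DifferentiableOn ℂ f U)
    (hf₃ : f '' Ω = Metric.ball 0 1)
    (hA : numRange A ⊆ Ω) (p : Polynomial ℂ) (hp : AgreesOnSpectrum A f p) :
    (∃ (H : Matrix (Fin n) (Fin n) ℂ) (τ : ℝ), MetricStrictlyFeasible (Polynomial.aeval A p) H τ) ∧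
    ∃ (H : Matrix (Fin n) (Fin n) ℂ) (κsq : ℝ),
      IsOptimalMetric (Polynomial.aeval A p) H κsq ∧ 1 ≤ κsq ∧ κsq ≤ 4 := by
  have : Nonempty (Fin n) := ⟨⟨0, hn⟩⟩
  obtain ⟨R, k, E, hk⟩ :=
    exists_ext_nr (Matrix.toEuclideanCLM (n := Fin n) (𝕜 := ℂ) A) hΩ₁ hA
  have hf : DifferentiableOn ℂ f Ω := hf₁.mono (subset_closure.trans hΩU)
  have hf1 : ∀ z ∈ Ω, ‖f z‖ < 1 := fun z hz => by
    simpa using (hf₃ ▸ mem_image_of_mem f hz : f z ∈ Metric.ball 0 1)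
  obtain ⟨N, hN⟩ := E.pow_small hΩ₁ hΩ₃ hk hf hA hp hf1
  obtain ⟨H, hH⟩ := E.feasible_four hΩ₁ hΩ₃ hk hf hA hp hf1
  obtain ⟨H', κ, hκ⟩ := exists_optimal hn hH
  exact ⟨strictly_feasible hN, H', κ, hκ, one_le_of_feasible hn hκ.1, hκ.2 H 4 hH⟩

end Crest.Agent.H0179
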