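import Crest.Agent.H0179.Avg
import Crest.Agent.H0179.ExtMap

set_option autoImplicit false

open Set Filter Metric Topology MeasureTheory
open scoped ComplexConjugate

namespace Crest.Agent.H0179

/-- The boundary curve. -/
noncomputable def gg (k : ℂ → ℂ) (u : ℂ) : ℂ := k u / u

/-- `u` times the Cauchy weight. -/
noncomputable def WW (k : ℂ → ℂ) (u : ℂ) : ℂ := k u - u * deriv k u

/-- The Cauchy kernel between two boundary points. -/
noncomputable def KK (k : ℂ → ℂ) (u v : ℂ) : ℂ := WW k u * v / (k u * v - k v * u)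

theorem eq_mul_dslope {f : ℂ → ℂ} {v : ℂ} (h : f v = 0) (u : ℂ) : f u = (u - v) * dslope f v u := by
  have := sub_smul_dslope f v u
  rw [h, sub_zero, smul_eq_mul] at this
  exact this.symm

theorem diff_dslope {f : ℂ → ℂ} {R : ℝ} (hf : DifferentiableOn ℂ f (ball 0 R)) {v : ℂ}
    (hv : v ∈ ball (0 : ℂ) R) : DifferentiableOn ℂ (dslope f v) (ball 0 R) :=
  (Complex.differentiableOn_dslope (isOpen_ball.mem_nhds hv)).2 hf

variable {C : Set ℂ} {R : ℝ} {k : ℂ → ℂ}

theorem Ext.sub (E : Ext C R k) : S1 ⊆ ball (0 : ℂ) R := S1_sub_ball E.one_lt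

theorem Ext.zero_mem (E : Ext C R k) : (0 : ℂ) ∈ ball (0 : ℂ) R :=
  mem_ball_self (one_pos.trans E.one_lt)

theorem Ext.hasDerivAt (E : Ext C R k) {u : ℂ} (hu : u ∈ ball (0 : ℂ) R) :
    HasDerivAt k (deriv k u) u :=
  (E.diff.differentiableAt (isOpen_ball.mem_nhds hu)).hasDerivAt

theorem Ext.diffW (E : Ext C R k) : DifferentiableOn ℂ (WW k) (ball 0 R) :=
  E.diff.sub (differentiableOn_id.mul (E.diff.deriv isOpen_ball))

theorem Ext.contk (E : Ext C R k) : ContinuousOn k S1 := E.diff.continuousOn.mono E.sub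

theorem Ext.contW (E : Ext C R k) : ContinuousOn (WW k) S1 := E.diffW.continuousOn.mono E.sub

theorem Ext.contg (E : Ext C R k) : ContinuousOn (gg k) S1 :=
  E.contk.div continuousOn_id fun _ hu => S1_ne hu

theorem Ext.den_ne (E : Ext C R k) {u v : ℂ} (hu : u ∈ ball (0 : ℂ) R) (hv : v ∈ ball (0 : ℂ) R)
    (huv : u ≠ v) : k u * v - k v * u ≠ 0 := fun h => huv (E.inj u hu v hv (sub_eq_zero.1 h))

theorem Ext.hasDerivAt_g (E : Ext C R k) {u : ℂ} (hu : u ∈ S1) :
    HasDerivAt (gg k) (-(WW k u) / u ^ 2) u := by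
  have := (E.hasDerivAt (E.sub hu)).div (hasDerivAt_id u) (S1_ne hu)
  refine this.congr_deriv ?_
  simp only [WW, id]; ring

/-- Cauchy's theorem along the boundary curve for functions with a primitive. -/
theorem Ext.av_prim (E : Ext C R k) {Φ f : ℂ → ℂ} (hΦ : ∀ u ∈ S1, HasDerivAt Φ (f (gg k u)) (gg k u))
    (hf : ContinuousOn (fun u => f (gg k u)) S1) :
    av (fun u => f (gg k u) * (WW k u / u)) = 0 := by
  have h := av_deriv (Φ := fun u => Φ (gg k u)) (φ := fun u => f (gg k u) * (-(WW k u) / u ^ 2))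
    (fun u hu => (hΦ u hu).comp u (E.hasDerivAt_g hu))
    (hf.mul (E.contW.neg.div (by fun_prop) fun u hu => pow_ne_zero _ (S1_ne hu)))
  have h2 := av_mul (-1) (fun u => u * (f (gg k u) * (-(WW k u) / u ^ 2)))
  rw [h, mul_zero] at h2
  rw [← h2]
  apply av_congr
  intro u hu
  have := S1_ne hu
  field_simp

theorem Ext.av_holo_curve (E : Ext C R k) {Ω : Set ℂ} (hΩ : IsOpen Ω) (hc : Convex ℝ Ω)
    (hg : ∀ u ∈ S1, gg k u ∈ Ω) {f : ℂ → ℂ} (hf : DifferentiableOn ℂ f Ω) :
    av (fun u => f (gg k u) * (WW k u / u)) = 0 := by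
  obtain ⟨Φ, hΦ⟩ := hc.exists_forall_hasDerivWithinAt hf
  exact E.av_prim (Φ := Φ) (fun u hu => (hΦ _ (hg u hu)).hasDerivAt (hΩ.mem_nhds (hg u hu)))
    (hf.continuousOn.comp E.contg hg)

theorem exists_div {f : ℂ → ℂ} {f' : ℂ} (hf : DifferentiableOn ℂ f (ball 0 R)) {v : ℂ}
    (hv : v ∈ ball (0 : ℂ) R) (h0 : f v = 0) (hf' : HasDerivAt f f' v) :
    ∃ d : ℂ → ℂ, DifferentiableOn ℂ d (ball 0 R) ∧ (∀ u, f u = (u - v) * d u) ∧ d v = f' :=
  ⟨dslope f v, diff_dslope hf hv, eq_mul_dslope h0, by rw [dslope_same, hf'.deriv]⟩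

theorem exists_div' {f : ℂ → ℂ} (hf : DifferentiableOn ℂ f (ball 0 R)) {v : ℂ}
    (hv : v ∈ ball (0 : ℂ) R) (h0 : f v = 0) :
    ∃ d : ℂ → ℂ, DifferentiableOn ℂ d (ball 0 R) ∧ (∀ u, f u = (u - v) * d u) :=
  ⟨dslope f v, diff_dslope hf hv, eq_mul_dslope h0⟩

theorem Ext.kerA1 (E : Ext C R k) {v : ℂ} (hv : v ∈ S1) :
    ∃ ν : ℂ → ℂ, DifferentiableOn ℂ ν (ball 0 R) ∧ ν 0 = 0 ∧
      ∀ u ∈ ball (0 : ℂ) R, u ≠ v → ν u = KK k u v - v / (v - u) := by
  have hvb := E.sub hv
  have hv0 := S1_ne hv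
  obtain ⟨d, hd, hde, hdv⟩ := exists_div (f := fun u => k u * v - k v * u)
    ((E.diff.mul_const v).sub (differentiableOn_id.const_mul _)) hvb (by simp)
    (((E.hasDerivAt hvb).mul_const v).sub ((hasDerivAt_id v).const_mul (k v)))
  have hdv' : d v = -WW k v := by rw [hdv, WW]; ring
  have hdne : ∀ u ∈ ball (0 : ℂ) R, d u ≠ 0 := by
    intro u hu h
    by_cases huv : u = v
    · rw [huv, hdv'] at h
      exact E.wne v hvb (neg_eq_zero.1 h)
    · have := hde u
      rw [h, mul_zero] at this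
      exact E.den_ne hu hvb huv this
  obtain ⟨e, he, hee⟩ := exists_div' (f := fun u => WW k u + d u) (E.diffW.add hd) hvb
    (by simp [hdv'])
  have hform : ∀ u ∈ ball (0 : ℂ) R, u ≠ v → v * e u / d u = KK k u v - v / (v - u) := by
    intro u hu huv
    have h3 := hdne u hu
    have h4 : u - v ≠ 0 := sub_ne_zero.2 huv
    have h5 : v - u ≠ 0 := sub_ne_zero.2 (Ne.symm huv)
    have h6 : e u = (WW k u + d u) / (u - v) := by
      rw [hee u]; field_simp
    rw [KK, hde u, h6]
    field_simp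
    ring
  refine ⟨fun u => v * e u / d u, (he.const_mul v).div hd hdne, ?_, hform⟩
  beta_reduce
  rw [hform 0 E.zero_mem hv0.symm, KK, WW]
  have := E.k0
  simp only [zero_mul, mul_zero, sub_zero]
  field_simp
  ring

theorem Ext.kerA2 (E : Ext C R k) {u : ℂ} (hu : u ∈ S1) :
    ∃ ν : ℂ → ℂ, DifferentiableOn ℂ ν (ball 0 R) ∧ ν 0 = 0 ∧
      ∀ v ∈ ball (0 : ℂ) R, v ≠ u → ν v = KK k u v - v / (v - u) := by
  have hub := E.sub hu
  obtain ⟨d, hd, hde, hdv⟩ := exists_div (f := fun v => k u * v - k v * u)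
    ((differentiableOn_id.const_mul _).sub (E.diff.mul_const u)) hub (by simp)
    (((hasDerivAt_id u).const_mul (k u)).sub ((E.hasDerivAt hub).mul_const u))
  have hdv' : d u = WW k u := by rw [hdv, WW]; ring
  have hdne : ∀ v ∈ ball (0 : ℂ) R, d v ≠ 0 := by
    intro v hv h
    by_cases huv : v = u
    · rw [huv, hdv'] at h
      exact E.wne u hub h
    · have := hde v
      rw [h, mul_zero] at this
      exact E.den_ne hub hv (Ne.symm huv) this
  obtain ⟨e, he, hee⟩ := exists_div' (f := fun v => WW k u - d v) (hd.const_sub _) hub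
    (by simp [hdv'])
  refine ⟨fun v => v * e v / d v, (differentiableOn_id.mul he).div hd hdne, by simp, ?_⟩
  intro v hv huv
  have h3 := hdne v hv
  have h4 : v - u ≠ 0 := sub_ne_zero.2 huv
  have h6 : e v = (WW k u - d v) / (v - u) := by
    rw [hee v]; field_simp
  beta_reduce
  rw [KK, hde v, h6]
  field_simp

theorem re_half {u v : ℂ} (hu : u ∈ S1) (hv : v ∈ S1) (huv : u ≠ v) :
    2 * (v / (v - u)).re = 1 := by
  have h1 : v / (v - u) + conj (v / (v - u)) = 1 := by
    rw [map_div₀, map_sub, S1_conj hu, S1_conj hv]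
    have := S1_ne hu
    have := S1_ne hv
    have h4 : u - v ≠ 0 := sub_ne_zero.2 huv
    have h5 : v - u ≠ 0 := sub_ne_zero.2 (Ne.symm huv)
    have e : v⁻¹ - u⁻¹ = (u - v) / (u * v) := by field_simp
    rw [e]
    field_simp
    ring
  rw [Complex.add_conj] at h1
  exact_mod_cast h1

/-- The Neumann–Poincaré kernel. -/
noncomputable def NN (k : ℂ → ℂ) (u v : ℂ) : ℝ := 2 * (KK k u v).re

theorem Ext.NN_nonneg (E : Ext C R k) {u v : ℂ} (hu : u ∈ S1) (hv : v ∈ S1) : 0 ≤ NN k u v := by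
  have h := E.pos2 u v (mem_S1.1 hu) (mem_S1.1 hv)
  have e : KK k u v = ((k u - u * (k v / v)) / (k u - u * deriv k u))⁻¹ := by
    have := S1_ne hv
    rw [inv_div, KK, WW]
    have e2 : k u - u * (k v / v) = (k u * v - k v * u) / v := by field_simp
    rw [e2, div_div_eq_mul_div]
  rw [NN, e, Complex.inv_re]
  have := Complex.normSq_nonneg ((k u - u * (k v / v)) / (k u - u * deriv k u))
  positivity

theorem NN_eq {u v z : ℂ} (hu : u ∈ S1) (hv : v ∈ S1) (huv : u ≠ v)
    (hz : z = KK k u v - v / (v - u)) : NN k u v = 1 + 2 * z.re := by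
  rw [hz, NN, Complex.sub_re, mul_sub, re_half hu hv huv]; ring

theorem av_one_add {ν : ℂ → ℂ} (hR : 1 < R) (hν : DifferentiableOn ℂ ν (ball 0 R)) (h0 : ν 0 = 0) :
    av (fun u => 1 + 2 * (ν u).re) = 1 := by
  have hc := hν.continuousOn.mono (S1_sub_ball hR)
  rw [av_add (by fun_prop) (by fun_prop), av_const, av_rmul, av_re hc, av_holo hR hν, h0]
  simp

/-- Representation of the regular part by the Neumann–Poincaré kernel. -/
theorem Ext.repr_reg (E : Ext C R k) (h : Polynomial ℂ) {b : ℂ} {γ r : ℂ → ℂ}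
    (hγ : DifferentiableOn ℂ γ (ball 0 R))
    (hr : DifferentiableOn ℂ r (ball 0 R)) (hr0 : r 0 = 0)
    (hh : ∀ u ∈ S1, h.eval (gg k u) = b + conj (γ u) + r u) {v : ℂ} (hv : v ∈ S1)
    {ν : ℂ → ℂ} (hν : DifferentiableOn ℂ ν (ball 0 R)) (hν0 : ν 0 = 0)
    (hνe : ∀ u ∈ ball (0 : ℂ) R, u ≠ v → ν u = KK k u v - v / (v - u)) :
    av (fun u => conj (γ u) * ν u) = r v := by
  have hR := E.one_lt
  have hvb := E.sub hv
  have hγc := hγ.continuousOn.mono E.sub
  have hrc := hr.continuousOn.mono E.sub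
  have hνc := hν.continuousOn.mono E.sub
  have hcj : ContinuousOn (fun u => conj (γ u)) S1 := Complex.continuous_conj.comp_continuousOn hγc
  -- step 2
  have h2 : av (fun u => (h.eval (gg k u) - h.eval (gg k v)) * ν u)
      = av (fun u => conj (γ u) * ν u) := by
    have h21 : av (fun u => (b + r u - h.eval (gg k v)) * ν u) = 0 := by
      rw [av_holo hR (((hr.const_add b).sub_const _).fun_mul hν), hν0, mul_zero]
    rw [← zero_add (av (fun u => conj (γ u) * ν u)), ← h21, ← av_add (by fun_prop) (by fun_prop)]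
    apply av_congr
    intro u hu
    rw [hh u hu]; ring
  set Q := (h - Polynomial.C (h.eval (gg k v))) /ₘ (Polynomial.X - Polynomial.C (gg k v)) with hQ
  have hQe : ∀ z, h.eval z - h.eval (gg k v) = (z - gg k v) * Q.eval z := by
    intro z
    have hroot : (h - Polynomial.C (h.eval (gg k v))).IsRoot (gg k v) := by simp
    have := congrArg (Polynomial.eval z) (Polynomial.mul_divByMonic_eq_iff_isRoot.2 hroot)
    simpa using this.symm
  have h4 : av (fun u => Q.eval (gg k u) * (WW k u / u)) = 0 :=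
    E.av_holo_curve isOpen_univ convex_univ (fun _ _ => mem_univ _)
      (f := fun z => Q.eval z) Q.differentiableOn
  have hd1 := diff_dslope hγ hvb
  have hd2 := diff_dslope hr hvb
  have hd1c := hd1.continuousOn.mono E.sub
  have hd2c := hd2.continuousOn.mono E.sub
  have h5 : av (fun u => conj (u * dslope γ v u)) = 0 := by
    rw [av_conj (by fun_prop), av_holo hR (f := fun u => u * dslope γ v u) (differentiableOn_id.mul hd1)]; simp
  have h6 : av (fun u => v * dslope r v u) = r v := by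
    rw [av_holo hR (hd2.const_mul v), dslope_of_ne _ (S1_ne hv).symm, slope_def_field, hr0]
    have := S1_ne hv
    field_simp
    ring
  have hQc : ContinuousOn (fun u => Q.eval (gg k u) * (WW k u / u)) S1 :=
    (Q.continuous.comp_continuousOn E.contg).mul
      (E.contW.div continuousOn_id fun _ hu => S1_ne hu)
  have h5c : ContinuousOn (fun u => conj (u * dslope γ v u)) S1 :=
    Complex.continuous_conj.comp_continuousOn (continuousOn_id.mul hd1c)
  have h3 : av (fun u => (h.eval (gg k u) - h.eval (gg k v)) * ν u) =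
      av (fun u => Q.eval (gg k u) * (WW k u / u) - conj (u * dslope γ v u) + v * dslope r v u) := by
    apply av_congr_off v
    intro u hu huv
    have hu0 := S1_ne hu
    have hv0 := S1_ne hv
    have h4 : u - v ≠ 0 := sub_ne_zero.2 huv
    have h5 : v - u ≠ 0 := sub_ne_zero.2 (Ne.symm huv)
    have hden := E.den_ne (E.sub hu) hvb huv
    rw [hνe u (E.sub hu) huv, mul_sub]
    have e1 : (h.eval (gg k u) - h.eval (gg k v)) * KK k u v = Q.eval (gg k u) * (WW k u / u) := by
      have e0 : gg k u - gg k v = (k u * v - k v * u) / (u * v) := by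
        rw [gg, gg]; field_simp
      rw [hQe, KK, e0]
      generalize k u * v - k v * u = D at hden
      field_simp
    have e2 : (h.eval (gg k u) - h.eval (gg k v)) * (v / (v - u)) =
        conj (u * dslope γ v u) - v * dslope r v u := by
      rw [hh u hu, hh v hv, dslope_of_ne _ huv, dslope_of_ne _ huv, slope_def_field,
        slope_def_field]
      simp only [map_mul, map_div₀, map_sub, S1_conj hu, S1_conj hv]
      have e : u⁻¹ - v⁻¹ = (v - u) / (u * v) := by field_simp
      rw [e]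
      field_simp
      ring
    rw [e1, e2]; ring
  rw [← h2, h3, av_add (hQc.fun_sub h5c) (by fun_prop), av_sub hQc h5c, h4, h5, h6]
  simp

/-- The Neumann–Poincaré operator is an `L²` contraction. -/
theorem Ext.contraction (E : Ext C R k) (h : Polynomial ℂ) {b : ℂ} {γ r : ℂ → ℂ}
    (hγ : DifferentiableOn ℂ γ (ball 0 R)) (hγ0 : γ 0 = 0)
    (hr : DifferentiableOn ℂ r (ball 0 R)) (hr0 : r 0 = 0)
    (hh : ∀ u ∈ S1, h.eval (gg k u) = b + conj (γ u) + r u) :
    av (fun u => ‖r u‖ ^ 2) ≤ av (fun u => ‖γ u‖ ^ 2) := by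
  have hR := E.one_lt
  have hγc := hγ.continuousOn.mono E.sub
  have hrc := hr.continuousOn.mono E.sub
  have hcj : ContinuousOn (fun u => conj (γ u)) S1 := Complex.continuous_conj.comp_continuousOn hγc
  have hA : ∀ v ∈ S1, ‖r v‖ ^ 2 ≤ av (fun u => ‖γ u‖ ^ 2 * NN k u v) ∧
      ContinuousWithinAt r S1 v := by
    intro v hv
    refine ⟨?_, hrc v hv⟩
    obtain ⟨ν, hν, hν0, hνe⟩ := E.kerA1 hv
    have hνc := hν.continuousOn.mono E.sub
    have hN : ∀ u ∈ S1, u ≠ v → NN k u v = 1 + 2 * (ν u).re := fun u hu huv =>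
      NN_eq hu hv huv (hνe u (E.sub hu) huv)
    have h1 := E.repr_reg h hγ hr hr0 hh hv hν hν0 hνe
    have h2 : av (fun u => conj (γ u) * (1 + ν u + conj (ν u))) = r v := by
      have h21 : av (fun u => conj (γ u * (1 + ν u))) = 0 := by
        rw [av_conj (by fun_prop), av_holo hR (hγ.fun_mul (hν.const_add 1)), hγ0]; simp
      rw [← h1, ← zero_add (av (fun u => conj (γ u) * ν u)), ← h21,
        ← av_add (Complex.continuous_conj.comp_continuousOn' (by fun_prop)) (by fun_prop)]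
      apply av_congr
      intro u _
      simp only [map_mul, map_add, map_one]; ring
    have h3 : 0 ≤ av (fun u => ‖conj (γ u) - r v‖ ^ 2 * (1 + 2 * (ν u).re)) := by
      rw [← av_congr_off v (f := fun u => ‖conj (γ u) - r v‖ ^ 2 * NN k u v)
        (fun u hu huv => by rw [hN u hu huv])]
      exact av_nonneg fun u hu => mul_nonneg (by positivity) (E.NN_nonneg hu hv)
    have hc3 : ContinuousOn (fun u => conj (r v) * (conj (γ u) * (1 + ν u + conj (ν u)))) S1 :=
      continuousOn_const.mul (hcj.mul ((continuousOn_const.add hνc).add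
        (Complex.continuous_conj.comp_continuousOn hνc)))
    have h4 : av (fun u => ‖conj (γ u) - r v‖ ^ 2 * (1 + 2 * (ν u).re)) =
        av (fun u => ‖γ u‖ ^ 2 * (1 + 2 * (ν u).re)) +
          (-2) * av (fun u => (conj (r v) * (conj (γ u) * (1 + ν u + conj (ν u)))).re) +
          ‖r v‖ ^ 2 * av (fun u => 1 + 2 * (ν u).re) := by
      rw [← av_rmul, ← av_rmul, ← av_add (by fun_prop) (by fun_prop),
        ← av_add (by fun_prop) (by fun_prop)]
      apply av_congr
      intro u _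
      simp only [← Complex.normSq_eq_norm_sq, Complex.normSq_apply]
      simp
      ring
    rw [h4, av_re hc3, av_mul, h2, av_one_add hR hν hν0, Complex.conj_mul'] at h3
    rw [av_congr_off v (g := fun u => ‖γ u‖ ^ 2 * (1 + 2 * (ν u).re))
      (fun u hu huv => by rw [hN u hu huv])]
    have e : ((‖r v‖ : ℂ) ^ 2).re = ‖r v‖ ^ 2 := by norm_cast
    rw [e] at h3
    linarith
  have hB : ∀ u ∈ S1, CircleIntegrable (fun v => ‖γ u‖ ^ 2 * NN k u v) 0 1 ∧
      av (fun v => ‖γ u‖ ^ 2 * NN k u v) = ‖γ u‖ ^ 2 := by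
    intro u hu
    obtain ⟨ν, hν, hν0, hνe⟩ := E.kerA2 hu
    have hνc := hν.continuousOn.mono E.sub
    have hN : ∀ v ∈ S1, v ≠ u → ‖γ u‖ ^ 2 * (1 + 2 * (ν v).re) = ‖γ u‖ ^ 2 * NN k u v :=
      fun v hv huv => by rw [NN_eq hu hv huv.symm (hνe v (E.sub hv) huv)]
    refine ⟨ci_congr_off u hN (ci (by fun_prop)), ?_⟩
    rw [← av_congr_off u hN, av_rmul, av_one_add hR hν hν0, mul_one]
  have hm : ∀ θ, circleMap 0 1 θ ∈ S1 := fun θ => circleMap_mem_sphere 0 zero_le_one θ
  have hcc := continuous_circleMap 0 1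
  have hk1 : Continuous fun θ => k (circleMap 0 1 θ) := E.contk.comp_continuous hcc hm
  have hW1 : Continuous fun θ => WW k (circleMap 0 1 θ) := E.contW.comp_continuous hcc hm
  have hγ1 : Continuous fun θ => γ (circleMap 0 1 θ) := hγc.comp_continuous hcc hm
  have hmeas : Measurable (fun p : ℝ × ℝ =>
      ‖γ (circleMap 0 1 p.1)‖ ^ 2 * NN k (circleMap 0 1 p.1) (circleMap 0 1 p.2)) := by
    unfold NN KK
    apply Measurable.mul ((hγ1.comp continuous_fst).norm.pow 2).measurable
    apply Measurable.const_mul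
    apply Complex.measurable_re.comp
    exact Measurable.div ((hW1.comp continuous_fst).mul (hcc.comp continuous_snd)).measurable
      (((hk1.comp continuous_fst).mul (hcc.comp continuous_snd)).sub
        ((hk1.comp continuous_snd).mul (hcc.comp continuous_fst))).measurable
  have hcong : ∀ u ∈ S1, ‖γ u‖ ^ 2 = av (fun v => ‖γ u‖ ^ 2 * NN k u v) :=
    fun u hu => (hB u hu).2.symm
  have hci : CircleIntegrable (fun u => av (fun v => ‖γ u‖ ^ 2 * NN k u v)) 0 1 :=
    ci_congr_off 0 (fun u hu _ => hcong u hu) (ci (by fun_prop))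
  have hswap := av_swap (F := fun u v => ‖γ u‖ ^ 2 * NN k u v) hmeas
    (fun u hu v hv => mul_nonneg (by positivity) (E.NN_nonneg hu hv)) (fun u hu => (hB u hu).1) hci
  rw [av_congr hcong, ← hswap.1]
  exact Real.circleAverage_mono (ci (by fun_prop)) hswap.2
    (fun v hv => (hA v (by simpa using hv)).1)

/-- Existence of Faber polynomials. -/
theorem Ext.faber (E : Ext C R k) (n : ℕ) : ∀ κ : ℂ → ℂ, DifferentiableOn ℂ κ (ball 0 R) →
    ∃ (h : Polynomial ℂ) (r : ℂ → ℂ), DifferentiableOn ℂ r (ball 0 R) ∧ r 0 = 0 ∧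
      ∀ u ∈ S1, h.eval (gg k u) = κ u / u ^ n + r u := by
  induction n with
  | zero =>
    intro κ hκ
    exact ⟨Polynomial.C (κ 0), fun u => κ 0 - κ u, hκ.const_sub _, by simp, by simp⟩
  | succ n ih =>
    intro κ hκ
    have hk0 := E.k0
    obtain ⟨d, hd, hde⟩ := exists_div' (f := fun u => κ u - κ 0 / k 0 ^ (n + 1) * k u ^ (n + 1))
      (hκ.sub ((E.diff.pow _).const_mul _)) E.zero_mem (by field_simp; ring)
    obtain ⟨h, r, hr, hr0, hh⟩ := ih d hd
    refine ⟨h + Polynomial.C (κ 0 / k 0 ^ (n + 1)) * Polynomial.X ^ (n + 1), r, hr, hr0, ?_⟩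
    intro u hu
    have hu0 := S1_ne hu
    have h1 := hde u
    have h2 : d u = (κ u - κ 0 / k 0 ^ (n + 1) * k u ^ (n + 1)) / u := by
      rw [h1]; field_simp; ring
    simp only [Polynomial.eval_add, Polynomial.eval_mul, Polynomial.eval_C, Polynomial.eval_pow,
      Polynomial.eval_X, hh u hu, h2]
    rw [gg, div_pow]
    field_simp
    ring

theorem Ext.faber_poly (E : Ext C R k) (N : ℕ) (c : ℕ → ℂ) :
    ∃ (h : Polynomial ℂ) (r : ℂ → ℂ), DifferentiableOn ℂ r (ball 0 R) ∧ r 0 = 0 ∧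
      ∀ u ∈ S1, h.eval (gg k u) = conj (∑ j ∈ Finset.range N, c j * u ^ j) + r u := by
  induction N with
  | zero => exact ⟨0, fun _ => 0, by fun_prop, rfl, by simp⟩
  | succ N ih =>
    obtain ⟨h, r, hr, hr0, hh⟩ := ih
    obtain ⟨h', r', hr', hr0', hh'⟩ := E.faber N (fun _ => conj (c N)) (by fun_prop)
    refine ⟨h + h', fun u => r u + r' u, hr.add hr', by simp [hr0, hr0'], fun u hu => ?_⟩
    rw [Polynomial.eval_add, hh u hu, hh' u hu, Finset.sum_range_succ, map_add, map_mul, map_pow,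
      S1_conj hu, inv_pow, div_eq_mul_inv]
    ring

theorem exists_poly_approx {a : ℂ → ℂ} (hR : 1 < R) (ha : DifferentiableOn ℂ a (ball 0 R))
    {η : ℝ} (hη : 0 < η) :
    ∃ (N : ℕ) (c : ℕ → ℂ), ∀ u : ℂ, ‖u‖ ≤ 1 → ‖a u - ∑ j ∈ Finset.range N, c j * u ^ j‖ ≤ η := by
  obtain ⟨R₁, h1, h2⟩ := exists_between hR
  obtain ⟨R₂, h3, h4⟩ := exists_between h1
  lift R₁ to NNReal using (by linarith)
  lift R₂ to NNReal using (by linarith)
  have hp := (ha.mono (closedBall_subset_ball h2)).hasFPowerSeriesOnBall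
    (show 0 < R₁ by exact_mod_cast (one_pos.trans h1))
  have hu := hp.tendstoUniformlyOn' (r' := R₂) (by exact_mod_cast h4)
  obtain ⟨N, hN⟩ := (Metric.tendstoUniformlyOn_iff.1 hu η hη).exists
  refine ⟨N, fun j => (cauchyPowerSeries a 0 R₁).coeff j, fun u hu => ?_⟩
  have := hN u (by simpa using lt_of_le_of_lt hu h3)
  rw [dist_eq_norm, sub_zero, FormalMultilinearSeries.partialSum] at this
  simp only [FormalMultilinearSeries.apply_eq_pow_smul_coeff, smul_eq_mul] at this
  simpa only [mul_comm] using this.le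

/-- The quadratic quantity attached to a holomorphic function. -/
noncomputable def qq (a : ℂ → ℂ) : ℝ := (av (fun u => ‖a u‖ ^ 2) + ‖a 0‖ ^ 2) / 2

/-- The test polynomial. -/
theorem Ext.exists_test (E : Ext C R k) {a : ℂ → ℂ} (ha : DifferentiableOn ℂ a (ball 0 R))
    {ε : ℝ} (hε : 0 < ε) :
    ∃ h : Polynomial ℂ, qq a - ε ≤ (av (fun u => h.eval (gg k u) * a u)).re ∧
      av (fun u => ‖h.eval (gg k u)‖ ^ 2) ≤ qq a + ε := by
  have hR := E.one_lt
  have hac := ha.continuousOn.mono E.sub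
  obtain ⟨B, hB⟩ := (isCompact_sphere (0 : ℂ) 1).exists_bound_of_continuousOn
    (f := fun u => a u - a 0) (by fun_prop)
  have hB0 : 0 ≤ B := (norm_nonneg _).trans (hB 1 (by simp))
  set η := min 1 (ε / (2 * B + 1)) with hη
  have hη0 : 0 < η := by positivity
  have hη1 : η ≤ 1 := min_le_left _ _
  have hη2 : η * (2 * B + 1) ≤ ε := by
    rw [← le_div_iff₀ (by positivity)]; exact min_le_right _ _
  obtain ⟨N, c, hc⟩ := exists_poly_approx hR ha (half_pos hη0)
  obtain ⟨h₁, r₁, hr₁, hr₁0, hh₁⟩ := E.faber_poly N c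
  obtain ⟨p, hp⟩ : ∃ p : ℂ → ℂ, p = fun u => ∑ j ∈ Finset.range N, c j * u ^ j := ⟨_, rfl⟩
  have hpd : DifferentiableOn ℂ p (ball 0 R) := by rw [hp]; fun_prop
  have hc' : ∀ u : ℂ, ‖u‖ ≤ 1 → ‖a u - p u‖ ≤ η / 2 := by rw [hp]; exact hc
  have hh₁' : ∀ u ∈ S1, h₁.eval (gg k u) = conj (p u) + r₁ u := by rw [hp]; exact hh₁
  obtain ⟨γ, hγ⟩ : ∃ γ : ℂ → ℂ, γ = fun u => (p u - p 0) / 2 := ⟨_, rfl⟩
  obtain ⟨r, hr⟩ : ∃ r : ℂ → ℂ, r = fun u => r₁ u / 2 := ⟨_, rfl⟩
  have hγd : DifferentiableOn ℂ γ (ball 0 R) := by rw [hγ]; fun_prop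
  have hrd : DifferentiableOn ℂ r (ball 0 R) := by rw [hr]; fun_prop
  have hγ0 : γ 0 = 0 := by simp [hγ]
  have hr0 : r 0 = 0 := by simp [hr, hr₁0]
  have hγc := hγd.continuousOn.mono E.sub
  have hrc := hrd.continuousOn.mono E.sub
  have hcj : ContinuousOn (fun u => conj (γ u)) S1 := Complex.continuous_conj.comp_continuousOn hγc
  set h := Polynomial.C (1 / 2) * h₁ + Polynomial.C (conj (a 0) - conj (p 0) / 2) with hhdef
  have hh : ∀ u ∈ S1, h.eval (gg k u) = conj (a 0) + conj (γ u) + r u := by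
    intro u hu
    simp only [hhdef, Polynomial.eval_add, Polynomial.eval_mul, Polynomial.eval_C, hh₁' u hu]
    simp only [hγ, hr, map_div₀, map_sub, map_ofNat]
    ring
  have hclose : ∀ u ∈ S1, ‖(a u - a 0) - 2 * γ u‖ ≤ η := by
    intro u hu
    have e : (a u - a 0) - 2 * γ u = (a u - p u) - (a 0 - p 0) := by rw [hγ]; ring
    rw [e]
    have := norm_sub_le (a u - p u) (a 0 - p 0)
    have h1 := hc' u (mem_S1.1 hu).le
    have h2 := hc' 0 (by simp)
    linarith
  have hq : qq a = ‖a 0‖ ^ 2 + av (fun u => ‖a u - a 0‖ ^ 2) / 2 := by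
    have := av_pyth hR (a := fun u => a u - a 0) (b := fun _ => conj (a 0)) (by fun_prop)
      (by fun_prop)
    simp only [Complex.conj_conj, sub_add_cancel, sub_self, zero_mul, Complex.zero_re, mul_zero,
      add_zero, av_const, Complex.norm_conj] at this
    rw [qq, this]; ring
  refine ⟨h, ?_, ?_⟩
  · have h1 : av (fun u => h.eval (gg k u) * a u) =
        av (fun u => (conj (a 0) + r u) * a u) + a 0 * av (fun u => conj (γ u)) +
          av (fun u => conj (γ u) * (a u - a 0)) := by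
      rw [← av_mul, ← av_add (by fun_prop) (by fun_prop), ← av_add (by fun_prop) (by fun_prop)]
      apply av_congr
      intro u hu
      rw [hh u hu]; ring
    rw [h1, av_holo hR ((hrd.const_add _).fun_mul ha), av_conj hγc, av_holo hR hγd, hγ0, hr0,
      hq]
    simp only [add_zero, map_zero, mul_zero, Complex.add_re, Complex.conj_mul']
    have e : ((‖a 0‖ : ℂ) ^ 2).re = ‖a 0‖ ^ 2 := by norm_cast
    rw [e, ← av_re (by fun_prop)]
    have h2 : av (fun u => (1 / 2) * ‖a u - a 0‖ ^ 2 - ε) ≤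
        av (fun u => (conj (γ u) * (a u - a 0)).re) := by
      apply av_mono (by fun_prop) (by fun_prop)
      intro u hu
      have h3 := hclose u hu
      have h4 := hB u hu
      generalize a u - a 0 = w at h3 h4
      have e1 : conj (γ u) * w = (1 / 2 : ℝ) * (conj w * w) - (1 / 2 : ℝ) *
          (conj (w - 2 * γ u) * w) := by
        simp only [map_sub, map_mul, map_ofNat]; push_cast; ring
      have e2 : (conj w * w).re = ‖w‖ ^ 2 := by rw [Complex.conj_mul']; norm_cast
      have e3 : (conj (w - 2 * γ u) * w).re ≤ η * B := by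
        refine (Complex.re_le_norm _).trans ?_
        rw [norm_mul, Complex.norm_conj]
        gcongr
      rw [e1, Complex.sub_re, Complex.re_ofReal_mul, Complex.re_ofReal_mul, e2]
      nlinarith
    rw [av_sub (by fun_prop) (by fun_prop), av_const, av_rmul] at h2
    linarith
  · have h1 : av (fun u => ‖h.eval (gg k u)‖ ^ 2) =
        av (fun u => ‖(conj (a 0) + r u) + conj (γ u)‖ ^ 2) := by
      apply av_congr
      intro u hu
      rw [hh u hu]; congr 2; ring
    have h2 := av_pyth hR (a := r) (b := fun _ => a 0) hrd (by fun_prop)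
    have h3 := E.contraction h hγd hγ0 hrd hr0 hh
    rw [h1, av_pyth hR (hrd.const_add _) hγd, hγ0]
    simp only [add_comm (conj (a 0))]
    rw [h2, hr0, av_const, hq]
    have h4 : av (fun u => 4 * ‖γ u‖ ^ 2) ≤ av (fun u => ‖a u - a 0‖ ^ 2 + ε) := by
      apply av_mono (by fun_prop) (by fun_prop)
      intro u hu
      have h5 := hclose u hu
      have h6 := hB u hu
      generalize a u - a 0 = w at h5 h6
      have h7 : 2 * ‖γ u‖ ≤ ‖w‖ + η := by
        have := norm_sub_le w (w - 2 * γ u)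
        rw [sub_sub_cancel, norm_mul, Complex.norm_ofNat] at this
        linarith
      have := norm_nonneg (γ u)
      have := norm_nonneg w
      nlinarith
    rw [av_add (by fun_prop) (by fun_prop), av_const, av_rmul] at h4
    simp only [zero_mul, mul_zero, Complex.zero_re]
    linarith

end Crest.Agent.H0179
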