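import Crest.Agent.H0179.Conf
import Crest.Agent.H0179.Metric4

set_option autoImplicit false

open Set hiding diagonal
open Filter Metric Topology Matrix
open scoped ComplexOrder MatrixOrder Matrix.Norms.L2Operator ComplexConjugate InnerProductSpace
open Crest.AnalysisR.NumRange

namespace Crest.Agent.H0179

variable {n : ℕ}

/-- The resolvent `(1 - u T)⁻¹`. -/
noncomputable def Res (T : Matrix (Fin n) (Fin n) ℂ) (u : ℂ) : Matrix (Fin n) (Fin n) ℂ :=
  Ring.inverse (1 - u • T)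

/-- The operator-valued Poisson kernel. -/
noncomputable def Pk (T : Matrix (Fin n) (Fin n) ℂ) (w : ℂ) : Matrix (Fin n) (Fin n) ℂ :=
  Res T w⁻¹ + Res Tᴴ w - 1

/-- The functional calculus on the disc. -/
noncomputable def JD (T : Matrix (Fin n) (Fin n) ℂ) (H : ℂ → ℂ) : Matrix (Fin n) (Fin n) ℂ :=
  av (fun w => H w • Pk T w)

variable {T : Matrix (Fin n) (Fin n) ℂ} {R : ℝ}

theorem star_one_sub (T : Matrix (Fin n) (Fin n) ℂ) (u : ℂ) :
    (1 - u • T)ᴴ = 1 - conj u • Tᴴ := by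
  simp [conjTranspose_sub, conjTranspose_smul]

theorem unit_conj (hT : ∀ u ∈ ball (0 : ℂ) R, IsUnit (1 - u • T)) :
    ∀ u ∈ ball (0 : ℂ) R, IsUnit (1 - u • Tᴴ) := by
  intro u hu
  have := (hT (conj u) (by simpa using hu)).star
  rwa [star_eq_conjTranspose, star_one_sub, Complex.conj_conj] at this

theorem diff_Res (hT : ∀ u ∈ ball (0 : ℂ) R, IsUnit (1 - u • T)) :
    DifferentiableOn ℂ (Res T) (ball 0 R) := fun u hu =>
  DifferentiableWithinAt.inverse ((differentiableWithinAt_id.smul_const T).const_sub 1) (hT u hu)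

theorem S1_inv {u : ℂ} (hu : u ∈ S1) : u⁻¹ ∈ S1 := by
  rw [mem_S1] at hu ⊢; simp [hu]

theorem cont_Res_inv (hR : 1 < R) (hT : ∀ u ∈ ball (0 : ℂ) R, IsUnit (1 - u • T)) :
    ContinuousOn (fun w => Res T w⁻¹) S1 :=
  ((diff_Res hT).continuousOn.mono (S1_sub_ball hR)).comp
    (continuousOn_id.inv₀ fun _ hu => S1_ne hu) fun _ hu => S1_inv hu

theorem cont_Pk (hR : 1 < R) (hT : ∀ u ∈ ball (0 : ℂ) R, IsUnit (1 - u • T)) :
    ContinuousOn (Pk T) S1 :=
  ((cont_Res_inv hR hT).add ((diff_Res (unit_conj hT)).continuousOn.mono (S1_sub_ball hR))).sub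
    continuousOn_const

theorem psd_Pk (hR : 1 < R) (hT : ∀ u ∈ ball (0 : ℂ) R, IsUnit (1 - u • T))
    (hc : (1 - Tᴴ * T).PosSemidef) {w : ℂ} (hw : w ∈ S1) : (Pk T w).PosSemidef := by
  have h1 := Ring.mul_inverse_cancel _ (hT _ (S1_sub_ball hR (S1_inv hw)))
  have h2 : Res Tᴴ w = (Res T w⁻¹)ᴴ := by
    rw [Res, Res, ← star_eq_conjTranspose (Ring.inverse _), ← Ring.inverse_star, star_eq_conjTranspose,
      star_one_sub, ← S1_conj hw, Complex.conj_conj]
  rw [Pk, h2]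
  change (1 - w⁻¹ • T) * Res T w⁻¹ = 1 at h1
  generalize Res T w⁻¹ = B at h1
  have h3 := congrArg conjTranspose h1
  rw [conjTranspose_mul, conjTranspose_one] at h3
  have h4 : 1 - Tᴴ * T = (1 - w⁻¹ • T)ᴴ + (1 - w⁻¹ • T) - (1 - w⁻¹ • T)ᴴ * (1 - w⁻¹ • T) := by
    rw [star_one_sub, S1_conj (S1_inv hw), inv_inv]
    simp only [Matrix.mul_sub, Matrix.sub_mul, Matrix.mul_smul, Matrix.smul_mul, one_mul, mul_one,
      smul_sub, smul_smul, inv_mul_cancel₀ (S1_ne hw), one_smul]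
    abel
  convert hc.conjTranspose_mul_mul_same B using 1
  rw [h4, Matrix.mul_sub, Matrix.mul_add, Matrix.sub_mul, Matrix.add_mul, h3, one_mul, mul_assoc,
    h1, mul_one, ← mul_assoc, h3, one_mul, h1]

theorem JD_eq (hR : 1 < R) (hT : ∀ u ∈ ball (0 : ℂ) R, IsUnit (1 - u • T)) {H : ℂ → ℂ}
    (hH : DifferentiableOn ℂ H (ball 0 R)) : JD T H = av (fun w => H w • Res T w⁻¹) := by
  have hd := hH.fun_smul ((diff_Res (unit_conj hT)).sub_const 1)
  have h1 := av_holo hR hd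
  have h0 : Res Tᴴ 0 = 1 := by simp [Res]
  rw [h0, sub_self, smul_zero] at h1
  rw [← add_zero (av fun w => H w • Res T w⁻¹), ← h1,
    ← av_add ((hH.continuousOn.mono (S1_sub_ball hR)).fun_smul (cont_Res_inv hR hT))
      (hd.continuousOn.mono (S1_sub_ball hR)), JD]
  exact av_congr fun w _ => by rw [Pk, ← smul_add, add_sub_assoc]

theorem JD_one (hR : 1 < R) (hT : ∀ u ∈ ball (0 : ℂ) R, IsUnit (1 - u • T)) :
    JD T (fun _ => 1) = 1 := by
  rw [JD_eq hR hT (by fun_prop)]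
  simp only [one_smul]
  rw [av, Real.circleAverage_zero_one_congr_inv, ← av, av_holo hR (diff_Res hT)]
  simp [Res]

theorem JD_id_mul (hR : 1 < R) (hT : ∀ u ∈ ball (0 : ℂ) R, IsUnit (1 - u • T)) {H : ℂ → ℂ}
    (hH : DifferentiableOn ℂ H (ball 0 R)) : JD T (fun w => w * H w) = T * JD T H := by
  have hd : DifferentiableOn ℂ (fun w => w * H w) (ball 0 R) := differentiableOn_id.mul hH
  have hc := (hH.continuousOn.mono (S1_sub_ball hR)).fun_smul (cont_Res_inv hR hT)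
  have h1 := av_clm (ContinuousLinearMap.mul ℂ _ T) hc
  have h2 := av_holo hR (hd.smul_const (1 : Matrix (Fin n) (Fin n) ℂ))
  simp only [ContinuousLinearMap.mul_apply', zero_mul, zero_smul] at h1 h2
  rw [JD_eq hR hT hd, JD_eq hR hT hH, ← h1, ← zero_add (av fun w => T * H w • Res T w⁻¹), ← h2,
    ← av_add ((hd.smul_const _).continuousOn.mono (S1_sub_ball hR)) (continuousOn_const.fun_mul hc)]
  refine av_congr fun w hw => ?_
  have h3 := Ring.mul_inverse_cancel _ (hT _ (S1_sub_ball hR (S1_inv hw)))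
  change (1 - w⁻¹ • T) * Res T w⁻¹ = 1 at h3
  generalize Res T w⁻¹ = B at h3
  rw [← h3, Matrix.sub_mul, one_mul, smul_sub, Matrix.smul_mul, smul_smul, Matrix.mul_smul,
    mul_comm w, mul_inv_cancel_right₀ (S1_ne hw)]
  abel

theorem JD_add (hR : 1 < R) (hT : ∀ u ∈ ball (0 : ℂ) R, IsUnit (1 - u • T)) {H K : ℂ → ℂ}
    (hH : DifferentiableOn ℂ H (ball 0 R)) (hK : DifferentiableOn ℂ K (ball 0 R)) :
    JD T (fun w => H w + K w) = JD T H + JD T K := by
  rw [JD, JD, JD, ← av_add ((hH.continuousOn.mono (S1_sub_ball hR)).fun_smul (cont_Pk hR hT))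
    ((hK.continuousOn.mono (S1_sub_ball hR)).fun_smul (cont_Pk hR hT))]
  simp only [add_smul]

theorem JD_poly (hR : 1 < R) (hT : ∀ u ∈ ball (0 : ℂ) R, IsUnit (1 - u • T)) {φ : ℂ → ℂ}
    (hφ : DifferentiableOn ℂ φ (ball 0 R)) {B : Matrix (Fin n) (Fin n) ℂ}
    (hB : ∀ H, DifferentiableOn ℂ H (ball 0 R) → JD T (fun w => φ w * H w) = B * JD T H)
    (r : Polynomial ℂ) {H : ℂ → ℂ} (hH : DifferentiableOn ℂ H (ball 0 R)) :
    JD T (fun w => r.eval (φ w) * H w) = Polynomial.aeval B r * JD T H := by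
  have hd : ∀ s : Polynomial ℂ, DifferentiableOn ℂ (fun w => s.eval (φ w) * H w) (ball 0 R) :=
    fun s => (s.differentiable.comp_differentiableOn hφ).mul hH
  induction r using Polynomial.induction_on with
  | C a =>
    simp only [Polynomial.eval_C, Polynomial.aeval_C, JD, ← smul_smul, av_smul,
      Algebra.algebraMap_eq_smul_one, Matrix.smul_mul, one_mul]
  | add p q hp hq =>
    simp only [Polynomial.eval_add, add_mul, map_add]
    rw [JD_add hR hT (hd p) (hd q), hp, hq]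
  | monomial m a ih =>
    have := hB _ (hd (Polynomial.C a * Polynomial.X ^ m))
    rw [ih] at this
    have e : (Polynomial.C a * Polynomial.X ^ (m + 1) : Polynomial ℂ) =
        Polynomial.X * (Polynomial.C a * Polynomial.X ^ m) := by ring
    rw [e, map_mul, Polynomial.aeval_X, mul_assoc, ← this]
    simp only [Polynomial.eval_mul, Polynomial.eval_X, mul_assoc]

theorem aeval_conj {S : Matrix (Fin n) (Fin n) ℂ} (hS : IsUnit S) (A : Matrix (Fin n) (Fin n) ℂ)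
    (r : Polynomial ℂ) : Polynomial.aeval (S * A * S⁻¹) r = S * Polynomial.aeval A r * S⁻¹ := by
  have hd := (isUnit_iff_isUnit_det S).1 hS
  have h1 := mul_nonsing_inv S hd
  have h2 := nonsing_inv_mul S hd
  induction r using Polynomial.induction_on with
  | C a => simp [Algebra.algebraMap_eq_smul_one, h1]
  | add p q hp hq => simp [hp, hq, Matrix.mul_add, Matrix.add_mul]
  | monomial m a ih =>
    rw [pow_succ, ← mul_assoc, map_mul, ih, map_mul (Polynomial.aeval A) _ Polynomial.X,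
      Polynomial.aeval_X, Polynomial.aeval_X]
    simp only [mul_assoc]
    rw [← mul_assoc S⁻¹ S, h2, one_mul]

theorem opNorm_le_of_re_inner {X : Type*} [NormedAddCommGroup X] [InnerProductSpace ℂ X]
    (N : X →L[ℂ] X) {c : ℝ} (hc : 0 ≤ c)
    (h : ∀ ξ η, (⟪η, N ξ⟫_ℂ).re ≤ c * ((‖η‖ ^ 2 + ‖ξ‖ ^ 2) / 2)) : ‖N‖ ≤ c := by
  have : NormedSpace ℝ X := NormedSpace.complexToReal
  refine ContinuousLinearMap.opNorm_le_of_unit_norm hc fun ξ hξ => ?_
  by_cases h0 : N ξ = 0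
  · simp [h0, hc]
  have hn : ‖N ξ‖ ≠ 0 := norm_ne_zero_iff.2 h0
  have h1 := h ξ (((‖N ξ‖⁻¹ : ℝ) : ℂ) • N ξ)
  rw [inner_smul_left, Complex.conj_ofReal, Complex.re_ofReal_mul, norm_smul, Complex.norm_real,
    norm_inv, norm_norm, inv_mul_cancel₀ hn, hξ] at h1
  have h2 : (⟪N ξ, N ξ⟫_ℂ).re = ‖N ξ‖ ^ 2 := inner_self_eq_norm_sq (𝕜 := ℂ) (N ξ)
  rw [h2, sq, ← mul_assoc, inv_mul_cancel₀ hn] at h1
  linarith

theorem psd_bilin {m : ℕ} {P : Matrix (Fin n) (Fin n) ℂ} (hP : P.PosSemidef)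
    (v : Matrix (Fin m) (Fin m) ℂ) {M : ℝ}
    (hM : ‖Matrix.toEuclideanCLM (n := Fin m) (𝕜 := ℂ) v‖ ≤ M) (η ξ : Fin m → Fin n → ℂ) {s t : ℝ}
    (hs : 0 < s) (hst : 4 * s * t = 1) :
    (∑ c, ∑ d, v c d * (star (η c) ⬝ᵥ P *ᵥ ξ d)).re ≤
      M * (s * ∑ c, (star (η c) ⬝ᵥ P *ᵥ η c).re + t * ∑ d, (star (ξ d) ⬝ᵥ P *ᵥ ξ d).re) := by
  obtain ⟨B, rfl⟩ := CStarAlgebra.nonneg_iff_eq_star_mul_self.1 hP.nonneg
  have h1 : ∀ x y : Fin n → ℂ, star x ⬝ᵥ (star B * B) *ᵥ y = ∑ a, conj ((B *ᵥ x) a) * (B *ᵥ y) a := by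
    intro x y
    rw [← mulVec_mulVec, dotProduct_mulVec, star_eq_conjTranspose, ← star_mulVec]
    rfl
  have h2 : ∀ x : Fin n → ℂ, (star x ⬝ᵥ (star B * B) *ᵥ x).re = ∑ a, ‖(B *ᵥ x) a‖ ^ 2 := by
    intro x
    rw [h1, Complex.re_sum]
    refine Finset.sum_congr rfl fun a _ => ?_
    rw [Complex.conj_mul']; norm_cast
  simp only [h2]
  simp only [h1]
  have h3 : ∑ c, ∑ d, v c d * ∑ a, conj ((B *ᵥ η c) a) * (B *ᵥ ξ d) a =
      ∑ a, ∑ c, ∑ d, conj ((B *ᵥ η c) a) * v c d * (B *ᵥ ξ d) a := by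
    simp only [Finset.mul_sum]
    rw [Finset.sum_comm (s := Finset.univ (α := Fin n))]
    refine Finset.sum_congr rfl fun c _ => ?_
    rw [Finset.sum_comm (s := Finset.univ (α := Fin n))]
    exact Finset.sum_congr rfl fun d _ => Finset.sum_congr rfl fun a _ => by ring
  rw [h3, Complex.re_sum, Finset.sum_comm (s := Finset.univ (α := Fin m)),
    Finset.sum_comm (s := Finset.univ (α := Fin m)), Finset.mul_sum, Finset.mul_sum,
    ← Finset.sum_add_distrib, Finset.mul_sum]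
  refine Finset.sum_le_sum fun a _ => ?_
  simpa using bilin_bound v hM (fun c => conj ((B *ᵥ η c) a)) (fun d => (B *ᵥ ξ d) a) hs hst

end Crest.Agent.H0179
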