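import Crest.Agent.H0179.Hurwitz

set_option autoImplicit false

open Set Filter Metric Topology
open scoped ComplexConjugate

namespace Crest.Agent.H0179

/-- Möbius map of the unit disc. -/
noncomputable def mob (a z : ℂ) : ℂ := (z - a) / (1 - conj a * z)

theorem mob_den_ne {a z : ℂ} (ha : ‖a‖ < 1) (hz : ‖z‖ < 1) : 1 - conj a * z ≠ 0 := by
  intro h
  have h1 : conj a * z = 1 := by linear_combination -h
  have h2 : ‖conj a * z‖ < 1 := by
    rw [norm_mul, Complex.norm_conj]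
    exact mul_lt_one_of_nonneg_of_lt_one_left (norm_nonneg _) ha hz.le
  rw [h1] at h2
  simp at h2

theorem mob_norm_lt {a z : ℂ} (ha : ‖a‖ < 1) (hz : ‖z‖ < 1) : ‖mob a z‖ < 1 := by
  have hd := mob_den_ne ha hz
  rw [mob, norm_div, div_lt_one (norm_pos_iff.2 hd)]
  have h1 : Complex.normSq a < 1 := by
    rw [Complex.normSq_eq_norm_sq]; nlinarith [norm_nonneg a]
  have h2 : Complex.normSq z < 1 := by
    rw [Complex.normSq_eq_norm_sq]; nlinarith [norm_nonneg z]
  have h3 : Complex.normSq (1 - conj a * z) - Complex.normSq (z - a)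
      = (1 - Complex.normSq a) * (1 - Complex.normSq z) := by
    simp [Complex.normSq_apply]; ring
  have h4 : 0 < (1 - Complex.normSq a) * (1 - Complex.normSq z) := by
    apply mul_pos <;> linarith
  apply lt_of_pow_lt_pow_left₀ 2 (norm_nonneg _)
  rw [← Complex.normSq_eq_norm_sq, ← Complex.normSq_eq_norm_sq]
  linarith

theorem mob_hasDerivAt {a z : ℂ} (ha : ‖a‖ < 1) (hz : ‖z‖ < 1) :
    HasDerivAt (mob a) ((1 - conj a * a) / (1 - conj a * z) ^ 2) z := by
  have hd := mob_den_ne ha hz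
  have h1 : HasDerivAt (fun z => z - a) 1 z := (hasDerivAt_id z).sub_const a
  have h2 : HasDerivAt (fun z => 1 - conj a * z) (-(conj a)) z := by
    simpa using ((hasDerivAt_id z).const_mul (conj a)).const_sub 1
  have h3 := h1.div h2 hd
  have e : (1 * (1 - conj a * z) - (z - a) * -(conj a)) = 1 - conj a * a := by ring
  rw [e] at h3
  exact h3

theorem mob_inj {a z w : ℂ} (ha : ‖a‖ < 1) (hz : ‖z‖ < 1) (hw : ‖w‖ < 1)
    (h : mob a z = mob a w) : z = w := by
  have hd := mob_den_ne ha hz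
  have hd' := mob_den_ne ha hw
  have hda := mob_den_ne ha ha
  rw [mob, mob, div_eq_div_iff hd hd'] at h
  have : (z - w) * (1 - conj a * a) = 0 := by linear_combination h
  rcases mul_eq_zero.1 this with h1 | h1
  · exact sub_eq_zero.1 h1
  · exact absurd h1 hda

theorem mob_eq_zero {a z : ℂ} (ha : ‖a‖ < 1) (hz : ‖z‖ < 1) (h : mob a z = 0) : z = a := by
  have hd := mob_den_ne ha hz
  rw [mob, div_eq_zero_iff] at h
  rcases h with h | h
  · exact sub_eq_zero.1 h
  · exact absurd h hd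

/-- The competing family in the Riemann mapping theorem. -/
structure Fam (D : Set ℂ) (f : ℂ → ℂ) : Prop where
  diff : DifferentiableOn ℂ f D
  maps : ∀ z ∈ D, ‖f z‖ < 1
  inj : InjOn f D
  zero : f 0 = 0
  dne : ∀ z ∈ D, deriv f z ≠ 0

theorem Fam.improve {D : Set ℂ} (hDo : IsOpen D) (hDc : IsSimplyConnected D) (h0 : (0 : ℂ) ∈ D)
    {f : ℂ → ℂ} (hf : Fam D f) {w : ℂ} (hw : ‖w‖ < 1) (hwf : ∀ z ∈ D, f z ≠ w) :
    ∃ g, Fam D g ∧ ‖deriv f 0‖ < ‖deriv g 0‖ := by
  have hfd : ∀ z ∈ D, HasDerivAt f (deriv f z) z := fun z hz =>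
    (hf.diff.differentiableAt (hDo.mem_nhds hz)).hasDerivAt
  have hmd : ∀ z ∈ D, HasDerivAt (fun z => mob w (f z))
      ((1 - conj w * w) / (1 - conj w * f z) ^ 2 * deriv f z) z := fun z hz =>
    (mob_hasDerivAt hw (hf.maps z hz)).comp z (hfd z hz)
  have hmc : ContinuousOn (fun z => mob w (f z)) D := fun z hz =>
    (hmd z hz).continuousAt.continuousWithinAt
  have hmne : ∀ z ∈ D, mob w (f z) ≠ 0 := fun z hz h =>
    hwf z hz (mob_eq_zero hw (hf.maps z hz) h)
  obtain ⟨h, hhc, hh⟩ := Complex.exists_continuousOn_pow_eq hDc hDo hmc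
    (by rintro ⟨z, hz, hz0⟩; exact hmne z hz hz0) two_ne_zero
  have hhne : ∀ z ∈ D, h z ≠ 0 := fun z hz h0 => hmne z hz (by rw [← hh z, h0]; simp)
  have hhlt : ∀ z ∈ D, ‖h z‖ < 1 := fun z hz => by
    have := mob_norm_lt hw (hf.maps z hz)
    rw [← hh z, norm_pow] at this
    exact lt_of_pow_lt_pow_left₀ 2 zero_le_one (by simpa using this)
  have hhd : ∀ z ∈ D, HasDerivAt h
      (((1 - conj w * w) / (1 - conj w * f z) ^ 2 * deriv f z) / (2 * h z)) z := fun z hz => by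
    apply HasDerivAt.of_comp_left (f := fun x => x ^ 2) (hhc.continuousAt (hDo.mem_nhds hz))
      _ (hmd z hz) (mul_ne_zero two_ne_zero (hhne z hz))
    · exact Eventually.of_forall fun x => hh x
    · simpa using hasDerivAt_pow 2 (h z)
  have hgd : ∀ z ∈ D, HasDerivAt (fun z => mob (h 0) (h z))
      ((1 - conj (h 0) * h 0) / (1 - conj (h 0) * h z) ^ 2 *
        (((1 - conj w * w) / (1 - conj w * f z) ^ 2 * deriv f z) / (2 * h z))) z := fun z hz =>
    (mob_hasDerivAt (hhlt 0 h0) (hhlt z hz)).comp z (hhd z hz)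
  refine ⟨fun z => mob (h 0) (h z), ⟨?_, ?_, ?_, ?_, ?_⟩, ?_⟩
  · exact fun z hz => (hgd z hz).differentiableAt.differentiableWithinAt
  · exact fun z hz => mob_norm_lt (hhlt 0 h0) (hhlt z hz)
  · intro z hz z' hz' he
    have h1 := mob_inj (hhlt 0 h0) (hhlt z hz) (hhlt z' hz') he
    have h2 : mob w (f z) = mob w (f z') := by rw [← hh z, ← hh z', h1]
    exact hf.inj hz hz' (mob_inj hw (hf.maps z hz) (hf.maps z' hz') h2)
  · simp [mob]
  · intro z hz
    rw [(hgd z hz).deriv]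
    have h1 := mob_den_ne (hhlt 0 h0) (hhlt 0 h0)
    have h2 := mob_den_ne (hhlt 0 h0) (hhlt z hz)
    have h3 := mob_den_ne hw hw
    have h4 := mob_den_ne hw (hf.maps z hz)
    have h5 := hf.dne z hz
    have h6 := hhne z hz
    exact mul_ne_zero (div_ne_zero h1 (pow_ne_zero _ h2)) (div_ne_zero
      (mul_ne_zero (div_ne_zero h3 (pow_ne_zero _ h4)) h5) (mul_ne_zero two_ne_zero h6))
  · rw [(hgd 0 h0).deriv, hf.zero]
    set s := ‖h 0‖ with hs
    have hs0 : 0 < s := norm_pos_iff.2 (hhne 0 h0)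
    have hs1 : s < 1 := hhlt 0 h0
    have hws : ‖w‖ = s ^ 2 := by
      have := congrArg norm (hh 0)
      rw [norm_pow, hf.zero] at this
      rw [this]; simp [mob]
    have e1 : (1 : ℂ) - conj (h 0) * h 0 = ((1 - s ^ 2 : ℝ) : ℂ) := by
      rw [Complex.conj_mul']; push_cast; rfl
    have e2 : (1 : ℂ) - conj w * w = ((1 - s ^ 4 : ℝ) : ℂ) := by
      rw [Complex.conj_mul', hws]; push_cast; ring
    have p1 : 0 < 1 - s ^ 2 := by nlinarith
    have p2 : 0 < 1 - s ^ 4 := by nlinarith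
    have hd0 : 0 < ‖deriv f 0‖ := norm_pos_iff.2 (hf.dne 0 h0)
    rw [e1, e2]
    simp only [mul_zero, sub_zero, one_pow, div_one, norm_mul, norm_div, norm_pow,
      Complex.norm_real, Real.norm_eq_abs, abs_of_pos p1, abs_of_pos p2, Complex.norm_ofNat, ← hs]
    have e3 : (1 - s ^ 2) / (1 - s ^ 2) ^ 2 * ((1 - s ^ 4) * ‖deriv f 0‖ / (2 * s))
        = (1 + s ^ 2) / (2 * s) * ‖deriv f 0‖ := by
      field_simp
      ring
    rw [e3]
    have : 1 < (1 + s ^ 2) / (2 * s) := by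
      rw [one_lt_div (by positivity)]; nlinarith
    nlinarith

theorem exists_fam_max {D : Set ℂ} (hDo : IsOpen D) (hDc : IsPreconnected D) (h0 : (0 : ℂ) ∈ D)
    {R : ℝ} (hDR : D ⊆ ball 0 R) :
    ∃ f, Fam D f ∧ ∀ g, Fam D g → ‖deriv g 0‖ ≤ ‖deriv f 0‖ := by
  have hR : 0 < R := by simpa using hDR h0
  obtain ⟨r, hr, hrD⟩ := Metric.isOpen_iff.1 hDo 0 h0
  set S : Set ℝ := {t | ∃ g, Fam D g ∧ t = ‖deriv g 0‖} with hS
  have hbdd : BddAbove S := by
    refine ⟨1 / r, ?_⟩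
    rintro t ⟨g, hg, rfl⟩
    apply Complex.norm_deriv_le_div_of_mapsTo_ball (hg.diff.mono hrD) _ hr
    intro z hz
    rw [hg.zero]
    simpa using (hg.maps z (hrD hz)).le
  have hR' : (R : ℂ) ≠ 0 := by exact_mod_cast hR.ne'
  have hd1 : ∀ z : ℂ, HasDerivAt (fun z : ℂ => z / R) (1 / R) z := fun z =>
    (hasDerivAt_id z).div_const _
  have hfam1 : Fam D (fun z => z / R) := by
    refine ⟨fun z _ => (hd1 z).differentiableAt.differentiableWithinAt, ?_, ?_, by simp, ?_⟩
    · intro z hz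
      have := hDR hz
      rw [mem_ball_zero_iff] at this
      rw [norm_div, Complex.norm_real, Real.norm_of_nonneg hR.le, div_lt_one hR]
      exact this
    · intro z _ w _ h
      simpa [hR'] using h
    · intro z _
      rw [(hd1 z).deriv]; simp [hR']
  have hne : S.Nonempty := ⟨_, _, hfam1, rfl⟩
  obtain ⟨u, -, hu, huS⟩ := exists_seq_tendsto_sSup hne hbdd
  choose F hF hFu using huS
  obtain ⟨f, hf⟩ := montel (hyperfilter ℕ) hDo (fun i => (hF i).diff)
    (fun i z hz => ((hF i).maps z hz).le)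
  have hFd : ∀ᶠ i in (hyperfilter ℕ : Filter ℕ), DifferentiableOn ℂ (F i) D :=
    Eventually.of_forall fun i => (hF i).diff
  have hfd : DifferentiableOn ℂ f D := hf.differentiableOn hFd hDo
  have hf' := hf.deriv hFd hDo
  have hle : (hyperfilter ℕ : Filter ℕ) ≤ atTop := by
    rw [← Nat.cofinite_eq_atTop]; exact hyperfilter_le_cofinite
  have hsup : ‖deriv f 0‖ = sSup S := by
    have h1 := (hf'.tendsto_at h0).norm
    have h2 : Tendsto (fun i => ‖(deriv ∘ F) i 0‖) (hyperfilter ℕ : Filter ℕ) (𝓝 (sSup S)) := by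
      have := hu.mono_left hle
      refine this.congr fun i => ?_
      simp [hFu i]
    exact tendsto_nhds_unique h1 h2
  have hd0 : deriv f 0 ≠ 0 := by
    rw [← norm_pos_iff, hsup]
    refine lt_of_lt_of_le ?_ (le_csSup hbdd ⟨_, hfam1, rfl⟩)
    exact norm_pos_iff.2 (hfam1.dne 0 h0)
  have hf0 : f 0 = 0 := by
    have h1 := hf.tendsto_at h0
    simp only [(hF _).zero] at h1
    exact (tendsto_nhds_unique h1 tendsto_const_nhds)
  have hnc : ∀ c : ℂ, ∃ a ∈ D, f a - c ≠ 0 := by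
    intro c
    by_contra hcon
    push Not at hcon
    apply hd0
    have : f =ᶠ[𝓝 0] fun _ => c := by
      filter_upwards [hDo.mem_nhds h0] with z hz using sub_eq_zero.1 (hcon z hz)
    rw [this.deriv_eq]; simp
  have hle1 : ∀ z ∈ D, ‖f z‖ ≤ 1 := fun z hz =>
    le_of_tendsto (hf.tendsto_at hz).norm (Eventually.of_forall fun i => ((hF i).maps z hz).le)
  refine ⟨f, ⟨hfd, ?_, ?_, hf0, ?_⟩, ?_⟩
  · intro z hz
    refine lt_of_le_of_ne (hle1 z hz) fun h1 => ?_
    have hmax : IsMaxOn (norm ∘ f) D z := fun y hy => by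
      simp only [Function.comp, mem_ofPred_eq, h1]; exact hle1 y hy
    have := Complex.norm_eqOn_of_isPreconnected_of_isMaxOn hDc hDo hfd hz hmax h0
    simp [hf0, h1] at this
  · intro z₁ hz₁ z₂ hz₂ he
    by_contra hne12
    obtain ⟨a, ha, hfa⟩ := hnc (f z₁)
    have hlim : TendstoLocallyUniformlyOn (fun i z => F i z - F i z₁) (fun z => f z - f z₁)
        (hyperfilter ℕ : Filter ℕ) D :=
      hf.sub ((hf.tendsto_at hz₁).tendstoUniformlyOn_const D).tendstoLocallyUniformlyOn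
    have hdiff : DifferentiableOn ℂ (fun z => f z - f z₁) D := hfd.sub_const _
    have := hurwitz_local hDo (F := fun i z => F i z - F i z₁)
      (Eventually.of_forall fun i => (hF i).diff.sub_const _) hdiff.continuousOn hlim hz₂
      (by simp [he]) (ev_ne_of_ne hDo hDc hdiff ha hfa hz₂) (s := {z₁}ᶜ)
      (compl_singleton_mem_nhds (Ne.symm hne12))
    obtain ⟨i, z, ⟨hz1, hz2⟩, hz3⟩ := this.exists
    exact hz1 ((hF i).inj hz2 hz₁ (sub_eq_zero.1 hz3))
  · intro z hz h1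
    have hdiff : DifferentiableOn ℂ (deriv f) D := hfd.deriv hDo
    have := hurwitz_local hDo (F := deriv ∘ F)
      (Eventually.of_forall fun i => (hF i).diff.deriv hDo) hdiff.continuousOn hf' hz h1
      (ev_ne_of_ne hDo hDc hdiff h0 hd0 hz) univ_mem
    obtain ⟨i, y, ⟨-, hy⟩, hy3⟩ := this.exists
    exact (hF i).dne y hy hy3
  · intro g hg
    rw [hsup]
    exact le_csSup hbdd ⟨g, hg, rfl⟩

/-- Holomorphic inverse of an injective holomorphic map with nonvanishing derivative. -/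
theorem exists_inverse {D : Set ℂ} (hDo : IsOpen D) {f : ℂ → ℂ} (hf : DifferentiableOn ℂ f D)
    (hinj : InjOn f D) (hd : ∀ z ∈ D, deriv f z ≠ 0) :
    ∃ ψ : ℂ → ℂ, IsOpen (f '' D) ∧ DifferentiableOn ℂ ψ (f '' D) ∧ (∀ z ∈ D, ψ (f z) = z) := by
  classical
  have hs : ∀ z ∈ D, HasStrictDerivAt f (deriv f z) z := fun z hz =>
    ((hf.analyticAt (hDo.mem_nhds hz)).contDiffAt (n := 1)).hasStrictDerivAt one_ne_zero
  refine ⟨Function.invFunOn f D, ?_, ?_, fun z hz => hinj.leftInvOn_invFunOn hz⟩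
  · rw [isOpen_iff_mem_nhds]
    rintro _ ⟨z, hz, rfl⟩
    rw [← (hs z hz).map_nhds_eq (hd z hz)]
    exact image_mem_map (hDo.mem_nhds hz)
  · rintro _ ⟨z, hz, rfl⟩
    apply DifferentiableAt.differentiableWithinAt
    refine ((hs z hz).to_local_left_inverse (hd z hz) ?_).hasDerivAt.differentiableAt
    filter_upwards [hDo.mem_nhds hz] with y hy using hinj.leftInvOn_invFunOn hy

/-- The Riemann mapping theorem for bounded simply connected domains. -/
theorem rmt {D : Set ℂ} (hDo : IsOpen D) (hDc : IsSimplyConnected D) (h0 : (0 : ℂ) ∈ D)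
    {R : ℝ} (hDR : D ⊆ ball 0 R) :
    ∃ φ ψ : ℂ → ℂ, DifferentiableOn ℂ φ D ∧ MapsTo φ D (ball 0 1) ∧ φ 0 = 0 ∧
      DifferentiableOn ℂ ψ (ball 0 1) ∧ MapsTo ψ (ball 0 1) D ∧
      (∀ u ∈ ball (0 : ℂ) 1, φ (ψ u) = u) ∧ (∀ z ∈ D, ψ (φ z) = z) := by
  obtain ⟨φ, hφ, hmax⟩ := exists_fam_max hDo hDc.isPathConnected.isConnected.isPreconnected h0 hDR
  have him : φ '' D = ball 0 1 := by
    apply Subset.antisymm
    · rintro _ ⟨z, hz, rfl⟩
      simpa using hφ.maps z hz
    · intro w hw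
      by_contra hcon
      obtain ⟨g, hg, hlt⟩ := hφ.improve hDo hDc h0 (w := w) (by simpa using hw)
        (fun z hz h => hcon ⟨z, hz, h⟩)
      exact absurd (hmax g hg) (not_le.2 hlt)
  obtain ⟨ψ, -, hψ, hl⟩ := exists_inverse hDo hφ.diff hφ.inj hφ.dne
  rw [him] at hψ
  refine ⟨φ, ψ, hφ.diff, fun z hz => by simpa using hφ.maps z hz, hφ.zero, hψ, ?_, ?_, hl⟩
  · intro u hu
    rw [← him] at hu
    obtain ⟨z, hz, rfl⟩ := hu
    rw [hl z hz]; exact hz
  · intro u hu
    rw [← him] at hu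
    obtain ⟨z, hz, rfl⟩ := hu
    rw [hl z hz]

end Crest.Agent.H0179
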