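import Crest.Agent.H0179.Crouzeix

set_option autoImplicit false

open Set Filter Metric Topology
open scoped ComplexConjugate InnerProductSpace

namespace Crest.Agent.H0179

variable {V : Type*} [NormedAddCommGroup V] [InnerProductSpace ℂ V]

/-- The numerical range. -/
def nr (A : V →L[ℂ] V) : Set ℂ := {z | ∃ x : V, ‖x‖ = 1 ∧ z = ⟪x, A x⟫_ℂ}

theorem th_aux (B : V →L[ℂ] V) {x y : V} (hx : ‖x‖ = 1) (hy : ‖y‖ = 1) (h0 : ⟪x, B x⟫_ℂ = 0)
    (h1 : ⟪y, B y⟫_ℂ = 1) {t : ℝ} (ht0 : 0 ≤ t) (ht1 : t ≤ 1) :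
    ∃ z : V, ‖z‖ = 1 ∧ ⟪z, B z⟫_ℂ = t := by
  obtain ⟨l, hl1, hl2⟩ : ∃ l : ℂ, ‖l‖ = 1 ∧
      (l * ⟪x, B y⟫_ℂ + conj l * ⟪y, B x⟫_ℂ).im = 0 := by
    set a := ⟪x, B y⟫_ℂ
    set b := ⟪y, B x⟫_ℂ
    by_cases hw : a - conj b = 0
    · refine ⟨1, by simp, ?_⟩
      have : a = conj b := sub_eq_zero.1 hw
      simp [this]
    · have hn : ‖a - conj b‖ ≠ 0 := norm_ne_zero_iff.2 hw
      refine ⟨conj (a - conj b) / ‖a - conj b‖, ?_, ?_⟩
      · rw [norm_div, Complex.norm_conj, Complex.norm_real, norm_norm, div_self hn]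
      · rw [map_div₀, Complex.conj_conj, Complex.conj_ofReal, div_mul_eq_mul_div,
          div_mul_eq_mul_div, ← add_div, Complex.div_ofReal_im]
        have : ((starRingEnd ℂ) (a - (starRingEnd ℂ) b) * a + (a - (starRingEnd ℂ) b) * b).im
            = 0 := by
          simp; ring
        rw [this, zero_div]
  set c : ℝ := (l * ⟪x, B y⟫_ℂ + conj l * ⟪y, B x⟫_ℂ).re with hc
  have hce : l * ⟪x, B y⟫_ℂ + conj l * ⟪y, B x⟫_ℂ = c := by
    apply Complex.ext <;> simp [hc, hl2]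
  have hll : conj l * l = 1 := by rw [Complex.conj_mul', hl1]; simp
  set z : ℝ → V := fun s => ((1 - s : ℝ) : ℂ) • x + ((s : ℂ) * l) • y with hz
  have hzB : ∀ s : ℝ, ⟪z s, B (z s)⟫_ℂ = ((s ^ 2 + s * (1 - s) * c : ℝ) : ℂ) := by
    intro s
    simp only [hz, map_add, map_smul, inner_add_left, inner_add_right, inner_smul_left,
      inner_smul_right, h0, h1, map_mul, Complex.conj_ofReal]
    push_cast
    rw [← hce]
    linear_combination (s : ℂ) ^ 2 * hll
  have hzc : Continuous z := by rw [hz]; fun_prop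
  have hcont : ContinuousOn (fun s : ℝ => s ^ 2 + s * (1 - s) * c - t * ‖z s‖ ^ 2) (Icc 0 1) := by
    fun_prop
  obtain ⟨s, hs, hs0⟩ := intermediate_value_Icc zero_le_one hcont
    (show (0 : ℝ) ∈ Icc _ _ from by
      simp [hz, hx, hy, norm_smul, hl1, ht0, ht1])
  have hne : z s ≠ 0 := by
    intro h
    have e1 : ((1 - s : ℝ) : ℂ) • x = -(((s : ℂ) * l) • y) := eq_neg_of_add_eq_zero_left h
    have e2 : ⟪((1 - s : ℝ) : ℂ) • x, B (((1 - s : ℝ) : ℂ) • x)⟫_ℂ = 0 := by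
      simp only [map_smul, inner_smul_left, inner_smul_right, h0, mul_zero]
    rw [e1] at e2
    simp only [map_neg, map_smul, inner_neg_left, inner_neg_right, inner_smul_left,
      inner_smul_right, h1, map_mul, Complex.conj_ofReal] at e2
    have e3 : (s : ℂ) ^ 2 = 0 := by linear_combination e2 - (s : ℂ) ^ 2 * hll
    have e4 : s = 0 := by exact_mod_cast pow_eq_zero_iff two_ne_zero |>.1 e3
    simp [hz, e4] at h
    simp [h] at hx
  have hn : (‖z s‖ : ℂ) ≠ 0 := by exact_mod_cast norm_ne_zero_iff.2 hne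
  refine ⟨(‖z s‖ : ℂ)⁻¹ • z s, ?_, ?_⟩
  · rw [norm_smul, norm_inv, Complex.norm_real, norm_norm,
      inv_mul_cancel₀ (norm_ne_zero_iff.2 hne)]
  · simp only [map_smul, inner_smul_left, inner_smul_right, map_inv₀, Complex.conj_ofReal, hzB]
    have : s ^ 2 + s * (1 - s) * c = t * ‖z s‖ ^ 2 := by linarith
    rw [this]
    push_cast
    field_simp

/-- The Toeplitz–Hausdorff theorem. -/
theorem convex_nr (A : V →L[ℂ] V) : Convex ℝ (nr A) := by
  rintro _ ⟨x, hx, rfl⟩ _ ⟨y, hy, rfl⟩ a b ha hb hab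
  set α := ⟪x, A x⟫_ℂ with hα
  set β := ⟪y, A y⟫_ℂ with hβ
  have ha' : a = 1 - b := by linarith
  by_cases h : β - α = 0
  · refine ⟨x, hx, ?_⟩
    rw [sub_eq_zero.1 h, ← add_smul, hab, one_smul]
  have hB : ∀ z : V, ‖z‖ = 1 →
      ⟪z, ((β - α)⁻¹ • (A - α • (1 : V →L[ℂ] V))) z⟫_ℂ = (β - α)⁻¹ * (⟪z, A z⟫_ℂ - α) := by
    intro z hz
    simp only [smul_apply, sub_apply, one_apply_eq_self, inner_smul_right, inner_sub_right,
      inner_self_eq_norm_sq_to_K, hz]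
    simp
  obtain ⟨z, hz, hz'⟩ := th_aux ((β - α)⁻¹ • (A - α • (1 : V →L[ℂ] V))) hx hy
    (by rw [hB x hx]; simp [hα]) (by rw [hB y hy, inv_mul_cancel₀ h]) hb (by linarith)
  refine ⟨z, hz, ?_⟩
  rw [hB z hz] at hz'
  field_simp at hz'
  simp only [Complex.real_smul, ha']
  push_cast
  linear_combination -hz'

theorem isCompact_nr [FiniteDimensional ℂ V] (A : V →L[ℂ] V) : IsCompact (nr A) := by
  have : ProperSpace V := FiniteDimensional.proper ℂ V
  have h : nr A = (fun x => ⟪x, A x⟫_ℂ) '' sphere 0 1 := by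
    ext z
    simp [nr, eq_comm]
  rw [h]
  exact (isCompact_sphere 0 1).image (by fun_prop)

theorem nr_nonempty [Nontrivial V] (A : V →L[ℂ] V) : (nr A).Nonempty := by
  have : NormedSpace ℝ V := NormedSpace.complexToReal
  obtain ⟨x, hx⟩ := (NormedSpace.sphere_nonempty (E := V) (x := 0)).2 zero_le_one
  exact ⟨_, x, by simpa using hx, rfl⟩

theorem exists_ext_nr [FiniteDimensional ℂ V] [Nontrivial V] (A : V →L[ℂ] V) {O : Set ℂ}
    (hO : IsOpen O) (h : nr A ⊆ O) :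
    ∃ R k, Ext (nr A) R k ∧ ∀ u ∈ S1, gg k u ∈ O := by
  obtain ⟨R, k, E, hk⟩ := exists_ext (isCompact_nr A) (convex_nr A) (nr_nonempty A) hO h
  exact ⟨R, k, E, fun u hu => hk u (mem_S1.1 hu)⟩

theorem crouzeix_fin [FiniteDimensional ℂ V] [Nontrivial V] (A : V →L[ℂ] V) (m d : ℕ)
    (B : Fin (d + 1) → Matrix (Fin m) (Fin m) ℂ) (M : ℝ)
    (hM : ∀ x : V, ‖x‖ = 1 →
      ‖Matrix.toEuclideanCLM (n := Fin m) (𝕜 := ℂ)
          (∑ k : Fin (d + 1), (inner ℂ x (A x)) ^ (k : ℕ) • B k)‖ ≤ M)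
    (v : PiLp 2 (fun _ : Fin m => V)) :
    ‖(WithLp.toLp 2 (fun i : Fin m => ∑ j : Fin m, ∑ k : Fin (d + 1), B k i j • (A ^ (k : ℕ)) (v j))
        : PiLp 2 (fun _ : Fin m => V))‖ ≤ 2 * M * ‖v‖ := by
  have key : ∀ ε : ℝ, 0 < ε → ‖(WithLp.toLp 2 (fun i : Fin m => ∑ j : Fin m, ∑ k : Fin (d + 1),
      B k i j • (A ^ (k : ℕ)) (v j)) : PiLp 2 (fun _ : Fin m => V))‖ ≤ 2 * (M + ε) * ‖v‖ := by
    intro ε hε
    have hc : Continuous fun z : ℂ => ‖Matrix.toEuclideanCLM (n := Fin m) (𝕜 := ℂ)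
        (∑ k : Fin (d + 1), z ^ (k : ℕ) • B k)‖ := by
      simp only [map_sum, map_smul]
      fun_prop
    obtain ⟨R, k, E, hk⟩ := exists_ext_nr A (isOpen_lt hc (continuous_const (y := M + ε)))
      (by rintro _ ⟨x, hx, rfl⟩; exact lt_of_le_of_lt (hM x hx) (by linarith))
    have hA : ∀ x : V, ‖x‖ = 1 → ⟪x, A x⟫_ℂ ∈ nr A := fun x hx => ⟨x, hx, rfl⟩
    set P : Fin m → Fin m → Polynomial ℂ :=
      fun i j => ∑ l : Fin (d + 1), Polynomial.C (B l i j) * Polynomial.X ^ (l : ℕ) with hP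
    have h := E.crouzeix hA (φ := fun i j u => (P i j).eval (gg k u))
      (fun i j => by simpa using E.adm_poly_mul E.adm_one (P i j)) (M := M + ε)
      (fun u hu => by
        refine le_of_eq_of_le ?_ (hk u hu).le
        congr 2
        ext i j
        simp only [hP, Matrix.of_apply, Polynomial.eval_finsetSum, Matrix.sum_apply,
          Polynomial.eval_mul, Polynomial.eval_C, Polynomial.eval_pow, Polynomial.eval_X,
          Matrix.smul_apply, smul_eq_mul]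
        exact Finset.sum_congr rfl fun l _ => mul_comm _ _) v
    have hPA : ∀ i j (x : V), Polynomial.aeval A (P i j) x =
        ∑ l : Fin (d + 1), B l i j • (A ^ (l : ℕ)) x := by
      intro i j x
      simp only [hP, map_sum, map_mul, map_pow, Polynomial.aeval_C, Polynomial.aeval_X]
      rw [sum_apply]
      refine Finset.sum_congr rfl fun l _ => ?_
      rw [← Algebra.smul_def, smul_apply]
    simp only [E.J_poly hA, hPA] at h
    exact h
  have hlim : Tendsto (fun ε : ℝ => 2 * (M + ε) * ‖v‖) (𝓝[>] 0) (𝓝 (2 * (M + 0) * ‖v‖)) :=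
    (Continuous.tendsto (by fun_prop) 0).mono_left nhdsWithin_le_nhds
  rw [add_zero] at hlim
  exact ge_of_tendsto hlim (eventually_nhdsWithin_of_forall fun ε hε => key ε hε)

theorem crouzeix_general
    {H : Type*} [NormedAddCommGroup H] [InnerProductSpace ℂ H] [CompleteSpace H]
    (A : H →L[ℂ] H) (m d : ℕ) (B : Fin (d + 1) → Matrix (Fin m) (Fin m) ℂ) (M : ℝ)
    (hM : ∀ x : H, ‖x‖ = 1 →
      ‖Matrix.toEuclideanCLM (n := Fin m) (𝕜 := ℂ)
          (∑ k : Fin (d + 1), (inner ℂ x (A x)) ^ (k : ℕ) • B k)‖ ≤ M)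
    (v : PiLp 2 (fun _ : Fin m => H)) :
    ‖(WithLp.toLp 2 (fun i : Fin m => ∑ j : Fin m, ∑ k : Fin (d + 1), B k i j • (A ^ (k : ℕ)) (v j))
        : PiLp 2 (fun _ : Fin m => H))‖ ≤ 2 * M * ‖v‖ := by
  by_cases hv : v = 0
  · subst hv
    simp
    rfl
  set F : Submodule ℂ H :=
    Submodule.span ℂ (range fun p : Fin (d + 1) × Fin m => (A ^ (p.1 : ℕ)) (v p.2)) with hF
  have : FiniteDimensional ℂ F := FiniteDimensional.span_of_finite ℂ (finite_range _)
  have hmem : ∀ l ≤ d, ∀ j, (A ^ l) (v j) ∈ F := fun l hl j =>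
    Submodule.subset_span ⟨(⟨l, by omega⟩, j), rfl⟩
  have hv' : ∀ j, v j ∈ F := fun j => by simpa using hmem 0 (Nat.zero_le _) j
  have : Nontrivial F := by
    obtain ⟨j, hj⟩ : ∃ j, v j ≠ 0 := by
      by_contra hcon
      push Not at hcon
      exact hv (by ext j; simp [hcon j])
    exact ⟨⟨⟨v j, hv' j⟩, 0, fun h => hj (congrArg Subtype.val h)⟩⟩
  set A' : F →L[ℂ] F := F.orthogonalProjectionOnto.comp (A.comp F.subtypeL) with hA'
  have hin : ∀ x : F, ⟪x, A' x⟫_ℂ = ⟪(x : H), A x⟫_ℂ := by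
    intro x
    simp [hA']
  have hpow : ∀ l ≤ d, ∀ j, (((A' ^ l) ⟨v j, hv' j⟩ : F) : H) = (A ^ l) (v j) := by
    intro l
    induction l with
    | zero => simp
    | succ l ih =>
      intro hl j
      have h1 := ih (by omega) j
      rw [pow_succ', mul_apply_eq_comp, hA', ContinuousLinearMap.comp_apply,
        ContinuousLinearMap.comp_apply, Submodule.subtypeL_apply, ← hA', h1, ← mul_apply_eq_comp,
        ← pow_succ']
      exact congrArg Subtype.val
        (Submodule.orthogonalProjectionOnto_mem_subspace_eq_self (⟨_, hmem (l + 1) hl j⟩ : F))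
  have h := crouzeix_fin A' m d B M (fun x hx => by rw [hin]; exact hM x hx)
    (WithLp.toLp 2 fun j => ⟨v j, hv' j⟩)
  convert h using 1
  · simp only [PiLp.norm_eq_of_L2]
    congr 2
    ext i
    rw [← Submodule.norm_coe]
    simp only [Submodule.coe_sum, Submodule.coe_smul, hpow _ (Nat.lt_succ_iff.1 (Fin.is_lt _))]
  · simp only [PiLp.norm_eq_of_L2]
    rfl

end Crest.Agent.H0179
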